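import Vale.Agent.P188.N.Bas
import Vale.Agent.P188.S.Gen

/-! Invariance of the affine data under one letter.
Plan.  `v ∈ Ω` with `h Ω i = wv v i` (`exists_h`), `ζ ∈ Z (Cp C₁ S)` over `v` (`exists_pos`).
Test points `z = 1` and `z j ∈ Z (η S)` with `A (z j) = ρ' • (± single j 1)`, `ρ' = η S / Cp`, the
sign chosen with `0 ≤ ⟪wt i, A (z j)⟫`.  `y = t • X i ∈ C₂ • K (wv (A (ζ * z)))` (`X_mem_K`), so
`ln ((ζ z)⁻¹ * y * (ζ z)) ≤ C log (2 + C S)` (`ln_conj_K`, `τ = 0`, `wv_wtFun`, `Z_mul`) and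
`‖A φ (l y ζ z) - A φ (l ζ z)‖ ≤ κ S` for large `S` (`A_lip`; `log (2 + C S) = o (S)`).
Bad sets: those of `ChP.aff` at `(ζ, z)` and their preimages under `l ↦ l * y`
(`mE_preimage_mul_right`), `2 (k + 1)` sets.  Outside them
`‖w (l y) (v + b) + m (l y) - w l (v + b) - m l‖ ≤ 3 κ S` for `b = 0` and `b = A (z j)`; subtract,
`W_eq_of_basis`.
-/

namespace Vale.Agent.P188.Geo
open scoped InnerProductSpace Pointwise
open MeasureTheory
variable (M : Geo)

theorem letter_union {X ι : Type*} [MeasurableSpace X] [Fintype ι] (μ : Measure X) {D : Set X}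
    (hD : μ D ≠ ⊤) (E : ι → Set X) {E' : Set X} (h : ∀ x ∈ D, (∀ i, x ∉ E i) → x ∉ E') {θ : ℝ}
    (hθ : ∀ i, μ.real (D ∩ E i) ≤ θ) : μ.real (D ∩ E') ≤ Fintype.card ι * θ := by
  have h1 : D ∩ E' ⊆ ⋃ i ∈ (Finset.univ : Finset ι), D ∩ E i := by
    rintro x ⟨hx, hx'⟩
    by_contra hn
    refine h x hx (fun i hxi => hn ?_) hx'
    exact Set.mem_biUnion (Finset.mem_coe.2 (Finset.mem_univ i)) ⟨hx, hxi⟩
  have h2 : (⋃ i ∈ (Finset.univ : Finset ι), D ∩ E i) ⊆ D :=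
    Set.iUnion₂_subset fun i _ => Set.inter_subset_left
  calc μ.real (D ∩ E') ≤ μ.real (⋃ i ∈ (Finset.univ : Finset ι), D ∩ E i) :=
        measureReal_mono h1 (ne_top_of_le_ne_top hD (measure_mono h2))
    _ ≤ ∑ i, μ.real (D ∩ E i) := measureReal_biUnion_finset_le _ _
    _ ≤ ∑ _i : ι, θ := Finset.sum_le_sum fun i _ => hθ i
    _ = Fintype.card ι * θ := by rw [Finset.sum_const, nsmul_eq_mul, Finset.card_univ]

theorem letter_three {V : Type*} [SeminormedAddCommGroup V] {a a' b b' m m' : V} {τ : ℝ}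
    (h1 : ‖a - b - m‖ ≤ τ) (h2 : ‖a' - b' - m'‖ ≤ τ) (h3 : ‖a' - a‖ ≤ τ) :
    ‖b' + m' - (b + m)‖ ≤ 3 * τ := by
  have e : b' + m' - (b + m) = (a - b - m) - (a' - b' - m') + (a' - a) := by abel
  rw [e]
  have := (norm_add_le _ _).trans (add_le_add ((norm_sub_le _ _).trans (add_le_add h1 h2)) h3)
  linarith

theorem letter : ∃ Cp : ℝ, 1 ≤ Cp ∧ ∀ K C C₁ C₂ η : ℝ, 1 ≤ C₁ → 0 ≤ C₂ → 0 < η → η ≤ 1 →
    ∃ C₃ κ₀ : ℝ, 1 ≤ C₃ ∧ 0 < κ₀ ∧ ∀ κ : ℝ, 0 < κ → κ ≤ κ₀ → ∃ S₀ : ℝ, ∀ S : ℝ, S₀ ≤ S →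
      ∀ φ, M.MQI K C φ → ∀ Ω ε B C₀ w m, M.Adm Ω S C₁ ε B → Cp * C₁ ≤ C₀ →
        M.ChP φ Ω S C₀ η κ B w m → ∀ i, M.wt i ≠ 0 → ∀ t : ℝ, |t| ≤ C₂ * Real.exp (M.h Ω i) →
          M.mE.real ((C₀ • B) ∩ {l | l * (t • M.X i) ∈ C₀ • B ∧
            (w (l * (t • M.X i)) ≠ w l ∨ C₃ * κ * S < ‖m (l * (t • M.X i)) - m l‖)}) ≤
            C₃ * κ * M.mE.real B := by
  obtain ⟨Cp, hCp, hpos⟩ := M.exists_pos
  refine ⟨Cp, hCp, fun K C C₁ C₂ η h1 h2 hη hη1 => ?_⟩
  obtain ⟨c, hc, hsep⟩ := M.W_eq_of_basis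
  obtain ⟨C', hC', hlip⟩ := M.A_lip K C
  obtain ⟨Cz, hCz, hmul⟩ := M.Z_mul
  obtain ⟨Cl, hCl, hln⟩ := M.ln_conj_K C₂ h2
  set n : ℝ := (Fintype.card (Option (Fin M.k) × Bool) : ℝ) with hn
  have hn0 : 0 ≤ n := Nat.cast_nonneg _
  refine ⟨n + 3, c * η / (6 * Cp), by linarith, by positivity, fun κ hκ hκ0 => ?_⟩
  set D := Cz * (Cp * C₁) with hD
  have hD0 : 0 ≤ D := by positivity
  obtain ⟨S₀, hS₀1, hS₀⟩ := log_small C' (C' * Cl + D) κ (by positivity) hκ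
  refine ⟨S₀, fun S hS φ hφ Ω ε B C₀ w m hA hC₀ hP i hi t ht => ?_⟩
  have hS0 : 0 < S := by linarith
  obtain ⟨v, hv, hvi⟩ := M.exists_h hA.compact hA.nonempty i
  have hvn : ‖v‖ ≤ C₁ * S := mem_closedBall_zero_iff.1 (hA.bdd hv)
  obtain ⟨ζ, hζ, hAζ⟩ := hpos v _ hvn
  have hρ₁ : 0 ≤ Cp * (C₁ * S) := by positivity
  have hζ' : ζ ∈ M.Z (C₀ * S) := M.Z_mono hρ₁ (by nlinarith) hζ
  set ρ' := η * S / Cp with hρ'
  have hρ'0 : 0 < ρ' := by positivity
  have hz : ∀ j : Option (Fin M.k), ∃ z ∈ M.Z (η * S), 0 ≤ ⟪M.wt i, M.A z⟫_ℝ ∧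
      (j = none → M.A z = 0) ∧ ∀ j', j = some j' →
        ∃ s : ℝ, |s| = ρ' ∧ M.A z = s • EuclideanSpace.single j' 1 := by
    rintro (_ | j)
    · exact ⟨0, (M.Z_isLB _).sc.zero_mem, by simp, fun _ => map_zero _, by simp⟩
    · have : ∃ s : ℝ, |s| = ρ' ∧ 0 ≤ ⟪M.wt i, s • (EuclideanSpace.single j 1 : M.V)⟫_ℝ := by
        rcases le_total 0 ⟪M.wt i, (EuclideanSpace.single j 1 : M.V)⟫_ℝ with h | h
        · exact ⟨ρ', abs_of_pos hρ'0, by rw [inner_smul_right]; positivity⟩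
        · exact ⟨-ρ', by rw [abs_neg, abs_of_pos hρ'0], by rw [inner_smul_right]; nlinarith⟩
      obtain ⟨s, hs, hs'⟩ := this
      obtain ⟨y, hy, e⟩ := hpos (s • EuclideanSpace.single j 1) ρ' (by
        rw [norm_smul, Real.norm_eq_abs, hs]; simp)
      refine ⟨y, by rwa [show Cp * ρ' = η * S by rw [hρ']; field_simp] at hy, by rwa [e],
        by simp, fun j' hj => ?_⟩
      obtain rfl := Option.some.inj hj
      exact ⟨s, hs, e⟩
  choose z hzZ hz0 hzn hzs using hz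
  set y := t • M.X i with hy
  have hye : y ∈ M.e := M.e.smul_mem _ (M.X_mem_e hi)
  have hmove : ∀ l j, ‖M.A (φ (l * y * ζ * z j)) - M.A (φ (l * ζ * z j))‖ ≤ κ * S := by
    intro l j
    have hz1 : z j ∈ M.Z (Cp * (C₁ * S)) := M.Z_mono (by positivity) (by
      have : 1 ≤ Cp * C₁ := one_le_mul_of_one_le_of_one_le hCp h1
      nlinarith) (hzZ j)
    have hζz := hmul _ hρ₁ _ hζ _ hz1
    rw [show Cz * (Cp * (C₁ * S)) = D * S by rw [hD]; ring] at hζz
    set r := M.wv (M.A (ζ * z j)) with hr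
    have hri : M.h Ω i ≤ r i := by
      rw [hvi, hr, M.A_mul, hAζ]
      simp only [wv, inner_add_right]
      linarith [hz0 j]
    have hyK : y ∈ C₂ • M.K r := by
      have h3 : Real.exp (r i) • M.X i ∈ M.K r :=
        M.X_mem_K hi (by rw [abs_of_pos (Real.exp_pos _)])
      have h4 : y = (t / Real.exp (r i)) • (Real.exp (r i) • M.X i) := by
        rw [smul_smul, div_mul_cancel₀ _ (Real.exp_pos _).ne']
      rw [h4]
      refine (M.K_isLB r).sc.smul_mono ?_ (Set.smul_mem_smul_set h3)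
      rw [abs_div, abs_of_pos (Real.exp_pos _), div_le_iff₀ (Real.exp_pos _)]
      exact ht.trans (mul_le_mul_of_nonneg_left (Real.exp_le_exp.2 hri) h2)
    have h5 := hln r (D * S) 0 (by positivity) le_rfl (M.wv_wtFun _) _ hζz
      (fun i _ => by rw [add_zero]) y hyK
    have h6 := (hlip φ hφ.2 (l * ζ * z j) ((ζ * z j)⁻¹ * y * (ζ * z j))).1
    rw [show l * ζ * z j * ((ζ * z j)⁻¹ * y * (ζ * z j)) = l * y * ζ * z j by group] at h6
    have h7 := hS₀ S hS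
    have h8 : Real.log (2 + D * S) ≤ Real.log (2 + (C' * Cl + D) * S) :=
      Real.log_le_log (by positivity) (by
        have : 0 ≤ C' * Cl * S := by positivity
        nlinarith)
    have h9 : 0 ≤ Real.log (2 + D * S) := Real.log_nonneg (by
      have : 0 ≤ D * S := by positivity
      linarith)
    rw [zero_add] at h5
    have h10 : C' * M.ln ((ζ * z j)⁻¹ * y * (ζ * z j)) ≤ C' * (Cl * Real.log (2 + D * S)) :=
      mul_le_mul_of_nonneg_left h5 (by linarith)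
    have h11 : C' * Cl * Real.log (2 + D * S) ≤
        (C' * Cl + D) * Real.log (2 + (C' * Cl + D) * S) :=
      mul_le_mul (by linarith) h8 h9 (by positivity)
    nlinarith
  have hfin : M.mE (C₀ • B) ≠ ⊤ := (hA.lb.compact.smul C₀).measure_lt_top.ne
  let bad : Option (Fin M.k) → Set M.G := fun j =>
    {l | κ * S < ‖M.A (φ (l * ζ * z j)) - w l (M.A ζ + M.A (z j)) - m l‖}
  have hbad : ∀ j, M.mE.real ((C₀ • B) ∩ bad j) ≤ κ * M.mE.real B := fun j =>
    hP.aff ζ hζ' (hAζ ▸ hv) _ (hzZ j)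
  have key := letter_union M.mE hfin (ι := Option (Fin M.k) × Bool)
    (fun q => if q.2 then bad q.1 else (fun x => x * y) ⁻¹' ((C₀ • B) ∩ bad q.1))
    (E' := {l | l * y ∈ C₀ • B ∧ (w (l * y) ≠ w l ∨ (n + 3) * κ * S < ‖m (l * y) - m l‖)})
    (θ := κ * M.mE.real B) ?_ ?_
  · refine key.trans ?_
    rw [← hn, ← mul_assoc]
    exact mul_le_mul_of_nonneg_right (by nlinarith) measureReal_nonneg
  · rintro l - hl ⟨hly, hl'⟩
    have h3 : ∀ j, ‖w (l * y) (M.A ζ + M.A (z j)) + m (l * y) -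
        (w l (M.A ζ + M.A (z j)) + m l)‖ ≤ 3 * (κ * S) := fun j =>
      letter_three (not_lt.1 (hl (j, true))) (not_lt.1 fun h => hl (j, false) ⟨hly, h⟩)
        (hmove l j)
    have hw : w (l * y) = w l := by
      refine hsep _ (hP.hw.1 _) _ (hP.hw.1 _) fun j => ?_
      obtain ⟨s, hs, e⟩ := hzs (some j) j rfl
      have h4 := h3 (some j)
      have h5 := h3 none
      rw [hzn none rfl, add_zero] at h5
      rw [e] at h4
      have e2 : s • (w (l * y) (EuclideanSpace.single j 1) - w l (EuclideanSpace.single j 1)) =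
          (w (l * y) (M.A ζ + s • EuclideanSpace.single j 1) + m (l * y) -
            (w l (M.A ζ + s • EuclideanSpace.single j 1) + m l)) -
          (w (l * y) (M.A ζ) + m (l * y) - (w l (M.A ζ) + m l)) := by
        simp only [map_add, map_smul, smul_sub]
        abel
      have h6 := (norm_sub_le _ _).trans (add_le_add h4 h5)
      rw [← e2, norm_smul, Real.norm_eq_abs, hs] at h6
      have h7 : 3 * (κ * S) + 3 * (κ * S) ≤ ρ' * c := by
        calc 3 * (κ * S) + 3 * (κ * S) = 6 * (κ * S) := by ring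
          _ ≤ 6 * (c * η / (6 * Cp) * S) := by gcongr
          _ = ρ' * c := by rw [hρ']; field_simp
      exact le_of_mul_le_mul_left (h6.trans h7) hρ'0
    rcases hl' with h | h
    · exact h hw
    · have h5 := h3 none
      rw [hw, add_sub_add_left_eq_sub] at h5
      have : 0 ≤ n * (κ * S) := by positivity
      nlinarith
  · rintro ⟨j, _ | _⟩
    · refine le_trans ?_ (hbad j)
      have e := M.mE_preimage_mul_right hye ((C₀ • B) ∩ bad j)
      have e2 : M.mE.real ((fun x => x * y) ⁻¹' ((C₀ • B) ∩ bad j)) =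
          M.mE.real ((C₀ • B) ∩ bad j) := by rw [Measure.real, e, Measure.real]
      rw [← e2]
      refine measureReal_mono Set.inter_subset_right ?_
      show M.mE ((fun x => x * y) ⁻¹' ((C₀ • B) ∩ bad j)) ≠ ⊤
      rw [e]
      exact ne_top_of_le_ne_top hfin (measure_mono Set.inter_subset_left)
    · exact hbad j

end Vale.Agent.P188.Geo
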