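import Vale.Agent.P188.N.Chain
import Vale.Agent.P188.N.Letter

/-! Part N (sub-project): no folds, affinity on all boxes.  Plan: notes/P188_N2.md.
-/

namespace Vale.Agent.P188.Geo
open scoped InnerProductSpace Pointwise
open MeasureTheory
variable (M : Geo)

theorem nmain_word {D : Set M.G} (hD : M.mE D ≠ ⊤) (w : M.G → (M.V ≃ₗᵢ[ℝ] M.V)) (m : M.G → M.V)
    (a b : ℝ) : ∀ L : List M.G, (∀ y ∈ L, y ∈ M.e ∧
      M.mE.real (D ∩ {l | l * y ∈ D ∧ (w (l * y) ≠ w l ∨ a < ‖m (l * y) - m l‖)}) ≤ b) →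
      M.mE.real {l | (∀ k, l * (L.take k).prod ∈ D) ∧
        (w (l * L.prod) ≠ w l ∨ L.length * a < ‖m (l * L.prod) - m l‖)} ≤ L.length * b
  | [], _ => by simp
  | y :: L, h => by
    have ih := nmain_word hD w m a b L fun z hz => h z (List.mem_cons_of_mem _ hz)
    obtain ⟨hy, h1⟩ := h y List.mem_cons_self
    set T := {l | (∀ k, l * (L.take k).prod ∈ D) ∧
      (w (l * L.prod) ≠ w l ∨ L.length * a < ‖m (l * L.prod) - m l‖)} with hT
    have hTD : T ⊆ D := fun l hl => by simpa using hl.1 0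
    have e1 : M.mE ((fun x => x * y) ⁻¹' T) = M.mE T := M.mE_preimage_mul_right hy T
    have e2 : M.mE.real ((fun x => x * y) ⁻¹' T) = M.mE.real T := by
      simp only [Measure.real, e1]
    calc _ ≤ M.mE.real ((D ∩ {l | l * y ∈ D ∧ (w (l * y) ≠ w l ∨ a < ‖m (l * y) - m l‖)}) ∪
          (fun x => x * y) ⁻¹' T) := by
          refine measureReal_mono ?_ (ne_top_of_le_ne_top ?_ (measure_union_le _ _))
          · rintro l ⟨h2, h3⟩
            by_contra hn
            rw [Set.mem_union, not_or] at hn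
            have g0 : l ∈ D := by simpa using h2 0
            have g1 : l * y ∈ D := by simpa using h2 1
            have g2 : ∀ k, l * y * (L.take k).prod ∈ D := fun k => by
              simpa [mul_assoc] using h2 (k + 1)
            have n1 : ¬ (w (l * y) ≠ w l ∨ a < ‖m (l * y) - m l‖) := fun hh => hn.1 ⟨g0, g1, hh⟩
            have n2 : ¬ (w (l * y * L.prod) ≠ w (l * y) ∨
                L.length * a < ‖m (l * y * L.prod) - m (l * y)‖) := fun hh => hn.2 ⟨g2, hh⟩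
            push Not at n1 n2
            rw [List.prod_cons, ← mul_assoc] at h3
            rcases h3 with h3 | h3
            · exact h3 (n2.1.trans n1.1)
            · have := norm_sub_le_norm_sub_add_norm_sub (m (l * y * L.prod)) (m (l * y)) (m l)
              simp only [List.length_cons, Nat.cast_add, Nat.cast_one] at h3
              linarith [n1.2, n2.2]
          · refine ENNReal.add_ne_top.2 ⟨measure_ne_top_of_subset Set.inter_subset_left hD, ?_⟩
            rw [e1]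
            exact measure_ne_top_of_subset hTD hD
      _ ≤ b + L.length * b := (measureReal_union_le _ _).trans (add_le_add h1 (e2 ▸ ih))
      _ = _ := by simp only [List.length_cons, Nat.cast_add, Nat.cast_one]; ring

theorem nmain_gen (C₁ : ℝ) (hC₁ : 1 ≤ C₁) : ∃ (N : ℕ) (C' C'' : ℝ), 1 ≤ C' ∧ 1 ≤ C'' ∧
    ∀ r, ∀ y ∈ C₁ • M.K r, ∃ L : List M.G, L.length ≤ N ∧ L.prod = y ∧
      (∀ z ∈ L, ∃ i, M.wt i ≠ 0 ∧ ∃ t : ℝ, |t| ≤ C' * Real.exp (r i) ∧ z = t • M.X i) ∧
      ∀ k, (L.take k).prod ∈ C'' • M.K r := by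
  classical
  obtain ⟨N, C', hC', hg⟩ := M.bounded_gen M.d C₁ (by linarith)
  obtain ⟨C'', hC'', hp⟩ := M.prod_mem' C' (by linarith) N
  refine ⟨N, C', C'', hC', hC'', fun r y hy => ?_⟩
  set F : Finset M.G := (Finset.univ.filter fun i => M.wt i ≠ 0).image
    fun i => Real.exp (r i) • M.X i
  have hF : (F : Set M.G) = {y | ∃ i, M.wt i ≠ 0 ∧ y = Real.exp (r i) • M.X i} := by
    ext z; simp [F, eq_comm]
  have hK : M.K r = M.gen (F : Set M.G) := by rw [hF]; rfl
  have hcard : F.card ≤ M.d :=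
    Finset.card_image_le.trans ((Finset.card_filter_le _ _).trans (by simp))
  have hsub : (F : Set M.G) ⊆ M.K r := hK ▸ M.subset_gen _
  obtain ⟨l, h1, h2, h3⟩ := hg F hcard (Tame.mono M (M.K_tame r) hsub) y (hK ▸ hy)
  refine ⟨l.map fun p => p.1 • p.2, by simpa using h1, h3.symm, fun z hz => ?_, fun k => ?_⟩
  · obtain ⟨p, hp1, rfl⟩ := List.mem_map.1 hz
    obtain ⟨h4, h5⟩ := h2 p hp1
    have h6 : p.2 ∈ (F : Set M.G) := h5
    rw [hF] at h6
    obtain ⟨i, hi, h7⟩ := h6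
    refine ⟨i, hi, p.1 * Real.exp (r i), ?_, by rw [h7, smul_smul]⟩
    rw [abs_mul, abs_of_pos (Real.exp_pos _)]
    gcongr
  · refine hp _ (M.K_isLB r) (M.K_tame r) _ ?_ fun z hz => ?_
    · exact (List.length_take_le' _ _).trans (by simpa using h1)
    · obtain ⟨p, hp1, rfl⟩ := List.mem_map.1 (List.mem_of_mem_take hz)
      obtain ⟨h4, h5⟩ := h2 p hp1
      exact (M.K_isLB r).sc.smul_mono h4 (Set.smul_mem_smul_set (hsub h5))

theorem aff0_exists (hO : M.Orth) (K C C₁ ε δ : ℝ) (hC₁ : 1 ≤ C₁) (hε : 0 < ε) (hδ : 0 < δ) :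
    ∃ S₀ : ℝ, ∀ S : ℝ, S₀ ≤ S → ∀ φ, M.MQI K C φ → ∀ Ω B, M.Adm Ω S C₁ ε B →
      ∃ w m, M.Aff0 φ Ω S C₁ ε δ B w m := by
  obtain ⟨Cp, hCp, hlet⟩ := M.letter
  obtain ⟨N, C', C'', hC', hC'', hgen⟩ := M.nmain_gen C₁ hC₁
  obtain ⟨C₈, hC₈, hmul⟩ := M.mul_mem (C'' * C₁) (by positivity)
  set C₀ := C₈ + Cp * C₁ with hC₀
  have c1 : C₁ ≤ C₀ := by nlinarith
  have c2 : Cp * C₁ ≤ C₀ := by linarith
  have c3 : C₈ ≤ C₀ := by nlinarith
  obtain ⟨η, hη, hη1, hch⟩ := M.chain hO K C C₀ C₁ ε hC₁ c1 hε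
  obtain ⟨C₃, κ₀, hC₃, hκ₀, hl⟩ := hlet K C C₁ C' η hC₁ (by linarith) hη hη1
  set κ := min κ₀ (min ε δ / ((N + 1) * C₃)) with hκd
  have hm : 0 < min ε δ := lt_min hε hδ
  have hκ : 0 < κ := lt_min hκ₀ (by positivity)
  have k1 : (N + 1) * C₃ * κ ≤ min ε δ := by
    have : κ ≤ min ε δ / ((N + 1) * C₃) := min_le_right _ _
    rwa [le_div_iff₀ (by positivity), mul_comm] at this
  have hN : (0 : ℝ) ≤ N := Nat.cast_nonneg N
  have k2 : κ ≤ min ε δ := by nlinarith [mul_nonneg hN (by linarith : 0 ≤ C₃)]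
  have k3 : N * (C₃ * κ) ≤ min ε δ := by nlinarith [mul_pos (by linarith : 0 < C₃) hκ]
  obtain ⟨S₁, h1⟩ := hch κ hκ
  obtain ⟨S₂, h2⟩ := hl κ hκ (min_le_left _ _)
  refine ⟨max 1 (max S₁ S₂), fun S hS φ hφ Ω B hA => ?_⟩
  have hS0 : 0 ≤ S := by linarith [(le_max_left _ _).trans hS]
  obtain ⟨w, m, hP⟩ := h1 S (((le_max_left _ _).trans (le_max_right _ _)).trans hS) φ hφ Ω B hA
  have h3 := h2 S (((le_max_right _ _).trans (le_max_right _ _)).trans hS) φ hφ Ω ε B C₀ w m hA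
    c2 hP
  have hfin : M.mE (C₀ • B) ≠ ⊤ := (hA.lb.compact.smul C₀).measure_lt_top.ne
  have hsub : C₁ • B ⊆ C₀ • B := hA.lb.sc.smul_mono (by rwa [abs_of_pos (by linarith)])
  have hB0 : 0 ≤ M.mE.real B := measureReal_nonneg
  refine ⟨w, m, hP.hw.1, hP.hw.2, hP.meas_m, fun ζ hζ hΩ => ?_, fun y hy => ?_⟩
  · have h4 := hP.aff ζ (M.Z_mono (by positivity) (by gcongr) hζ) hΩ 1 (M.Z_isLB _).sc.zero_mem
    simp only [mul_one, A_one, add_zero] at h4
    refine le_trans (le_trans (measureReal_mono ?_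
      (measure_ne_top_of_subset Set.inter_subset_left hfin)) h4) ?_
    · refine fun l hl => ⟨hsub hl.1, ?_⟩
      refine lt_of_le_of_lt (b := ε * S) ?_ hl.2
      gcongr
      exact k2.trans (min_le_left _ _)
    · gcongr
      exact k2.trans (min_le_right _ _)
  · obtain ⟨L, hL1, rfl, hL2, hL3⟩ := hgen _ y hy
    have hLN : (L.length : ℝ) ≤ N := by exact_mod_cast hL1
    have h4 := M.nmain_word hfin w m (C₃ * κ * S) (C₃ * κ * M.mE.real B) L fun z hz => by
      obtain ⟨i, hi, t, ht, rfl⟩ := hL2 z hz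
      exact ⟨M.e.smul_mem _ (M.X_mem_e hi), h3 i hi t ht⟩
    have hc : 0 ≤ C₃ * κ := by positivity
    refine le_trans (le_trans (measureReal_mono (fun l hl => ?_)
      (measure_ne_top_of_subset (fun l hl => by simpa using hl.1 0) hfin)) h4) ?_
    refine ⟨fun k => ?_, ?_⟩
    · refine hA.lb.sc.smul_mono (s := C₈) (by rwa [abs_of_pos (by linarith)])
        (hmul B hA.lb (M.tame_of_e hA.sub) l ?_ _ ?_)
      · exact hA.lb.sc.smul_mono (by rw [abs_of_pos (by linarith)]; nlinarith) hl.1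
      · rw [mul_smul]
        refine Set.smul_set_mono (fun x hx => hA.big (M.K_mono (fun i _ => ?_) hx)) (hL3 k)
        nlinarith [mul_nonneg hε.le hS0]
    · refine hl.2.imp id fun h5 => lt_of_le_of_lt ?_ h5
      calc L.length * (C₃ * κ * S) = L.length * (C₃ * κ) * S := by ring
        _ ≤ N * (C₃ * κ) * S := by gcongr
        _ ≤ ε * S := by gcongr; exact k3.trans (min_le_left _ _)
    · calc L.length * (C₃ * κ * M.mE.real B) = L.length * (C₃ * κ) * M.mE.real B := by ring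
        _ ≤ N * (C₃ * κ) * M.mE.real B := by gcongr
        _ ≤ δ * M.mE.real B := by gcongr; exact k3.trans (min_le_right _ _)

end Vale.Agent.P188.Geo
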