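import Vale.Agent.P188.N.Defs

/-! Counting lemmas (pure measure theory and real analysis).
Plan: integrate the function `x ↦ ∑ k ∈ range n, indicator (E k) 1 x` (= the cardinality);
Markov inequality; for `count_sum` replace `Bad` by `toMeasurable μ Bad`.
`exists_le_avg`: by contradiction (`setLIntegral_strict_mono` or `exists_le_setLAverage`).
-/

namespace Vale.Agent.P188.Geo
open scoped InnerProductSpace Pointwise
open MeasureTheory
variable (M : Geo)

open Classical in
theorem Count_card {X : Type*} (n : ℕ) (E : ℕ → Set X) (x : X) :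
    (((Finset.range n).filter fun k => x ∈ E k).card : ℝ) =
      ∑ k ∈ Finset.range n, (E k).indicator 1 x := by
  simp only [Set.indicator_apply, Pi.one_apply, Finset.sum_boole]

theorem Count_int {X : Type*} [MeasurableSpace X] (μ : Measure X) [IsFiniteMeasure μ] (n : ℕ)
    (E : ℕ → Set X) (hE : ∀ k, MeasurableSet (E k)) :
    Integrable (fun x => ∑ k ∈ Finset.range n, (E k).indicator (1 : X → ℝ) x) μ ∧
      ∫ x, ∑ k ∈ Finset.range n, (E k).indicator (1 : X → ℝ) x ∂μ =
        ∑ k ∈ Finset.range n, μ.real (E k) := by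
  have i : ∀ k ∈ Finset.range n, Integrable ((E k).indicator (1 : X → ℝ)) μ := fun k _ =>
    (integrable_const (1 : ℝ)).indicator (hE k)
  refine ⟨integrable_finsetSum _ i, ?_⟩
  rw [integral_finsetSum _ i]
  exact Finset.sum_congr rfl fun k _ => integral_indicator_one (hE k)

open Classical in
theorem count_markov {X : Type*} [MeasurableSpace X] (μ : Measure X) [IsFiniteMeasure μ] (n : ℕ)
    (E : ℕ → Set X) (hE : ∀ k, MeasurableSet (E k)) {θ γ : ℝ} (hθ : 0 ≤ θ) (hγ : 0 < γ)
    (h : ∀ k < n, μ.real (E k) ≤ θ) :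
    μ.real {x | γ * n < (((Finset.range n).filter fun k => x ∈ E k).card : ℝ)} ≤ θ / γ := by
  rcases Nat.eq_zero_or_pos n with rfl | hn
  · simp only [Finset.range_zero, Finset.filter_empty, Finset.card_empty, Nat.cast_zero, mul_zero,
      lt_self_iff_false, Set.ofPred_false, measureReal_empty]
    positivity
  obtain ⟨i1, i2⟩ := Count_int μ n E hE
  have h1 := mul_meas_ge_le_integral_of_nonneg (ae_of_all _ fun x => Finset.sum_nonneg
    fun k _ => Set.indicator_nonneg (fun _ _ => zero_le_one) x) i1 (γ * n)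
  have h2 := Finset.sum_le_card_nsmul (Finset.range n) (fun k => μ.real (E k)) θ
    fun k hk => h k (Finset.mem_range.1 hk)
  rw [Finset.card_range, nsmul_eq_mul] at h2
  replace h1 := h1.trans_eq i2
  have n0 : (0 : ℝ) < n := Nat.cast_pos.2 hn
  simp only [Count_card]
  have h3 := h1.trans h2
  rw [mul_right_comm, mul_comm _ θ] at h3
  refine le_trans (measureReal_mono (fun x hx => ?_) (measure_ne_top _ _))
    ((le_div_iff₀' hγ).2 (le_of_mul_le_mul_right h3 n0))
  exact le_of_lt (Set.mem_ofPred_eq ▸ hx)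

open Classical in
theorem count_sum {X : Type*} [MeasurableSpace X] (μ : Measure X) [IsFiniteMeasure μ] (n : ℕ)
    (E : ℕ → Set X) (hE : ∀ k, MeasurableSet (E k)) (Bad : Set X) {m : ℝ} (hm : 0 ≤ m)
    (h : ∀ x ∉ Bad, (((Finset.range n).filter fun k => x ∈ E k).card : ℝ) ≤ m) :
    ∑ k ∈ Finset.range n, μ.real (E k) ≤ m * μ.real Set.univ + n * μ.real Bad := by
  obtain ⟨i1, i2⟩ := Count_int μ n E hE
  have hB := measurableSet_toMeasurable μ Bad
  have i3 : Integrable (fun x => (n : ℝ) * (toMeasurable μ Bad).indicator (1 : X → ℝ) x) μ :=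
    ((integrable_const (1 : ℝ)).indicator hB).const_mul _
  have i4 : Integrable (fun x => m + (n : ℝ) * (toMeasurable μ Bad).indicator (1 : X → ℝ) x) μ :=
    (integrable_const m).add i3
  have h1 := integral_mono i1 i4 fun x => by
    beta_reduce
    rw [← Count_card]
    by_cases hx : x ∈ toMeasurable μ Bad
    · rw [Set.indicator_of_mem hx, Pi.one_apply, mul_one]
      refine le_add_of_nonneg_of_le hm (Nat.cast_le.2 ?_)
      exact (Finset.card_filter_le _ _).trans (Finset.card_range n).le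
    · rw [Set.indicator_of_notMem hx, mul_zero, add_zero]
      exact h x fun hb => hx (subset_toMeasurable μ Bad hb)
  rw [i2, integral_add (integrable_const m) i3, integral_const, integral_const_mul,
    integral_indicator_one hB, smul_eq_mul, mul_comm, measureReal_def μ (toMeasurable μ Bad),
    measure_toMeasurable] at h1
  exact h1

open Classical in
theorem steps_le {V : Type*} [SeminormedAddCommGroup V] (n : ℕ) (F d : ℕ → V) (bad : ℕ → Prop)
    {a b γ : ℝ} (ha : 0 ≤ a) (hb : 0 ≤ b)
    (h1 : ∀ k < n, ¬ bad k → ‖F (k + 1) - F k - d k‖ ≤ a)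
    (h2 : ∀ k < n, ‖F (k + 1) - F k - d k‖ ≤ b)
    (h3 : (((Finset.range n).filter bad).card : ℝ) ≤ γ) :
    ∀ k ≤ n, ‖F k - F 0 - ∑ i ∈ Finset.range k, d i‖ ≤ n * a + γ * b := by
  intro k hk
  rw [← Finset.sum_range_sub F k, ← Finset.sum_sub_distrib]
  refine (norm_sum_le _ _).trans ((Finset.sum_le_sum_of_subset_of_nonneg
    (Finset.range_subset_range.2 hk) fun _ _ _ => norm_nonneg _).trans ((Finset.sum_le_sum
      (g := fun i => a + (if bad i then 1 else 0) * b) fun i hi => ?_).trans ?_))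
  · split_ifs with c
    · rw [one_mul]
      exact le_add_of_nonneg_of_le ha (h2 i (Finset.mem_range.1 hi))
    · rw [zero_mul, add_zero]
      exact h1 i (Finset.mem_range.1 hi) c
  · rw [Finset.sum_add_distrib, ← Finset.sum_mul, Finset.sum_boole, Finset.sum_const,
      Finset.card_range, nsmul_eq_mul]
    exact add_le_add le_rfl (mul_le_mul_of_nonneg_right h3 hb)

theorem exists_le_avg {X : Type*} [MeasurableSpace X] (μ : Measure X) {Y : Set X}
    (_hY : MeasurableSet Y) (h0 : μ Y ≠ 0) (h1 : μ Y ≠ ⊤) {f : X → ENNReal} (hf : Measurable f) :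
    ∃ y ∈ Y, f y * μ Y ≤ ∫⁻ x in Y, f x ∂μ := by
  obtain ⟨y, hy, h⟩ := exists_le_setLAverage h0 h1 hf.aemeasurable
  rw [setLAverage_eq] at h
  exact ⟨y, hy, ENNReal.mul_le_of_le_div h⟩

/-- Zigzag count for a real sequence without small terms. -/
theorem zig_count (J h : ℕ) (a : ℕ → ℝ) {g D : ℝ} (_hg : 0 < g) (ha : ∀ k, g ≤ |a k|) {k₀ : ℕ}
    (hk : k₀ ≤ J) (hD : ∑ k ∈ Finset.range J, max 0 (a k) - ∑ k ∈ Finset.range k₀, a k ≤ D) :
    (((Finset.range J).filter fun k => k + h < J ∧ ¬ 0 < a k ∧ 0 < a (k + h)).card : ℝ) * g ≤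
      D := by
  refine le_trans ?_ hD
  generalize hT : (Finset.range J).filter (fun k => k + h < J ∧ ¬ 0 < a k ∧ 0 < a (k + h)) = T
  have m : ∀ k ∈ T, k + h < J ∧ ¬ 0 < a k ∧ 0 < a (k + h) := fun k hk => by
    rw [← hT] at hk
    exact (Finset.mem_filter.1 hk).2
  have h1 : ((T.filter (· < k₀)).card : ℝ) * g ≤
      ∑ k ∈ Finset.range k₀, (max 0 (a k) - a k) := by
    rw [← nsmul_eq_mul]
    refine (Finset.card_nsmul_le_sum _ _ _ fun k hk => ?_).trans
      (Finset.sum_le_sum_of_subset_of_nonneg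
        (fun k hk => Finset.mem_range.2 (Finset.mem_filter.1 hk).2)
        fun k _ _ => sub_nonneg.2 (le_max_right _ _))
    have c := not_lt.1 (m k (Finset.mem_filter.1 hk).1).2.1
    rw [max_eq_left c, zero_sub, ← abs_of_nonpos c]
    exact ha k
  have h2 : ((T.filter fun k => ¬ k < k₀).card : ℝ) * g ≤ ∑ k ∈ Finset.Ico k₀ J, max 0 (a k) := by
    rw [← nsmul_eq_mul, ← Finset.card_image_of_injective _ (add_left_injective h)]
    refine (Finset.card_nsmul_le_sum _ _ _ fun k hk => ?_).trans
      (Finset.sum_le_sum_of_subset_of_nonneg (fun k hk => ?_) fun k _ _ => le_max_left _ _)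
    · obtain ⟨j, hj, rfl⟩ := Finset.mem_image.1 hk
      have c := (m j (Finset.mem_filter.1 hj).1).2.2
      rw [max_eq_right c.le, ← abs_of_pos c]
      exact ha _
    · obtain ⟨j, hj, rfl⟩ := Finset.mem_image.1 hk
      have c := (Finset.mem_filter.1 hj).2
      exact Finset.mem_Ico.2 ⟨by omega, (m j (Finset.mem_filter.1 hj).1).1⟩
  rw [← Finset.card_filter_add_card_filter_not (s := T) (· < k₀), Nat.cast_add, add_mul,
    ← Finset.sum_range_add_sum_Ico _ hk]
  rw [Finset.sum_sub_distrib] at h1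
  linarith

end Vale.Agent.P188.Geo
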