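import Vale.Agent.P188.N.Pure
import Vale.Agent.P188.N.Count

/-! Linear prediction at scale `ρ` from the colour of the starting point.
Plan for `exists_path`: `letters` with `Lc` the image of `{i | wt i = 0}` under `X` (spans `u0` by
definition, `len_norm_X`); cut each letter `t • c` into `n₀ = ⌈C ρ / (R - 1)⌉₊` equal pieces
(`ln_tame`, `smul_mul_smul`); `p (j n₀ + i) = (first j letters) * ((i t_j / n₀) • c_j)`; use
`k / n₀`, `k % n₀`, or induct on the list of letters concatenating paths.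
`aff1`: `bad k = {x | col (x * p k) ≠ col x} ∪ {x | η R < er φ col (x * p k) (g k)}`,
`g k = (p k)⁻¹ * p (k + 1)`; `pure` (with `a = 1`, `L = C`), `pr_shift`, `Stage.mono`,
`count_markov`; `steps_le` with `F k = A (φ (x * p k))`, `d k = col x (A (g k))`, `er_le`
(for the colouring `fun _ => col x`), `∑ A (g k) = A y` (`A_mul`, `A_inv`, telescoping).
-/

namespace Vale.Agent.P188.Geo
open scoped InnerProductSpace Pointwise
open MeasureTheory
variable (M : Geo)

theorem exists_path (L : ℝ) (hL : 0 ≤ L) : ∃ C : ℝ, 1 ≤ C ∧ ∀ ρ R : ℝ, 2 ≤ R → R ≤ ρ →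
    ∀ y ∈ L • M.Z ρ, ∃ (n : ℕ) (p : ℕ → M.G), p 0 = 1 ∧ p n = y ∧ n * R ≤ C * ρ ∧
      (∀ k ≤ n, p k ∈ C • M.Z ρ) ∧ ∀ k < n, M.ln ((p k)⁻¹ * p (k + 1)) ≤ R := by
  classical
  set Lc : Finset M.G := (Finset.univ.filter fun i => M.wt i = 0).image M.X with hLc
  have hsp : Submodule.span ℝ (Lc : Set M.G) = M.u0 := by
    unfold u0
    congr 1
    ext x
    simp [hLc, eq_comm]
  have hc : ∀ c ∈ Lc, c ∈ M.u0 ∧ ‖c‖ = 1 := by
    intro c hc
    refine ⟨hsp ▸ Submodule.subset_span hc, ?_⟩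
    obtain ⟨i, -, rfl⟩ := Finset.mem_image.1 hc
    exact M.len_norm_X i
  obtain ⟨N, C, C', hC, hC', h⟩ := M.letters L hL Lc hsp
  have hN : (0 : ℝ) ≤ N * (2 * C + 1) := by positivity
  refine ⟨C' + N * (2 * C + 1), by linarith, fun ρ R hR hρ y hy => ?_⟩
  have ρ0 : 0 < ρ := by linarith
  obtain ⟨l, hl, hm, hy, hz⟩ := h ρ ρ0.le y hy
  set n₀ := ⌈C * ρ / (R - 1)⌉₊ with hn₀
  have R1 : 0 < R - 1 := by linarith
  have n0 : 0 < n₀ := Nat.ceil_pos.2 (by positivity)
  have n0' : (0 : ℝ) < n₀ := by exact_mod_cast n0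
  have n1 : C * ρ ≤ n₀ * (R - 1) := (div_le_iff₀ R1).1 (Nat.le_ceil _)
  have n2 : n₀ * R ≤ (2 * C + 1) * ρ := by
    have h1 : (n₀ : ℝ) < C * ρ / (R - 1) + 1 := Nat.ceil_lt_add_one (by positivity)
    have h2 : C * ρ / (R - 1) * R ≤ 2 * C * ρ := by
      rw [div_mul_eq_mul_div, div_le_iff₀ R1]
      have : 0 ≤ C * ρ * (R - 2) := mul_nonneg (by positivity) (by linarith)
      nlinarith
    nlinarith
  set q : ℕ → M.G := fun j => ((l.take j).map fun p => p.1 • p.2).prod with hq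
  set P : ℕ → ℕ → M.G := fun j i =>
    q j * (((i : ℝ) * ((l.getD j (0, 0)).1 / n₀)) • (l.getD j (0, 0)).2) with hP
  have P0 : ∀ j, P j 0 = q j := fun j => by
    simp only [hP, Nat.cast_zero, zero_mul, zero_smul]
    exact mul_one (q j)
  have hget : ∀ j < l.length, l.getD j (0, 0) ∈ l := fun j hj => by
    rw [List.getD_eq_getElem _ _ hj]; exact List.getElem_mem hj
  have P1 : ∀ j < l.length, P j n₀ = q (j + 1) := fun j hj => by
    simp only [hP, hq]
    rw [mul_div_cancel₀ _ n0'.ne', List.take_add_one, List.map_append, List.prod_append,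
      List.getD_eq_getElem _ _ hj, List.getElem?_eq_getElem hj]
    simp
  have hsub : C' • M.Z ρ ⊆ (C' + N * (2 * C + 1)) • M.Z ρ :=
    (M.Z_isLB ρ).sc.smul_mono (by rw [abs_of_nonneg (by linarith)]; linarith)
  refine ⟨l.length * n₀, fun k => P (k / n₀) (k % n₀), ?_, ?_, ?_, fun k hk => hsub ?_,
    fun k hk => ?_⟩
  · simp only [Nat.zero_div, Nat.zero_mod, P0, hq]
    simp
  · simp only [Nat.mul_div_cancel _ n0, Nat.mul_mod_left, P0, hq, List.take_length]
    exact hy.symm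
  · have h1 : (l.length : ℝ) ≤ N := by exact_mod_cast hl
    have h2 : (l.length : ℝ) * (n₀ * R) ≤ N * ((2 * C + 1) * ρ) := by gcongr
    push_cast
    nlinarith
  · rcases hk.eq_or_lt with rfl | hk
    · simp only [Nat.mul_mod_left, P0]
      exact (hz _).1
    · have hj : k / n₀ < l.length := (Nat.div_lt_iff_lt_mul n0).2 hk
      obtain ⟨h1, h2⟩ := hm _ (hget _ hj)
      refine (hz _).2 _ ?_ _ h2
      have h3 : ((k % n₀ : ℕ) : ℝ) ≤ n₀ := by exact_mod_cast (Nat.mod_lt k n0).le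
      rw [abs_mul, abs_div, Nat.abs_cast, Nat.abs_cast, ← mul_div_assoc, div_le_iff₀ n0']
      have := abs_nonneg (l.getD (k / n₀) (0, 0)).1
      nlinarith
  · have hj : k / n₀ < l.length := (Nat.div_lt_iff_lt_mul n0).2 hk
    obtain ⟨h1, h2⟩ := hm _ (hget _ hj)
    have h3 : P ((k + 1) / n₀) ((k + 1) % n₀) = P (k / n₀) (k % n₀ + 1) := by
      have h4 := Nat.mod_lt k n0
      have h5 := Nat.div_add_mod k n₀
      rcases (Nat.succ_le_of_lt h4).eq_or_lt with h6 | h6
      · have h7 : k + 1 = (k / n₀ + 1) * n₀ := by rw [Nat.add_mul, Nat.mul_comm]; omega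
        rw [show k % n₀ + 1 = n₀ from h6, P1 _ hj, h7, Nat.mul_div_cancel _ n0,
          Nat.mul_mod_left, P0]
      · have h7 : k + 1 = (k % n₀ + 1) + n₀ * (k / n₀) := by omega
        rw [h7, Nat.add_mul_div_left _ _ n0, Nat.add_mul_mod_self_left, Nat.div_eq_of_lt h6,
          Nat.mod_eq_of_lt h6, Nat.zero_add]
    have hu := (hc _ h2).1
    simp only [h3]
    simp only [hP]
    rw [Nat.cast_succ, add_mul, one_mul, ← M.smul_mul_smul (Or.inr hu), mul_inv_rev, mul_assoc,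
      inv_mul_cancel_left, inv_mul_cancel_left]
    refine (M.ln_tame (Or.inr (M.u0.smul_mem _ hu))).trans ?_
    rw [norm_smul, (hc _ h2).2, mul_one, Real.norm_eq_abs, abs_div, Nat.abs_cast]
    have : |(l.getD (k / n₀) (0, 0)).1| / n₀ ≤ R - 1 := by
      rw [div_le_iff₀ n0']; linarith
    linarith

theorem aff1 (K C L : ℝ) (hL : 0 ≤ L) : ∃ a' : ℝ, 1 ≤ a' ∧ ∀ θ : ℝ, 0 < θ →
    ∃ η : ℝ, 0 < η ∧ η ≤ 1 ∧ ∀ φ col ν ρ R, M.Stage K C φ col ν ρ a' R η → ∀ y ∈ L • M.Z ρ,
      M.pr ν ρ 1 {x | θ * ρ < M.er φ col x y} ≤ θ * M.nr ν ρ := by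
  classical
  obtain ⟨C₀, hC₀, hpath⟩ := M.exists_path L hL
  obtain ⟨a₁, ha₁, hpure⟩ := M.pure K C 1 C₀ le_rfl (by linarith)
  obtain ⟨a₂, ha₂, -, hshift⟩ := M.pr_shift 1 C₀ zero_le_one (by linarith)
  obtain ⟨C', hC', her⟩ := M.er_le K C
  refine ⟨max a₁ a₂, ha₁.trans (le_max_left _ _), fun θ hθ => ?_⟩
  set γ := θ / (4 * C' * C₀) with hγ
  have γ0 : 0 < γ := by positivity
  obtain ⟨η₁, η0, η1, hη⟩ := hpure (θ * γ / 2) (by positivity)
  refine ⟨min η₁ (min (θ * γ / 2) (θ / (2 * C₀))), by positivity, (min_le_left _ _).trans η1,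
    fun φ col ν ρ R hS y hy => ?_⟩
  set η := min η₁ (min (θ * γ / 2) (θ / (2 * C₀))) with hηd
  have e1 : η ≤ θ * γ / 2 := (min_le_right _ _).trans (min_le_left _ _)
  have e2 : η ≤ θ / (2 * C₀) := (min_le_right _ _).trans (min_le_right _ _)
  have := hS.fin
  have hS1 := hS.mono (by linarith) (le_max_left a₁ a₂) (min_le_left _ _) η1
  obtain ⟨n, p, p0, pn, hn, hp, hg⟩ := hpath ρ R hS.two_le hS.rho.2.1 y hy
  have R0 : 0 ≤ R := by linarith [hS.two_le]
  have ρ0 : 0 ≤ ρ := by linarith [hS.rho.2.2]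
  have := M.lam_fin ν (M.isCompact_sZ 1 ρ)
  set g : ℕ → M.G := fun k => (p k)⁻¹ * p (k + 1) with hgd
  set E : ℕ → Set M.G := fun k =>
    {x | col (x * p k) ≠ col x} ∪ {x | η * R < M.er φ col (x * p k) (g k)} with hE
  have hmeas : ∀ k, MeasurableSet (E k) := fun k =>
    (hS.hcol.measurableSet_ne (continuous_mul_const (p k)).measurable measurable_id).union
      (measurableSet_lt measurable_const (M.measurable_er hS.qi hS.hcol
        (continuous_mul_const (p k)).measurable measurable_const))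
  have nr0 := M.nr_nonneg ν ρ
  have hE1 : ∀ k < n, (M.lam ν ((1 : ℝ) • M.Z ρ)).real (E k) ≤ θ * γ * M.nr ν ρ := by
    intro k hk
    have h1 := hη φ col ν ρ R hS1 (p k) (hp k hk.le)
    have h2 := hshift ν ρ (p k) (hp k hk.le) {x | η * R < M.er φ col x (g k)}
    have h3 := M.pr_mono_a ν ρ (by linarith) (le_max_right a₁ a₂)
      {x | η * R < M.er φ col x (g k)}
    have h4 := hS.loc (g k) (hg k hk)
    have h5 := M.pr_union ν ρ 1 {x | col (x * p k) ≠ col x}
      {x | η * R < M.er φ col (x * p k) (g k)}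
    have h6 := mul_le_mul_of_nonneg_right e1 nr0
    have h7 : M.pr ν ρ 1 {x | η * R < M.er φ col (x * p k) (g k)} ≤ η * M.nr ν ρ :=
      h2.trans (h3.trans h4)
    change M.pr ν ρ 1 (E k) ≤ _
    simp only [hE]
    linarith
  have hmk := count_markov (M.lam ν ((1 : ℝ) • M.Z ρ)) n E hmeas (by positivity) γ0 hE1
  rw [show θ * γ * M.nr ν ρ / γ = θ * M.nr ν ρ by field_simp] at hmk
  refine le_trans (M.pr_mono ν ρ 1 fun x hx => ?_) hmk
  by_contra hc
  simp only [Set.mem_ofPred_eq, not_lt] at hc hx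
  have hmul : ∀ k, x * p (k + 1) = x * p k * g k := fun k => by simp [hgd, mul_assoc]
  have hst := steps_le n (fun k => M.A (φ (x * p k))) (fun k => col x (M.A (g k)))
    (fun k => x ∈ E k) (a := η * R) (b := C' * (R + 1)) (γ := γ * n)
    (mul_nonneg hS.pos.le R0) (by positivity)
    (fun k _ hk => by
      simp only [hE, Set.mem_union, Set.mem_ofPred_eq, not_or, not_not, not_lt] at hk
      have h1 := hk.2
      unfold er at h1
      rw [hk.1] at h1
      simpa only [hmul k] using h1)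
    (fun k hk => by
      have h1 := her φ hS.qi.2 (fun _ => col x) (x * p k) (g k)
      have h2 : C' * (M.ln (g k) + 1) ≤ C' * (R + 1) := by gcongr; exact hg k hk
      unfold er at h1
      simpa only [hmul k] using h1.trans h2)
    (by convert hc) n le_rfl
  have hsum : ∑ i ∈ Finset.range n, col x (M.A (g i)) = col x (M.A y) := by
    rw [← map_sum]
    congr 1
    have : ∀ i, M.A (g i) = M.A (p (i + 1)) - M.A (p i) := fun i => by
      simp only [hgd, A_mul, A_inv]; abel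
    simp only [this]
    rw [Finset.sum_range_sub (fun i => M.A (p i)), p0, pn, A_one, sub_zero]
  simp only [hsum, p0, pn, mul_one] at hst
  have b1 : n * (η * R) ≤ θ / 2 * ρ := by
    have h1 : η * (n * R) ≤ θ / (2 * C₀) * (C₀ * ρ) := by gcongr
    have h2 : θ / (2 * C₀) * (C₀ * ρ) = θ / 2 * ρ := by field_simp
    linarith
  have b2 : γ * n * (C' * (R + 1)) ≤ θ / 2 * ρ := by
    have h0 : (n : ℝ) * (R + 1) ≤ 2 * (C₀ * ρ) := by
      have : (n : ℝ) * 1 ≤ n * R := by gcongr; linarith [hS.two_le]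
      linarith
    have h1 : γ * C' * (n * (R + 1)) ≤ γ * C' * (2 * (C₀ * ρ)) := by gcongr
    have h2 : γ * C' * (2 * (C₀ * ρ)) = θ / 2 * ρ := by rw [hγ]; field_simp; norm_num
    linarith
  unfold er at hx
  linarith

end Vale.Agent.P188.Geo
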