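import Vale.Agent.P188.N.Lam

/-! Colourings, errors, small helper facts.
Plan: `Col.measurable`: `W` is finite (`W_finite`), so the map is a finite sum of indicators
(or use `Measurable.find` / `measurable_of_iUnion`-type lemmas).  `er_le`: `A_lip`, `norm_ah_le`,
isometry.  `smul_mem_sZ`: `mem_Z`, `Z_mono`, `Z_subset_smul_of_le`, `Z_subset_smul`.
`exists_pos`: `exists_sec`, `mem_Z`, operator norm.  `W_eq_of_basis`: expand `v` in the standard
basis, `|v i| ≤ ‖v‖`, `W_sep`.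
-/

namespace Vale.Agent.P188.Geo
open scoped InnerProductSpace Pointwise
open MeasureTheory
variable (M : Geo)

variable {M} in
theorem Col.measurable {col} (h : M.Col col) {X : Type*} [MeasurableSpace X] {ξ : X → M.G}
    {v : X → M.V} (hξ : Measurable ξ) (hv : Measurable v) :
    Measurable fun p => col (ξ p) (v p) := by
  intro s hs
  have h1 : (fun p => col (ξ p) (v p)) ⁻¹' s =
      ⋃ w ∈ M.W, ξ ⁻¹' {x | col x = w} ∩ (fun p => w (v p)) ⁻¹' s := by
    ext p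
    simp only [Set.mem_preimage, Set.mem_iUnion, Set.mem_inter_iff, Set.mem_ofPred_eq]
    exact ⟨fun hp => ⟨_, h.1 _, rfl, hp⟩, fun ⟨w, _, e, hp⟩ => e ▸ hp⟩
  rw [h1]
  exact M.W_finite.measurableSet_biUnion fun w _ =>
    (hξ (h.2 w)).inter ((w.continuous.measurable.comp hv) hs)

variable {M} in
theorem Col.measurableSet_ne {col} (h : M.Col col) {X : Type*} [MeasurableSpace X]
    {ξ ξ' : X → M.G} (hξ : Measurable ξ) (hξ' : Measurable ξ') :
    MeasurableSet {p | col (ξ p) ≠ col (ξ' p)} := by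
  have h1 : {p | col (ξ p) ≠ col (ξ' p)} =
      ⋃ w ∈ M.W, ξ ⁻¹' {x | col x = w} ∩ (ξ' ⁻¹' {x | col x = w})ᶜ := by
    ext p
    simp only [Set.mem_preimage, Set.mem_iUnion, Set.mem_inter_iff, Set.mem_ofPred_eq,
      Set.mem_compl_iff]
    exact ⟨fun hp => ⟨_, h.1 _, rfl, fun e => hp e.symm⟩,
      fun ⟨w, _, e, hp⟩ e' => hp (e'.symm.trans e)⟩
  rw [h1]
  exact M.W_finite.measurableSet_biUnion fun w _ => (hξ (h.2 w)).inter (hξ' (h.2 w)).compl

variable {M} in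
theorem Col.comp {col} (h : M.Col col) {ξ : M.G → M.G} (hξ : Measurable ξ) :
    M.Col (fun x => col (ξ x)) := by
  exact ⟨fun x => h.1 _, fun w => hξ (h.2 w)⟩

variable {M} in
theorem Col.measurableSet_sg {col} (h : M.Col col) (μ : M.V) (c : M.G) :
    MeasurableSet {x | M.sg col μ c x} := by
  have h1 : Measurable fun x : M.G => col x (M.A c) := h.measurable measurable_id measurable_const
  exact measurableSet_lt measurable_const (measurable_const.inner h1)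

theorem measurable_er {K C φ col} (hφ : M.MQI K C φ) (h : M.Col col) {X : Type*}
    [MeasurableSpace X] {ξ g : X → M.G} (hξ : Measurable ξ) (hg : Measurable g) :
    Measurable fun p => M.er φ col (ξ p) (g p) := by
  have hA : Measurable M.A := M.A.continuous_of_finiteDimensional.measurable
  have h1 : Measurable fun p => ξ p * g p := hξ.mul hg
  exact (((hA.comp (hφ.1.comp h1)).sub (hA.comp (hφ.1.comp hξ))).sub
    (h.measurable hξ (hA.comp hg))).norm

theorem er_le (K C : ℝ) : ∃ C' : ℝ, 1 ≤ C' ∧ ∀ φ, IsQI M.Q M.Q K C φ → ∀ col x g,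
    M.er φ col x g ≤ C' * (M.ln g + 1) := by
  obtain ⟨C1, h1, hC1⟩ := M.A_lip K C
  obtain ⟨C2, h2, hC2⟩ := M.norm_ah_le
  refine ⟨C1 + C2, by linarith, fun φ hφ col x g => ?_⟩
  have h3 := norm_sub_le (M.A (φ (x * g)) - M.A (φ x)) (col x (M.A g))
  rw [LinearIsometryEquiv.norm_map] at h3
  have h4 := (hC1 φ hφ x g).1
  have h5 := (hC2 g).2
  unfold er
  linarith

theorem smul_mem_sZ : ∃ C : ℝ, 1 ≤ C ∧ ∀ c ∈ M.u0, ‖c‖ ≤ 1 → ∀ ρ t γ : ℝ, 0 ≤ ρ → 0 ≤ γ →
    |t| ≤ γ * ρ →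
      (C * γ ≤ 1 → t • c ∈ (C * γ) • M.Z ρ) ∧ t • c ∈ ((C * (γ + 1)) ^ M.c) • M.Z ρ := by
  obtain ⟨C, hC, hm⟩ := M.mem_Z
  refine ⟨C, hC, fun c hc hc1 ρ t γ hρ hγ ht => ?_⟩
  have hC0 : 0 ≤ C := by linarith
  have h1 : t • c ∈ M.Z (C * γ * ρ) := by
    refine M.Z_mono (by positivity) ?_ (hm _ (M.u0.smul_mem t hc))
    rw [norm_smul, Real.norm_eq_abs, mul_assoc]
    exact mul_le_mul_of_nonneg_left ((mul_le_of_le_one_right (abs_nonneg t) hc1).trans ht) hC0
  refine ⟨fun h2 => M.Z_subset_smul_of_le (by positivity) h2 h1, ?_⟩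
  refine M.Z_subset_smul (one_le_mul_of_one_le_of_one_le hC (by linarith))
    (M.Z_mono (by positivity) ?_ h1)
  exact mul_le_mul_of_nonneg_right (mul_le_mul_of_nonneg_left (by linarith) hC0) hρ

theorem exists_pos : ∃ C : ℝ, 1 ≤ C ∧ ∀ (v : M.V) (ρ : ℝ), ‖v‖ ≤ ρ →
    ∃ ζ ∈ M.Z (C * ρ), M.A ζ = v := by
  obtain ⟨C, hC, hm⟩ := M.mem_Z
  obtain ⟨ι, hι, hA⟩ := M.exists_sec
  let L : M.V →L[ℝ] M.G := LinearMap.toContinuousLinearMap ι
  have hL := L.opNorm_nonneg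
  refine ⟨C * (1 + ‖L‖), one_le_mul_of_one_le_of_one_le hC (by linarith), fun v ρ hv =>
    ⟨ι v, M.Z_mono (by positivity) ?_ (hm _ (hι v)), hA v⟩⟩
  have h1 : ‖ι v‖ ≤ ‖L‖ * ‖v‖ := L.le_opNorm v
  have h2 := mul_le_mul_of_nonneg_left hv hL
  have h3 := norm_nonneg v
  rw [mul_assoc]
  exact mul_le_mul_of_nonneg_left (by linarith) (by linarith)

theorem W_eq_of_basis : ∃ c : ℝ, 0 < c ∧ ∀ w ∈ M.W, ∀ w' ∈ M.W,
    (∀ i, ‖w (EuclideanSpace.single i 1) - w' (EuclideanSpace.single i 1)‖ ≤ c) → w = w' := by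
  obtain ⟨c, hc, h⟩ := M.W_sep
  have hk : (0 : ℝ) < M.k + 1 := by positivity
  refine ⟨c / (M.k + 1), by positivity, fun w hw w' hw' h1 => h w hw w' hw' fun v => ?_⟩
  have h2 : v = ∑ i, v i • (EuclideanSpace.single i (1 : ℝ) : M.V) := by
    simpa using ((EuclideanSpace.basisFun (Fin M.k) ℝ).sum_repr v).symm
  have h3 : w v - w' v =
      ∑ i, v i • (w (EuclideanSpace.single i 1) - w' (EuclideanSpace.single i 1)) := by
    conv_lhs => rw [h2]
    simp only [map_sum, map_smul, smul_sub, Finset.sum_sub_distrib]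
  rw [h3]
  refine (norm_sum_le _ _).trans ((Finset.sum_le_sum (g := fun _ => ‖v‖ * (c / (M.k + 1)))
    fun i _ => ?_).trans ?_)
  · rw [norm_smul]
    exact mul_le_mul (PiLp.norm_apply_le v i) (h1 i) (norm_nonneg _) (norm_nonneg _)
  · rw [Finset.sum_const, Finset.card_univ, Fintype.card_fin, nsmul_eq_mul]
    have h4 : (M.k : ℝ) * (‖v‖ * (c / (M.k + 1))) = c * ‖v‖ * (M.k / (M.k + 1)) := by ring
    rw [h4]
    exact mul_le_of_le_one_right (by positivity) ((div_le_one hk).2 (by linarith))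

variable {M} in
theorem Stage.rho {K C φ col ν ρ a R η} (h : M.Stage K C φ col ν ρ a R η) :
    2 ≤ η * ρ ∧ R ≤ ρ ∧ 2 ≤ ρ := by
  have h1 : 2 ≤ η * ρ := h.two_le.trans h.le_rho
  have h2 : 0 < ρ := (mul_pos_iff_of_pos_left h.pos).1 (by linarith)
  have h3 : η * ρ ≤ ρ := mul_le_of_le_one_left h2.le h.le_one
  exact ⟨h1, h.le_rho.trans h3, h1.trans h3⟩

variable {M} in
theorem Stage.mono {K C φ col ν ρ a R η a' η'} (h : M.Stage K C φ col ν ρ a R η) (h0 : 0 ≤ a')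
    (ha : a' ≤ a) (hη : η ≤ η') (h1 : η' ≤ 1) : M.Stage K C φ col ν ρ a' R η' := by
  have := h.fin
  have hρ : 0 ≤ ρ := by linarith [h.rho.2.2]
  have hR : 0 ≤ R := by linarith [h.two_le]
  have h2 : η * ρ ≤ η' * ρ := mul_le_mul_of_nonneg_right hη hρ
  have h3 : η * M.nr ν ρ ≤ η' * M.nr ν ρ := mul_le_mul_of_nonneg_right hη (M.nr_nonneg ν ρ)
  refine ⟨h.qi, h.hcol, h.fin, h.pos.trans_le hη, h1, h.two_le, h.le_rho.trans h2,
    fun g hg => ?_, fun c hc hc1 T hT1 hT2 J hJ => ?_⟩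
  · refine (M.pr_mono_a ν ρ h0 ha _).trans ((M.pr_mono ν ρ a fun x hx => ?_).trans
      ((h.loc g hg).trans h3))
    exact (mul_le_mul_of_nonneg_right hη hR).trans_lt hx
  · refine (M.pr_mono_a ν ρ h0 ha _).trans ((M.pr_mono ν ρ a fun x hx => ?_).trans
      ((h.tz c hc hc1 T (h2.trans hT1) hT2 J (h2.trans hJ)).trans h3))
    have hT : 0 ≤ T := by linarith [h.rho.1]
    have h4 := mul_le_mul_of_nonneg_right hη hT
    simp only [Set.mem_ofPred_eq] at hx ⊢
    linarith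

end Vale.Agent.P188.Geo
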