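import Vale.Agent.P188.N.Zig
import Vale.Agent.P188.N.Bas

/-! Signs rarely go from negative to positive.
Plan.  `h = ⌈τ / (R - 1)⌉₊`, `σ = τ / h ∈ [R / 4, R - 1]` (`R ≤ η ρ ≤ θ ρ ≤ τ`), `J = 2 h`,
`T = 2 τ = J σ`, `g = σ • c` has `ln g ≤ R` (`ln_tame`), `x k = x * ((k σ) • c)`,
`x (k+1) = x k * g` (`smul_mul_smul`), `(k σ) • c ∈ L • Z ρ` for `k ≤ J` and also for `-k`
(`smul_mem_sZ`).  Constants `a ≤ a₁ ≤ a'` from `pr_shift` twice.  Bad steps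
`E k = {x | η R < er φ col (x k) g}` have `pr a₁ ≤ η nr`; `count_markov` with `γ` small:
outside a set of mass `η / γ` at most `γ J` steps are bad, and `steps_le`, `er_le` give
`‖A φ (x k) - A φ x - ∑ σ • col (x i) (A c)‖ ≤ J η R + γ J C (R + 1) ≤ C' (η + γ) T`.  Outside the
`tz` set (with this `T`, `J`; `η ρ ≤ J R`), `zig` bounds the number of `k < h` with
`x k ∈ E₀` (the set of the statement; `x (k + h) = x k * (τ • c)`) by `C'' (η + γ) h / g₀`.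
`count_sum` for `lam ν (a₁ • Z ρ)`, `pr_univ`, and `pr a E₀ ≤ pr a₁ {x | x k ∈ E₀}` (`pr_shift`
with `(-(k σ)) • c`).  Choose `γ`, then `η ≤ γ ^ 2`-like small.
-/

namespace Vale.Agent.P188.Geo
open scoped InnerProductSpace Pointwise
open MeasureTheory
variable (M : Geo)

theorem mono_step {c : M.G} (hc : c ∈ M.u0) (x : M.G) (s t : ℝ) :
    x * (s • c) * (t • c) = x * ((s + t) • c) := by
  rw [mul_assoc, M.smul_mul_smul (Or.inr hc)]

theorem mono_zero (c x : M.G) : x * ((0 : ℝ) • c) = x := by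
  rw [zero_smul, ← one_def, mul_one]

theorem mono_meas (z : M.G) : Measurable fun x : M.G => x * z :=
  (continuous_mul_const z).measurable

/-- choice of the step length -/
theorem mono_len {R τ : ℝ} (hR : 2 ≤ R) (hτ : R ≤ τ) :
    ∃ (h : ℕ) (σ : ℝ), 0 < h ∧ 0 < σ ∧ h * σ = τ ∧ σ + 1 ≤ R ∧ R ≤ 4 * σ := by
  have h1 : 0 < R - 1 := by linarith
  have h2 : 1 ≤ τ / (R - 1) := by rw [le_div_iff₀ h1]; linarith
  have h3 := Nat.le_ceil (τ / (R - 1))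
  have h4 := Nat.ceil_lt_add_one (show 0 ≤ τ / (R - 1) by linarith)
  generalize ⌈τ / (R - 1)⌉₊ = h at h3 h4
  have h5 : (0 : ℝ) < h := by linarith
  have h6 : τ ≤ h * (R - 1) := by rwa [div_le_iff₀ h1] at h3
  have h7 : h * (R - 1) ≤ 2 * τ := by
    have : (h : ℝ) ≤ 2 * (τ / (R - 1)) := by linarith
    rwa [← mul_div_assoc, le_div_iff₀ h1] at this
  refine ⟨h, τ / h, by exact_mod_cast h5, div_pos (by linarith) h5, by field_simp, ?_, ?_⟩
  · have : τ / h ≤ R - 1 := by rw [div_le_iff₀ h5]; linarith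
    linarith
  · have : (R - 1) / 2 ≤ τ / h := by rw [le_div_iff₀ h5]; linarith
    linarith

open Classical in
/-- the deterministic part -/
theorem mono_det (K C : ℝ) : ∃ C' : ℝ, 1 ≤ C' ∧ ∀ φ col, IsQI M.Q M.Q K C φ → M.Col col →
    ∀ μ p, M.GenF μ p → ∀ c ∈ M.u0, ‖c‖ ≤ 1 → ∀ g₀ : ℝ, 0 < g₀ →
    (∀ w ∈ M.W, g₀ ≤ |⟪μ, w (M.A c)⟫_ℝ|) → ∀ (R σ η γ : ℝ) (h : ℕ), 0 < h → 0 < σ → σ + 1 ≤ R →
    2 ≤ R → R ≤ 4 * σ → 0 ≤ η → η ≤ γ → ∀ x : M.G,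
    (((Finset.range (2 * h)).filter fun k : ℕ =>
      η * R < M.er φ col (x * ((k * σ) • c)) (σ • c)).card : ℝ) ≤ γ * (2 * h : ℕ) →
    2 * (h * σ) * M.Psi (M.A c) - η * (2 * (h * σ)) ≤
      M.Phi (M.hr φ c (2 * (h * σ)) (2 * h) x) →
    (((Finset.range h).filter fun k : ℕ => ¬ M.sg col μ c (x * ((k * σ) • c)) ∧
      M.sg col μ c (x * ((k * σ) • c) * ((h * σ) • c))).card : ℝ) ≤ h * (C' * γ / g₀) := by
  obtain ⟨C₁, hC₁, her⟩ := M.er_le K C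
  obtain ⟨Cz, hCz, hz⟩ := M.zig
  refine ⟨2 * (1 + Cz * (4 + 8 * C₁)), by nlinarith, ?_⟩
  intro φ col hφ hcol μ p hp c hc hc1 g₀ hg hfar R σ η γ h hh hσ hσR hR hRσ hη hηγ x h1 h2
  have hγ : 0 ≤ γ := hη.trans hηγ
  have hln : M.ln (σ • c) ≤ R := by
    refine (M.ln_tame (Or.inr (M.u0.smul_mem σ hc))).trans ?_
    rw [norm_smul, Real.norm_of_nonneg hσ.le]
    nlinarith
  have hE : ∀ k : ℕ, ‖(M.A (φ (x * ((((k + 1 : ℕ) : ℝ) * σ) • c))) - M.A (φ x)) -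
      (M.A (φ (x * ((k * σ) • c))) - M.A (φ x)) - σ • col (x * ((k * σ) • c)) (M.A c)‖ =
      M.er φ col (x * ((k * σ) • c)) (σ • c) := fun k => by
    rw [er, M.mono_step hc, map_smul, map_smul, sub_sub_sub_cancel_right]
    push_cast
    rw [add_mul, one_mul]
  have h3 := steps_le (2 * h) (fun k : ℕ => M.A (φ (x * ((k * σ) • c))) - M.A (φ x))
    (fun k : ℕ => σ • col (x * ((k * σ) • c)) (M.A c))
    (fun k : ℕ => η * R < M.er φ col (x * ((k * σ) • c)) (σ • c)) (a := η * R)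
    (b := C₁ * (R + 1)) (γ := γ * (2 * h : ℕ)) (by positivity) (by positivity)
    (fun k _ hk => by rw [hE]; exact not_lt.1 hk)
    (fun k _ => by
      rw [hE]
      exact (her φ hφ col _ _).trans (by gcongr)) (by convert h1)
  have hh' : (0 : ℝ) < h := by exact_mod_cast hh
  have h4 := hz μ p hp (M.A c) σ g₀ (η * (2 * (h * σ)))
    ((2 * h : ℕ) * (η * R) + γ * (2 * h : ℕ) * (C₁ * (R + 1))) (2 * h) h
    (fun k : ℕ => col (x * ((k * σ) • c)))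
    (fun k : ℕ => M.A (φ (x * ((k * σ) • c))) - M.A (φ x)) hσ hg (by positivity)
    (fun k => hcol.1 _) (fun k => hfar _ (hcol.1 _))
    (fun k hk => by
      have := h3 k hk
      simp only [Nat.cast_zero, zero_mul, mono_zero, sub_self, sub_zero] at this
      exact this)
    (by
      refine le_of_eq_of_le (by push_cast; ring) (h2.trans_eq ?_)
      congr 1
      funext i
      unfold hr
      congr 1
      funext j
      have : (j : ℝ) * (2 * (h * σ)) / (2 * h : ℕ) = ((j : ℕ) : ℝ) * σ := by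
        push_cast
        field_simp
      rw [this])
  have h5 : ((Finset.range h).filter fun k : ℕ => ¬ M.sg col μ c (x * ((k * σ) • c)) ∧
      M.sg col μ c (x * ((k * σ) • c) * ((h * σ) • c))) ⊆
      (Finset.range (2 * h)).filter fun k : ℕ => k + h < 2 * h ∧
        ¬ 0 < ⟪μ, col (x * ((k * σ) • c)) (M.A c)⟫_ℝ ∧
        0 < ⟪μ, col (x * ((((k + h : ℕ) : ℝ) * σ) • c)) (M.A c)⟫_ℝ := fun k hk => by
    simp only [Finset.mem_filter, Finset.mem_range] at hk ⊢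
    refine ⟨by omega, by omega, hk.2.1, ?_⟩
    have := hk.2.2
    rw [M.mono_step hc, ← add_mul] at this
    push_cast
    exact this
  have h6 := (mul_le_mul_of_nonneg_right (Nat.cast_le.2 (Finset.card_le_card h5))
    (mul_pos hσ hg).le).trans (by convert h4)
  rw [← mul_div_assoc, le_div_iff₀ hg]
  refine le_of_mul_le_mul_right ?_ hσ
  have h7 : η * R ≤ γ * (4 * σ) := by gcongr
  have h8 : C₁ * (R + 1) ≤ C₁ * (8 * σ) := by gcongr; linarith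
  have h9 : (2 * h : ℕ) * (η * R) + γ * (2 * h : ℕ) * (C₁ * (R + 1)) ≤
      (2 * h : ℕ) * (γ * (4 * σ)) + γ * (2 * h : ℕ) * (C₁ * (8 * σ)) := by gcongr
  have h10 : η * (2 * (h * σ)) ≤ γ * (2 * (h * σ)) := by gcongr
  calc _ = _ := by ring
    _ ≤ _ := h6
    _ ≤ γ * (2 * (h * σ)) +
        Cz * ((2 * h : ℕ) * (γ * (4 * σ)) + γ * (2 * h : ℕ) * (C₁ * (8 * σ))) := by gcongr
    _ = _ := by push_cast; ring

theorem mono_sg (K C a g₀ : ℝ) (ha : 1 ≤ a) (hg : 0 < g₀) : ∃ a' : ℝ, a ≤ a' ∧ ∀ θ : ℝ, 0 < θ →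
    ∃ η : ℝ, 0 < η ∧ η ≤ 1 ∧ ∀ φ col ν ρ R, M.Stage K C φ col ν ρ a' R η → ∀ μ p, M.GenF μ p →
      ∀ c ∈ M.u0, ‖c‖ ≤ 1 → (∀ w ∈ M.W, g₀ ≤ |⟪μ, w (M.A c)⟫_ℝ|) →
      ∀ τ : ℝ, θ * ρ ≤ τ → τ ≤ ρ / 2 →
        M.pr ν ρ a {x | ¬ M.sg col μ c x ∧ M.sg col μ c (x * (τ • c))} ≤ θ * M.nr ν ρ := by
  classical
  obtain ⟨C₁, hC₁, hZ⟩ := M.smul_mem_sZ
  obtain ⟨C', hC', hdet⟩ := M.mono_det K C
  have hL : 0 ≤ (C₁ * (1 + 1)) ^ M.c := by positivity
  obtain ⟨a₁, ha₁, ha₁', hs₁⟩ := M.pr_shift a _ (by linarith) hL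
  obtain ⟨a', ha', -, hs₂⟩ := M.pr_shift a₁ _ (by linarith) hL
  refine ⟨a', ha₁.trans ha', fun θ hθ => ?_⟩
  obtain ⟨D, hD⟩ : ∃ D, D = a₁ ^ Module.finrank ℝ M.u0 := ⟨_, rfl⟩
  have hD0 : 0 ≤ D := by rw [hD]; positivity
  obtain ⟨B, hB⟩ : ∃ B, B = C' / g₀ * D + 2 := ⟨_, rfl⟩
  have hB2 : 2 ≤ B := by rw [hB]; exact le_add_of_nonneg_left (by positivity)
  obtain ⟨γ, hγ, hγ1, hγB⟩ : ∃ γ : ℝ, 0 < γ ∧ γ ≤ 1 ∧ γ * B ≤ θ :=
    ⟨min 1 (θ / B), by positivity, min_le_left _ _,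
      (le_div_iff₀ (by linarith)).1 (min_le_right _ _)⟩
  refine ⟨γ * γ, by positivity, by nlinarith, ?_⟩
  intro φ col ν ρ R hS μ p hp c hc hc1 hfar τ hτ1 hτ2
  have := hS.fin
  have hηγ : γ * γ ≤ γ := by nlinarith
  have hγθ : γ ≤ θ := by nlinarith
  have hρ : 0 ≤ ρ := by linarith [hS.rho.2.2]
  have hη1 : γ * γ * ρ ≤ τ := le_trans (by gcongr; exact hηγ.trans hγθ) hτ1
  obtain ⟨h, σ, hh, hσ, rfl, hσR, hRσ⟩ := mono_len hS.two_le (hS.le_rho.trans hη1)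
  have hh' : (0 : ℝ) < h := by exact_mod_cast hh
  have hn := M.nr_nonneg ν ρ
  have hmem : ∀ k : ℕ, k ≤ 2 * h → ∀ t : ℝ, |t| = k * σ →
      t • c ∈ ((C₁ * (1 + 1)) ^ M.c) • M.Z ρ := fun k hk t ht => by
    refine (hZ c hc hc1 ρ t 1 hρ zero_le_one ?_).2
    have : (k : ℝ) ≤ 2 * h := by exact_mod_cast hk
    rw [ht]
    nlinarith
  have hln : M.ln (σ • c) ≤ R := by
    refine (M.ln_tame (Or.inr (M.u0.smul_mem σ hc))).trans ?_
    rw [norm_smul, Real.norm_of_nonneg hσ.le]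
    nlinarith
  have b1 := count_markov (M.lam ν (a₁ • M.Z ρ)) (2 * h)
    (fun k : ℕ => {x | γ * γ * R < M.er φ col (x * ((k * σ) • c)) (σ • c)})
    (fun k => measurableSet_lt measurable_const
      (M.measurable_er hS.qi hS.hcol (M.mono_meas _) measurable_const))
    (θ := γ * γ * M.nr ν ρ) (by positivity) hγ fun k hk =>
      (hs₂ ν ρ _ (hmem k hk.le _ (abs_of_nonneg (by positivity)))
        {x | γ * γ * R < M.er φ col x (σ • c)}).trans (hS.loc _ hln)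
  have b2 := (M.pr_mono_a ν ρ (by linarith) ha' _).trans
    (hS.tz c hc hc1 (2 * (h * σ)) (by nlinarith) (by linarith) (2 * h) (by push_cast; nlinarith))
  obtain ⟨E₀, hE₀⟩ : ∃ E₀ : Set M.G,
      E₀ = {x | ¬ M.sg col μ c x ∧ M.sg col μ c (x * ((h * σ) • c))} := ⟨_, rfl⟩
  have mE₀ : MeasurableSet E₀ := by
    rw [hE₀]
    exact (hS.hcol.measurableSet_sg μ c).compl.inter
      (M.mono_meas _ (hS.hcol.measurableSet_sg μ c))
  obtain ⟨Bad, b6, hBad⟩ : ∃ Bad : Set M.G,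
      M.pr ν ρ a₁ Bad ≤ γ * γ * M.nr ν ρ / γ + γ * γ * M.nr ν ρ ∧ ∀ x ∉ Bad,
        (((Finset.range (2 * h)).filter fun k : ℕ =>
          γ * γ * R < M.er φ col (x * ((k * σ) • c)) (σ • c)).card : ℝ) ≤ γ * (2 * h : ℕ) ∧
        2 * (h * σ) * M.Psi (M.A c) - γ * γ * (2 * (h * σ)) ≤
          M.Phi (M.hr φ c (2 * (h * σ)) (2 * h) x) := by
    refine ⟨_ ∪ _, (M.pr_union ν ρ a₁ _ _).trans (add_le_add b1 b2), fun x hx => ?_⟩
    simp only [Set.mem_union, Set.mem_ofPred_eq, not_or, not_lt] at hx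
    exact ⟨by convert hx.1, hx.2⟩
  have b3 := count_sum (M.lam ν (a₁ • M.Z ρ)) h (fun k : ℕ => {x | x * ((k * σ) • c) ∈ E₀})
    (fun k => M.mono_meas _ mE₀) Bad (m := h * (C' * γ / g₀)) (by positivity) fun x hx => by
      have := hdet φ col hS.qi.2 hS.hcol μ p hp c hc hc1 g₀ hg hfar R σ (γ * γ) γ h hh hσ hσR
        hS.two_le hRσ (by positivity) hηγ x (hBad x hx).1 (hBad x hx).2
      refine le_of_eq_of_le ?_ this
      congr 2
      ext k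
      simp only [hE₀, Finset.mem_filter, Set.mem_ofPred_eq]
  have b4 : ∀ k ∈ Finset.range h, M.pr ν ρ a E₀ ≤
      (M.lam ν (a₁ • M.Z ρ)).real {x | x * ((k * σ) • c) ∈ E₀} := fun k hk => by
    have hk' := Finset.mem_range.1 hk
    have := hs₁ ν ρ _ (hmem k (by omega) (-(k * σ)) (by rw [abs_neg, abs_of_nonneg]; positivity))
      {x | x * ((k * σ) • c) ∈ E₀}
    simp only [Set.mem_ofPred_eq, M.mono_step hc, neg_add_cancel, mono_zero,
      Set.ofPred_mem_eq] at this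
    exact this
  have b5 := (Finset.card_nsmul_le_sum _ _ _ b4).trans b3
  have b7 := M.pr_univ ν ρ (show 0 < a₁ by linarith)
  rw [← hD] at b7
  rw [Finset.card_range, nsmul_eq_mul] at b5
  rw [← hE₀]
  refine le_of_mul_le_mul_left (b5.trans ?_) hh'
  unfold pr at b6 b7
  rw [b7]
  have b8 : γ * γ * M.nr ν ρ / γ + γ * γ * M.nr ν ρ ≤ γ * 2 * M.nr ν ρ := by
    have : γ * γ * M.nr ν ρ / γ = γ * M.nr ν ρ := by field_simp
    rw [this]
    nlinarith [mul_le_mul_of_nonneg_right hηγ hn]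
  calc _ ≤ h * (C' * γ / g₀) * (D * M.nr ν ρ) + h * (γ * 2 * M.nr ν ρ) := by
        gcongr
        exact b6.trans b8
    _ = h * (γ * B * M.nr ν ρ) := by rw [hB]; ring
    _ ≤ _ := by gcongr

end Vale.Agent.P188.Geo
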