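import Vale.Agent.P188.N.DivB
import Vale.Agent.P188.N.Mono

/-! Balance: signs rarely change at all.
Plan.  `a ≤ a₁` (`le_pr2`), `a₁ ≤ a₂` (`pr2_le`), `a'` from `mono_sg` for `a₂` with `θ = β ^ 2`.
Let `μ₂ = lam (lam ν (a₁ • Z ρ)) (a₁ • Z ρ)`, `z j = τ • c j ∈ (2 C β) • Z ρ` (`smul_mem_sZ`),
`S j = {x | sg col (μ j) (c j) x}`, `E w = {x | col x = w}`.  `S j` is the disjoint union of the
`E w`, `w ∈ W` with `0 < ⟪μ j, w (A (c j))⟫`, so
`∑ j, (μ₂ {x | x z_j ∈ S j} - μ₂ (S j)) = ∑ w, ∑_{j ∈ J w} (μ₂ {x | x z_j ∈ E w} - μ₂ (E w))`,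
each inner sum is `O (β ^ 2)` by `div_lam` (list `(J w).toList.map z`, sum `τ • 0` by `Dirs.bal`).
`μ₂ {x | x z ∈ S} - μ₂ S = μ₂ (up j) - μ₂ (down j)`; `μ₂ (up j) ≤ C m0 (Z ρ) β ^ 2 nr`
(`pr2_le`, `mono_sg`); hence every `μ₂ (down j)` is `O (β ^ 2)`; `le_pr2`, divide by `m0_Z_pos`.
-/

namespace Vale.Agent.P188.Geo
open scoped InnerProductSpace Pointwise
open MeasureTheory
variable (M : Geo)

theorem bal_split (P : Measure M.G) [IsFiniteMeasure P] {col} (h : M.Col col)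
    (p : (M.V ≃ₗᵢ[ℝ] M.V) → Prop) [DecidablePred p] : P.real {x | p (col x)} =
      ∑ w ∈ M.W_finite.toFinset, if p w then P.real {x | col x = w} else 0 := by
  rw [← Finset.sum_filter,
    ← measureReal_biUnion_finset (fun w _ w' _ hne => ?_) (fun w _ => h.2 w)]
  · refine congrArg P.real (Set.ext fun x => ?_)
    simp [h.1 x]
  · exact Set.disjoint_left.2 fun x h1 h2 => hne (h1.symm.trans h2)

theorem bal_diff (P : Measure M.G) [IsFiniteMeasure P] {A B : Set M.G} (hA : MeasurableSet A)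
    (hB : MeasurableSet B) : P.real A - P.real B = P.real (A \ B) - P.real (B \ A) := by
  have h1 := measureReal_inter_add_sdiff (μ := P) (s := A) hB
  have h2 := measureReal_inter_add_sdiff (μ := P) (s := B) hA
  rw [Set.inter_comm] at h2
  linarith

/-- The total downward mass is controlled by the upward mass. -/
theorem bal_down {ι : Type} [Fintype ι] (P : Measure M.G) [IsFiniteMeasure P] {col}
    (h : M.Col col) (μ : ι → M.V) (c z : ι → M.G) {u D : ℝ}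
    (hu : ∀ j, P.real ({x | M.sg col (μ j) (c j) (x * z j)} \ {x | M.sg col (μ j) (c j) x}) ≤ u)
    (hD : ∀ w ∈ M.W, |∑ j ∈ Finset.univ.filter fun j => 0 < ⟪μ j, w (M.A (c j))⟫_ℝ,
      (P.real {x | col (x * z j) = w} - P.real {x | col x = w})| ≤ D) (j : ι) :
    P.real ({x | M.sg col (μ j) (c j) x} \ {x | M.sg col (μ j) (c j) (x * z j)}) ≤
      Fintype.card ι * u + M.W_finite.toFinset.card * D := by
  have hz := fun j => h.comp (M.lam_mulr (z j)).measurable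
  have h1 : ∀ j, P.real ({x | M.sg col (μ j) (c j) (x * z j)} \ {x | M.sg col (μ j) (c j) x}) -
      P.real ({x | M.sg col (μ j) (c j) x} \ {x | M.sg col (μ j) (c j) (x * z j)}) =
      ∑ w ∈ M.W_finite.toFinset, if 0 < ⟪μ j, w (M.A (c j))⟫_ℝ then
        P.real {x | col (x * z j) = w} - P.real {x | col x = w} else 0 := fun j => by
    have e1 := M.bal_split P (hz j) fun w => 0 < ⟪μ j, w (M.A (c j))⟫_ℝ
    have e2 := M.bal_split P h fun w => 0 < ⟪μ j, w (M.A (c j))⟫_ℝ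
    refine (M.bal_diff P ((hz j).measurableSet_sg (μ j) (c j))
      (h.measurableSet_sg (μ j) (c j))).symm.trans ?_
    refine (congrArg₂ (· - ·) e1 e2).trans ?_
    rw [← Finset.sum_sub_distrib]
    exact Finset.sum_congr rfl fun w _ => by split_ifs <;> simp
  have h2 := Finset.sum_congr (rfl : (Finset.univ : Finset ι) = _) fun j _ => h1 j
  rw [Finset.sum_comm, Finset.sum_sub_distrib] at h2
  have h3 : ∑ w ∈ M.W_finite.toFinset, -D ≤ ∑ w ∈ M.W_finite.toFinset, ∑ j,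
      if 0 < ⟪μ j, w (M.A (c j))⟫_ℝ then
        P.real {x | col (x * z j) = w} - P.real {x | col x = w} else 0 :=
    Finset.sum_le_sum fun w hw => by
      rw [← Finset.sum_filter]
      exact (abs_le.1 (hD w (by simpa using hw))).1
  have h4 := Finset.sum_le_sum fun j (_ : j ∈ Finset.univ) => hu j
  have h5 := Finset.single_le_sum (f := fun j => P.real ({x | M.sg col (μ j) (c j) x} \
    {x | M.sg col (μ j) (c j) (x * z j)})) (fun _ _ => measureReal_nonneg) (Finset.mem_univ j)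
  simp only [Finset.sum_const, nsmul_eq_mul, Finset.card_univ] at h3 h4
  linarith

theorem bal {ι : Type} [Fintype ι] {μ : ι → M.V} {c : ι → M.G} {g₀ : ℝ} (hD : M.Dirs μ c g₀)
    (K C a : ℝ) (ha : 1 ≤ a) : ∃ a' C' : ℝ, a ≤ a' ∧ 1 ≤ C' ∧ ∀ β : ℝ, 0 < β → C' * β ≤ 1 →
    ∃ η : ℝ, 0 < η ∧ η ≤ 1 ∧ ∀ φ col ν ρ R, M.Stage K C φ col ν ρ a' R η →
      ∀ τ : ℝ, β * ρ ≤ τ → τ ≤ 2 * β * ρ → ∀ j,
        M.pr ν ρ a {x | ¬ (M.sg col (μ j) (c j) (x * (τ • c j)) ↔ M.sg col (μ j) (c j) x)} ≤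
          C' * β ^ 2 * M.nr ν ρ := by
  obtain ⟨a₁, h1, H1⟩ := M.le_pr2 a ha
  obtain ⟨a₂, C₂, h2, hC₂, H2⟩ := M.pr2_le a₁ (ha.trans h1)
  obtain ⟨a', h3, H3⟩ := M.mono_sg K C a₂ g₀ (ha.trans (h1.trans h2)) hD.pos
  obtain ⟨C₃, hC₃, H4⟩ := M.div_lam a₁ (ha.trans h1) (Fintype.card ι)
  obtain ⟨C₄, hC₄, H5⟩ := M.smul_mem_sZ
  set D : ℝ := C₂ + (Fintype.card ι * C₂ + M.W_finite.toFinset.card * (4 * C₃ * C₄ ^ 2)) with hD'
  have hD0 : 0 ≤ D := by positivity
  have h34 : C₄ ≤ C₃ * C₄ := by nlinarith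
  refine ⟨a', 4 + 2 * (C₃ * C₄) + D, h1.trans (h2.trans h3), by nlinarith, fun β hβ hβ1 => ?_⟩
  obtain ⟨η, hη, hη1, H6⟩ := H3 (β ^ 2) (by positivity)
  refine ⟨η, hη, hη1, fun φ col ν ρ R hS τ ht1 ht2 j => ?_⟩
  have := hS.fin
  have hρ : 0 < ρ := by linarith [hS.rho.2.2]
  have hb1 : 4 * β ≤ 1 := by nlinarith
  have hb2 : C₃ * (C₄ * (2 * β)) ≤ 1 := by nlinarith
  have hb3 : C₄ * (2 * β) ≤ 1 := by nlinarith
  have hm := M.m0_Z_pos hρ
  have hn := M.nr_nonneg ν ρ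
  set P := M.lam (M.lam ν (a₁ • M.Z ρ)) (a₁ • M.Z ρ) with hP
  have hc := hS.hcol
  have hz := fun j => hc.comp (M.lam_mulr (τ • c j)).measurable
  have hA := fun j => (hz j).measurableSet_sg (μ j) (c j)
  have hB := fun j => hc.measurableSet_sg (μ j) (c j)
  have hu : ∀ j, P.real ({x | M.sg col (μ j) (c j) (x * τ • c j)} \
      {x | M.sg col (μ j) (c j) x}) ≤ C₂ * (β ^ 2 * M.nr ν ρ * M.m0.real (M.Z ρ)) := fun j => by
    obtain ⟨p, hp⟩ := hD.gen j
    have e1 := H6 φ col ν ρ R hS (μ j) p hp (c j) (hD.mem j) (hD.norm_le j) (hD.far j) τ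
      (by nlinarith [mul_pos hβ hρ]) (by nlinarith)
    have e2 := (M.pr_mono ν ρ a₂ (E := {x | M.sg col (μ j) (c j) (x * τ • c j)} \
      {x | M.sg col (μ j) (c j) x}) fun x hx => And.intro hx.2 hx.1).trans e1
    refine (H2 ν ρ _ ((hA j).diff (hB j))).trans ?_
    calc _ ≤ C₂ * M.m0.real (M.Z ρ) * (β ^ 2 * M.nr ν ρ) :=
          mul_le_mul_of_nonneg_left e2 (by positivity)
      _ = _ := by ring
  have hd := M.bal_down P hc μ c (fun j => τ • c j) hu
    (D := 4 * C₃ * C₄ ^ 2 * (β ^ 2 * M.nr ν ρ * M.m0.real (M.Z ρ))) (fun w hw => by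
      have e1 := H4 ν ρ (C₄ * (2 * β)) (by positivity) hb2 _ (hc.2 w)
        ((Finset.univ.filter fun j => 0 < ⟪μ j, w (M.A (c j))⟫_ℝ).toList.map fun j => τ • c j)
        (by rw [List.length_map, Finset.length_toList]; exact Finset.card_le_univ _)
        (fun z hz => by
          obtain ⟨i, -, rfl⟩ := List.mem_map.1 hz
          exact (H5 _ (hD.mem i) (hD.norm_le i) ρ τ (2 * β) hρ.le (by positivity)
            (by rw [abs_of_nonneg (by nlinarith [mul_pos hβ hρ])]; exact ht2)).1 hb3)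
        (by rw [Finset.sum_map_toList, ← Finset.smul_sum, Finset.sum_filter, hD.bal w hw,
          smul_zero])
      rw [List.map_map, Finset.sum_map_toList] at e1
      exact e1.trans (le_of_eq (by ring))) j
  have hE : {x | ¬ (M.sg col (μ j) (c j) (x * (τ • c j)) ↔ M.sg col (μ j) (c j) x)} =
      ({x | M.sg col (μ j) (c j) (x * τ • c j)} \ {x | M.sg col (μ j) (c j) x}) ∪
      ({x | M.sg col (μ j) (c j) x} \ {x | M.sg col (μ j) (c j) (x * τ • c j)}) := by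
    ext x
    simp only [Set.mem_ofPred_eq, Set.mem_union, Set.mem_sdiff]
    tauto
  rw [hE]
  have e1 := (H1 ν ρ _ (((hA j).diff (hB j)).union ((hB j).diff (hA j)))).trans
    ((measureReal_union_le (μ := P) _ _).trans (add_le_add (hu j) hd))
  refine le_of_mul_le_mul_left (e1.trans ?_) hm
  have e2 : 0 ≤ (4 + 2 * (C₃ * C₄)) * (β ^ 2 * M.nr ν ρ * M.m0.real (M.Z ρ)) := by positivity
  rw [hD']
  nlinarith

end Vale.Agent.P188.Geo
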