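import Vale.Agent.P188.N.Lam

/-! Boxes: algebra and volume.
Plan: `e_ln`: `nf_of_ln` gives `g = x * ζ`; `ζ = x⁻¹ * g ∈ e`, `e_inter_Z`, `K_prod` for the list
`[x, ζ]`, `log (2 + t) ≤ 1 + t`.  `pj_e_mul`: `y * x - x ∈ e` (`mul_eq_st`, `lie_key`-type argument
or `st_sub_mem` with `K = ⊤`, `L = L' = e`, comparing `(y, x)` with `(0, x)`).
`pj_mul_e`: `x * y = (x * y * x⁻¹) * x`, `conj_eq`, `Ad_mem_e`.  `vol_box_inter`: `fubini_G` with
the indicator; `subMu_ae` gives `q ∈ eᗮ`, `y ∈ e` a.e., where `pj (y * q) = q`.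
`ln_pj`: `smul_Z_subset`, `ln_Z`, `proj_Z`, `ln_K 1`; `pj z = (z * (pj z)⁻¹)⁻¹ * z`.
`pZ_pos`: `subMu_pos`, `mem_Z`, `e_orth_le`.  `Abs.pos`: `ln_le_one`, `subMu_pos`,
`subMu_real_smul`.
-/

namespace Vale.Agent.P188.Geo
open scoped InnerProductSpace Pointwise
open MeasureTheory
variable (M : Geo)

theorem BoxA_log {t : ℝ} (ht : 0 ≤ t) : Real.log (2 + t) ≤ 1 + t := by
  linarith [Real.log_le_sub_one_of_pos (show 0 < 2 + t by linarith)]

theorem e_ln : ∃ C : ℝ, 1 ≤ C ∧ ∀ g ∈ M.e, ∀ ℓ : ℝ, 0 ≤ ℓ → M.ln g ≤ ℓ →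
    g ∈ M.K (fun _ => C * (ℓ + 1)) := by
  obtain ⟨C1, h1, H1⟩ := M.nf_of_ln
  obtain ⟨C2, h2, H2⟩ := M.e_inter_Z
  obtain ⟨C3, h3, H3⟩ := M.K_prod
  refine ⟨2 * C1 * C2 + 3 * C3, by nlinarith, fun g hg ℓ hℓ hl => ?_⟩
  obtain ⟨x, hx, ζ, hζ, rfl⟩ := H1 g ℓ hl
  have hxe := M.K_sub_e _ hx
  have hζe : ζ ∈ M.e := by
    have := M.mul_mem_e (M.inv_mem_e hxe) hg
    rwa [inv_mul_cancel_left] at this
  have k0 : 1 ≤ C1 * (ℓ + 1) := by nlinarith
  have k1 := H2 _ (by linarith) ζ hζ hζe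
  have k2 : C2 * Real.log (2 + C1 * (ℓ + 1)) ≤ C2 * (2 * (C1 * (ℓ + 1))) :=
    mul_le_mul_of_nonneg_left ((BoxA_log (by linarith)).trans (by linarith)) (by linarith)
  have k3 := H3 (fun _ => C2 * (2 * (C1 * (ℓ + 1)))) [x, ζ] (by
    intro y hy
    rcases List.mem_pair.1 hy with rfl | rfl
    · exact M.K_mono (fun _ _ => by nlinarith) hx
    · exact M.K_mono (fun _ _ => k2) k1)
  rw [List.prod_cons, List.prod_singleton] at k3
  refine M.K_mono (fun _ _ => ?_) k3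
  have k4 := Real.log_le_sub_one_of_pos (show 0 < C3 * 3 by linarith)
  have e : (1 : ℝ) + ([x, ζ].length : ℕ) = 3 := by
    simp only [List.length_cons, List.length_nil]
    norm_num
  rw [e]
  nlinarith

theorem pj_mem (x : M.G) : M.pj x ∈ M.eᗮ := Submodule.starProjection_apply_mem _ x

theorem pj_of_mem {q : M.G} (hq : q ∈ M.eᗮ) : M.pj q = q :=
  Submodule.starProjection_eq_self_iff.2 hq

theorem BoxA_zero {y : M.G} (hy : y ∈ M.e) : M.pj y = 0 :=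
  Submodule.starProjection_apply_eq_zero_iff _ |>.2 (Submodule.le_orthogonal_orthogonal _ hy)

theorem pj_e_mul {y : M.G} (hy : y ∈ M.e) (x : M.G) : M.pj (y * x) = M.pj x := by
  have h := M.bchG.mem ((ℝ ∙ x) ⊔ M.e) M.e
    (fun a ha b hb => Submodule.mem_sup_right (M.lie_key x a ha b hb)) (M.lie_key x)
    (Submodule.mem_sup_right hy) (Submodule.mem_sup_left (Submodule.mem_span_singleton_self x))
  rw [M.mul_eq_st (Or.inl (M.A_e hy)), M.lie_st, map_add, map_add, M.BoxA_zero h, M.BoxA_zero hy,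
    zero_add, zero_add]

theorem BoxA_conj (x : M.G) {y : M.G} (hy : y ∈ M.e) : x * y * x⁻¹ ∈ M.e := by
  rw [M.conj_eq (Or.inl (M.A_e hy))]
  exact M.Ad_mem_e x hy

theorem pj_mul_e {y : M.G} (hy : y ∈ M.e) (x : M.G) : M.pj (x * y) = M.pj x := by
  rw [← M.pj_e_mul (M.BoxA_conj x hy) x, inv_mul_cancel_right]

theorem BoxA_nf (x : M.G) : x * (M.pj x)⁻¹ ∈ M.e := M.mul_proj_inv_mem_e x

theorem BoxA_mul (x y : M.G) : M.pj (x * y) = M.pj (M.pj x * M.pj y) := by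
  have e : x * y = x * (M.pj x)⁻¹ * (M.pj x * (y * (M.pj y)⁻¹) * (M.pj x)⁻¹ *
      (M.pj x * M.pj y)) := by group
  rw [e, M.pj_e_mul (M.BoxA_nf x), M.pj_e_mul (M.BoxA_conj _ (M.BoxA_nf y))]

/-- `pj (x * y)` depends only on `pj x` and `pj y`. -/
theorem pj_mul_congr {x x' y y' : M.G} (hx : M.pj x = M.pj x') (hy : M.pj y = M.pj y') :
    M.pj (x * y) = M.pj (x' * y') := by
  rw [M.BoxA_mul x, M.BoxA_mul x', hx, hy]

theorem measurableSet_box {B P : Set M.G} (hB : MeasurableSet B) (hP : MeasurableSet P) :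
    MeasurableSet (M.box B P) := by
  have h1 : Continuous fun x => x * (M.pj x)⁻¹ := continuous_id.mul M.pj.continuous.inv
  exact (h1.measurable hB).inter (M.pj.continuous.measurable hP)

theorem box_mono {B B' P P' : Set M.G} (hB : B ⊆ B') (hP : P ⊆ P') : M.box B P ⊆ M.box B' P' :=
  fun _ h => ⟨hB h.1, hP h.2⟩

theorem BoxA_ae (W : Submodule ℝ M.G) : ∀ᵐ x ∂(subMu W), x ∈ W := subMu_compl W

theorem vol_box_inter {B P E : Set M.G} (hB : MeasurableSet B) (hP : MeasurableSet P)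
    (hE : MeasurableSet E) : volume (M.box B P ∩ E) =
      ∫⁻ q in P, M.mE (B ∩ {y | y * q ∈ E}) ∂(subMu M.eᗮ) := by
  have hm := (M.measurableSet_box hB hP).inter hE
  rw [← lintegral_indicator_one hm, M.fubini_G (measurable_one.indicator hm),
    ← lintegral_indicator hP]
  refine lintegral_congr_ae ((M.BoxA_ae M.eᗮ).mono fun q hq => ?_)
  have hq' : MeasurableSet (B ∩ {y | y * q ∈ E}) :=
    hB.inter ((continuous_id.mul continuous_const).measurable hE)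
  have key : ∀ y ∈ M.e, y * q ∈ M.box B P ∩ E ↔ q ∈ P ∧ y ∈ B ∩ {y | y * q ∈ E} := by
    intro y hy
    change (y * q * (M.pj (y * q))⁻¹ ∈ B ∧ M.pj (y * q) ∈ P) ∧ y * q ∈ E ↔
      q ∈ P ∧ y ∈ B ∧ y * q ∈ E
    rw [M.pj_e_mul hy, M.pj_of_mem hq, mul_inv_cancel_right]
    tauto
  by_cases hP' : q ∈ P
  · simp only [Set.indicator_of_mem hP']
    rw [← lintegral_indicator_one hq']
    refine lintegral_congr_ae ((M.BoxA_ae M.e).mono fun y hy => ?_)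
    by_cases h : y ∈ B ∩ {y | y * q ∈ E}
    · simp only [Set.indicator_of_mem h, Set.indicator_of_mem ((key y hy).2 ⟨hP', h⟩), Pi.one_apply]
    · simp only [Set.indicator_of_notMem h,
        Set.indicator_of_notMem fun k => h ((key y hy).1 k).2]
  · simp only [Set.indicator_of_notMem hP']
    rw [← lintegral_zero (μ := M.mE)]
    refine lintegral_congr_ae ((M.BoxA_ae M.e).mono fun y hy => ?_)
    exact Set.indicator_of_notMem (fun k => hP' ((key y hy).1 k).1) _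

theorem vol_box' {B P : Set M.G} (hB : MeasurableSet B) (hP : MeasurableSet P) :
    volume (M.box B P) = M.mE B * subMu M.eᗮ P := by
  have h := M.vol_box_inter hB hP MeasurableSet.univ
  simpa using h

theorem ln_pj (a : ℝ) (ha : 1 ≤ a) : ∃ C : ℝ, 1 ≤ C ∧ ∀ ρ : ℝ, 1 ≤ ρ → ∀ z ∈ a • M.Z ρ,
    M.ln z ≤ C * ρ ∧ M.ln (M.pj z) ≤ C * ρ := by
  obtain ⟨C1, h1, H1⟩ := M.ln_Z
  obtain ⟨C2, h2, H2⟩ := M.proj_Z
  obtain ⟨C3, h3, H3⟩ := M.ln_K 1 zero_le_one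
  have p1 : 1 ≤ C1 * a := by nlinarith
  have p2 : 1 ≤ C2 * a := by nlinarith
  have p3 : 0 ≤ C3 * (3 * (C2 * a)) := by positivity
  refine ⟨2 * (C1 * a) + C3 * (3 * (C2 * a)), by linarith, fun ρ hρ z hz => ?_⟩
  have hz' := M.smul_Z_subset ha hz
  have k0 : 1 ≤ a * ρ := by nlinarith
  have k1 : M.ln z ≤ 2 * (C1 * a) * ρ := (H1 _ (by linarith) z hz').trans (by nlinarith)
  have k2 : C2 * Real.log (2 + a * ρ) ≤ C2 * (2 * (a * ρ)) :=
    mul_le_mul_of_nonneg_left ((BoxA_log (by linarith)).trans (by linarith)) (by linarith)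
  have k3 := H3 _ (C2 * (2 * (a * ρ))) (by positivity) (fun _ _ => k2) _
    (by rw [one_smul]; exact H2 _ (by linarith) z hz')
  have k4 : C3 * (C2 * (2 * (a * ρ)) + 1) ≤ C3 * (3 * (C2 * a) * ρ) :=
    mul_le_mul_of_nonneg_left (by nlinarith) (by linarith)
  have k5 := M.ln_mul (z * (M.pj z)⁻¹)⁻¹ z
  rw [M.ln_inv, show (z * (M.pj z)⁻¹)⁻¹ * z = M.pj z by group] at k5
  have k6 := mul_nonneg p3 (zero_le_one.trans hρ)
  change M.ln (z * (M.pj z)⁻¹) ≤ _ at k3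
  constructor <;> linarith

theorem pZ_sc (ρ : ℝ) : SC (M.pZ ρ) := (M.Z_isLB ρ).sc.image M.pj.toLinearMap

theorem smul_pZ (a ρ : ℝ) : a • M.pZ ρ = M.pj '' (a • M.Z ρ) :=
  (image_smul_set M.pj a (M.Z ρ)).symm

theorem isCompact_pZ (a ρ : ℝ) : IsCompact (a • M.pZ ρ) := by
  rw [M.smul_pZ]
  exact (M.isCompact_sZ a ρ).image M.pj.continuous

theorem pZ_pos {ρ : ℝ} (h : 0 < ρ) : 0 < (subMu M.eᗮ).real (M.pZ ρ) := by
  obtain ⟨C, hC, H⟩ := M.mem_Z
  have h1 := M.isCompact_pZ 1 ρ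
  rw [one_smul] at h1
  refine ENNReal.toReal_pos (subMu_pos _ (ε := ρ / C) (by positivity) fun x hx hn => ?_)
    h1.measure_lt_top.ne
  refine ⟨x, M.Z_mono (by positivity) ?_ (H x (M.e_orth_le hx)), M.pj_of_mem hx⟩
  rwa [le_div_iff₀' (by linarith)] at hn

variable {M} in
theorem Abs.pos {B ℓ β} (h : M.Abs B ℓ β) (hℓ : 1 ≤ ℓ) (hβ : 0 < β) (hB : M.IsLB B) :
    0 < M.mE.real B := by
  have h1 : 0 < (subMu M.e).real (β • B) :=
    ENNReal.toReal_pos (subMu_pos _ one_pos fun x hx hn => h x hx ((M.ln_le_one hn).trans hℓ))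
      (hB.compact.smul β).measure_lt_top.ne
  rw [subMu_real_smul _ _ hβ] at h1
  exact (mul_pos_iff_of_pos_left (by positivity)).1 h1

variable {M} in
theorem Abs.mono {B ℓ β ℓ' β'} (h : M.Abs B ℓ β) (hB : M.IsLB B) (hℓ : ℓ' ≤ ℓ) (h0 : 0 ≤ β)
    (hβ : β ≤ β') : M.Abs B ℓ' β' := fun g hg hl =>
  hB.sc.smul_mono (by rwa [abs_of_nonneg h0]) (h g hg (hl.trans hℓ))

end Vale.Agent.P188.Geo
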