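import Vale.Agent.P188.N.BoxA

/-! Moving boxes by right multiplication.
Plan for `box_move`: `x = y * q`, `q = pj x = pj z`, `z ∈ a' • Z ρ` (`smul_pZ`); `b = k * ζ`
(`nf_of_ln`), `ζ ∈ Z (C₁ (ln b + 1)) ⊆ Z (γ ρ) ⊆ γ • Z ρ` (`Z_subset_smul_of_le`); so
`q' = pj (x * b) = pj (z * ζ)` (`pj_mul_congr`, `pj_e_mul`), and `z * ζ - z ∈ C₂ • γ • Z ρ`
(`mul_sub_mem` with `S = Z ρ`, `L = γ • Z ρ`), so `z * ζ ∈ (a' + C₂ γ) • Z ρ` (`SC.add_mem`).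
`x * b * q'⁻¹ = y * e'`, `e' = q * b * q'⁻¹ ∈ e` (it is `(q * b) * (pj (q * b))⁻¹`,
`mul_proj_inv_mem_e`), `ln e' ≤ C ρ` (`ln_pj`), so `e' ∈ β • B` and
`y * e' - y ∈ C₃ • β • B` (`mul_sub_mem` with `S = B`, `L = β • B`).
`box_move_e`: `pj (x * b) = pj x`, `e' = q * b * q⁻¹`, `ln_K 1`.
-/

namespace Vale.Agent.P188.Geo
open scoped InnerProductSpace Pointwise
open MeasureTheory
variable (M : Geo)

theorem BoxB_add (C : ℝ) (hC : 1 ≤ C) : ∃ C' : ℝ, 1 ≤ C' ∧ ∀ S, M.IsLB S → M.Tame S →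
    ∀ t β D : ℝ, 0 ≤ t → t ≤ C → 0 ≤ β → β ≤ 1 → C' ≤ D → ∀ x ∈ t • S, ∀ y ∈ β • S,
      x * y ∈ (t + D * β) • S := by
  obtain ⟨C', h1, H⟩ := M.mul_sub_mem C (by linarith)
  refine ⟨C', h1, fun S hS hT t β D t0 tC b0 b1 hD x hx y hy => ?_⟩
  have h2 := (H S (β • S) hS hT (hS.sc.smul β)
    (fun u hu v hv => by simpa using SC.map_mem₂ M.B hS.lie (M.lb_one hu) hv)
    x (hS.sc.smul_mono (by rwa [abs_of_nonneg t0]) hx)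
    y (hS.sc.smul_mono (by rw [abs_of_nonneg b0]; linarith) hy) hy).1
  rw [smul_smul] at h2
  have h3 : 0 ≤ C' * β := by positivity
  have h4 := hS.sc.add_mem t0 h3 hx h2
  rw [add_sub_cancel] at h4
  refine hS.sc.smul_mono ?_ h4
  rw [abs_of_nonneg (add_nonneg t0 h3)]
  gcongr

theorem BoxB_split (x b : M.G) : x * b * (M.pj (x * b))⁻¹ =
    x * (M.pj x)⁻¹ * (M.pj x * b * (M.pj (x * b))⁻¹) ∧
      M.pj x * b * (M.pj (x * b))⁻¹ ∈ M.e ∧ M.ln (M.pj x * b * (M.pj (x * b))⁻¹) ≤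
        M.ln (M.pj x) + M.ln b + M.ln (M.pj (x * b)) := by
  refine ⟨by group, ?_, ?_⟩
  · rw [M.pj_mul_congr (x' := M.pj x) (y' := b) (M.pj_of_mem (M.pj_mem x)).symm rfl]
    exact M.mul_proj_inv_mem_e _
  · linarith [M.ln_mul (M.pj x * b) (M.pj (x * b))⁻¹, M.ln_mul (M.pj x) b,
      M.ln_inv (M.pj (x * b))]

theorem box_move (s a : ℝ) (hs : 1 ≤ s) (ha : 1 ≤ a) : ∃ C : ℝ, 1 ≤ C ∧ ∀ ρ β γ : ℝ, 1 ≤ ρ →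
    0 ≤ β → β ≤ 1 → 0 ≤ γ → γ ≤ 1 → ∀ B, M.IsLB B → B ⊆ M.e → M.Abs B (C * ρ) β →
    ∀ s' a' : ℝ, 0 ≤ s' → s' ≤ s → 0 ≤ a' → a' ≤ a → ∀ b, C * (M.ln b + 1) ≤ γ * ρ →
      ∀ x ∈ M.box (s' • B) (a' • M.pZ ρ),
        x * b ∈ M.box ((s' + C * β) • B) ((a' + C * γ) • M.pZ ρ) := by
  obtain ⟨C1, c1, H1⟩ := M.nf_of_ln
  obtain ⟨C2, c2, H2⟩ := M.BoxB_add a ha
  obtain ⟨C3, c3, H3⟩ := M.BoxB_add s hs
  obtain ⟨C4, c4, H4⟩ := M.ln_pj (a + C2) (by linarith)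
  refine ⟨C1 + C2 + C3 + 2 * C4, by linarith,
    fun ρ β γ hρ b0 b1 g0 g1 B hB hBe hA s' a' s0 s1 a0 a1 b hb x hx => ?_⟩
  have hl := M.ln_nonneg b
  have hZ := M.Z_isLB ρ
  obtain ⟨hy, hq⟩ := hx
  rw [M.smul_pZ] at hq
  obtain ⟨z, hz, hq⟩ := hq
  obtain ⟨k, hk, ζ, hζ, e⟩ := H1 b _ le_rfl
  have h1 : ζ ∈ γ • M.Z ρ := M.Z_subset_smul_of_le g0 g1
    (M.Z_mono (by positivity) (le_trans (by gcongr; linarith) hb) hζ)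
  have h2 : M.pj (x * b) = M.pj (z * ζ) :=
    M.pj_mul_congr hq.symm (by rw [e, M.pj_e_mul (M.K_sub_e _ hk)])
  obtain ⟨e1, e2, e3⟩ := M.BoxB_split x b
  have h3 := (H4 ρ hρ z (hZ.sc.smul_mono (by rw [abs_of_nonneg a0]; linarith) hz)).2
  have h4 := (H4 ρ hρ _ (hZ.sc.smul_mono (by rw [abs_of_nonneg (by positivity)]; nlinarith)
    (H2 _ hZ (M.Z_tame ρ) a' γ C2 a0 a1 g0 g1 le_rfl z hz ζ h1))).2
  rw [hq] at h3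
  rw [← h2] at h4
  have h5 : M.ln b ≤ ρ := by nlinarith
  refine ⟨?_, ?_⟩
  · rw [e1]
    exact H3 B hB (M.tame_of_e hBe) s' β _ s0 s1 b0 b1 (by linarith) _ hy _
      (hA _ e2 (by nlinarith))
  · rw [M.smul_pZ, h2]
    exact ⟨_, H2 _ hZ (M.Z_tame ρ) a' γ _ a0 a1 g0 g1 (by linarith) z hz ζ h1, rfl⟩

theorem box_move_e (s a L : ℝ) (hs : 1 ≤ s) (ha : 1 ≤ a) (hL : 0 ≤ L) : ∃ C : ℝ, 1 ≤ C ∧
    ∀ ρ β : ℝ, 1 ≤ ρ → 0 ≤ β → β ≤ 1 → ∀ B, M.IsLB B → B ⊆ M.e → M.Abs B (C * ρ) β →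
      ∀ b ∈ M.K (fun _ => L * ρ), ∀ x ∈ M.box (s • B) (a • M.pZ ρ),
        x * b ∈ M.box ((s + C * β) • B) (a • M.pZ ρ) := by
  obtain ⟨C1, c1, H1⟩ := M.ln_K 1 zero_le_one
  obtain ⟨C3, c3, H3⟩ := M.BoxB_add s hs
  obtain ⟨C4, c4, H4⟩ := M.ln_pj a ha
  have hC : 0 ≤ C1 * (L + 1) := by positivity
  refine ⟨C1 * (L + 1) + C3 + 2 * C4, by linarith, fun ρ β hρ b0 b1 B hB hBe hA b hb x hx => ?_⟩
  obtain ⟨hy, hq⟩ := hx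
  have h2 : M.pj (x * b) = M.pj x := M.pj_mul_e (M.K_sub_e _ hb) x
  refine ⟨?_, h2 ▸ hq⟩
  rw [M.smul_pZ] at hq
  obtain ⟨z, hz, hq⟩ := hq
  obtain ⟨e1, e2, e3⟩ := M.BoxB_split x b
  have h3 := (H4 ρ hρ z hz).2
  have h5 := H1 _ (L * ρ) (by positivity) (fun _ _ => le_rfl) b (M.lb_one hb)
  rw [hq] at h3
  rw [e1]
  refine H3 B hB (M.tame_of_e hBe) s β _ (by linarith) le_rfl b0 b1 (by linarith) _ hy _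
    (hA _ e2 (e3.trans ?_))
  rw [h2]
  nlinarith

end Vale.Agent.P188.Geo
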