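import Vale.Agent.P188.N.BoxA

/-! The law of `l * ζ` is dominated by the uniform law on a box. -/

namespace Vale.Agent.P188.Geo
open scoped InnerProductSpace Pointwise
open MeasureTheory
variable (M : Geo)

theorem u0_inf : M.u0 ⊓ (M.e ⊓ M.u0)ᗮ = M.eᗮ := by
  refine le_antisymm (fun x hx => (Submodule.mem_orthogonal _ _).2 fun y hy => ?_)
    (le_inf M.e_orth_le (Submodule.orthogonal_le inf_le_left))
  have h1 : y - M.u0.starProjection y ∈ M.u0ᗮ := M.u0.sub_starProjection_mem_orthogonal y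
  have h2 : y - M.u0.starProjection y ∈ M.e :=
    M.e.orthogonal_orthogonal.le (Submodule.orthogonal_le M.e_orth_le h1)
  have h3 : M.u0.starProjection y ∈ M.e ⊓ M.u0 :=
    ⟨by simpa using M.e.sub_mem hy h2, M.u0.starProjection_apply_mem y⟩
  have h4 := Submodule.inner_right_of_mem_orthogonal h3 hx.2
  have h5 := Submodule.inner_left_of_mem_orthogonal hx.1 h1
  rwa [inner_sub_left, h4, sub_zero] at h5

theorem BoxC_pj {i q : M.G} (hi : i ∈ M.e) (hq : q ∈ M.eᗮ) : M.pj (i + q) = q := by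
  rw [map_add, M.pj_of_mem hq, show M.pj i = 0 from
    (Submodule.starProjection_apply_eq_zero_iff _).2 (M.e.le_orthogonal_orthogonal hi), zero_add]

theorem BoxC_sec {S : Set M.G} (hS : SC S) (hc : IsCompact S) (g : M.G → ENNReal) {q : M.G}
    (hq : q ∈ M.eᗮ) :
    ∫⁻ i, S.indicator (fun ζ => g (M.pj ζ)) (i + q) ∂(subMu (M.e ⊓ M.u0)) ≤
      (M.pj '' S).indicator g q * subMu (M.e ⊓ M.u0) ((2 : ℝ) • S) := by
  have hae : ∀ᵐ i ∂(subMu (M.e ⊓ M.u0)), i ∈ M.e ⊓ M.u0 := subMu_compl _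
  by_cases h : ∃ i ∈ M.e ⊓ M.u0, i + q ∈ S
  · obtain ⟨i₀, h0, h1⟩ := h
    have hm : MeasurableSet ((2 : ℝ) • S) := (hc.smul _).measurableSet
    have ha : Measurable fun y : M.G => -i₀ + y := (continuous_const.add continuous_id).measurable
    rw [Set.indicator_of_mem (show q ∈ M.pj '' S from ⟨_, h1, M.BoxC_pj h0.1 hq⟩),
      ← subMu_map_add _ ((M.e ⊓ M.u0).neg_mem h0), Measure.map_apply ha hm,
      subMu_map_add _ ((M.e ⊓ M.u0).neg_mem h0), ← lintegral_indicator_const (ha hm)]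
    refine lintegral_mono_ae (hae.mono fun i hi => ?_)
    by_cases h2 : i + q ∈ S
    · have h3 := hS.sub_mem zero_le_one zero_le_one (M.lb_one h2) (M.lb_one h1)
      rw [add_sub_add_right_eq_sub, one_add_one_eq_two, sub_eq_neg_add] at h3
      rw [Set.indicator_of_mem h2, M.BoxC_pj hi.1 hq,
        Set.indicator_of_mem (show i ∈ (fun y => -i₀ + y) ⁻¹' ((2 : ℝ) • S) from h3)]
    · rw [Set.indicator_of_notMem h2]
      exact zero_le
  · rw [lintegral_congr_ae (g := fun _ => 0) (hae.mono fun i hi =>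
      Set.indicator_of_notMem (fun h2 => h ⟨i, hi, h2⟩) _), lintegral_zero]
    exact zero_le

theorem proj_dom : ∃ C : ℝ, 1 ≤ C ∧ ∀ S : Set M.G, SC S → IsCompact S → S ⊆ M.u0 →
    ∀ g : M.G → ENNReal, Measurable g →
      (∫⁻ ζ in S, g (M.pj ζ) ∂M.m0) * subMu M.eᗮ (M.pj '' S) ≤
        ENNReal.ofReal C * M.m0 S * ∫⁻ q in M.pj '' S, g q ∂(subMu M.eᗮ) := by
  obtain ⟨C, hC, h⟩ := sec_proj_le (inf_le_right : M.e ⊓ M.u0 ≤ M.u0)
  have h2 : (1 : ℝ) ≤ |2| ^ Module.finrank ℝ (M.e ⊓ M.u0 : Submodule ℝ M.G) :=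
    one_le_pow₀ (by norm_num)
  refine ⟨_, one_le_mul_of_one_le_of_one_le h2 hC, fun S hS hc hu g hg => ?_⟩
  have hp : IsCompact (M.pj '' S) := hc.image M.pj.continuous
  have h3 := h S hS hc hu
  simp only [M.u0_inf] at h3
  have h4 : subMu (M.e ⊓ M.u0) S * subMu M.eᗮ (M.pj '' S) ≤ ENNReal.ofReal C * M.m0 S := by
    rw [← ofReal_measureReal hc.measure_lt_top.ne, ← ofReal_measureReal hp.measure_lt_top.ne,
      ← ofReal_measureReal (μ := M.m0) hc.measure_lt_top.ne,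
      ← ENNReal.ofReal_mul measureReal_nonneg, ← ENNReal.ofReal_mul (zero_le_one.trans hC)]
    exact ENNReal.ofReal_le_ofReal h3
  have h5 : ∫⁻ ζ in S, g (M.pj ζ) ∂M.m0 ≤
      (∫⁻ q in M.pj '' S, g q ∂(subMu M.eᗮ)) * subMu (M.e ⊓ M.u0) ((2 : ℝ) • S) := by
    have hae : ∀ᵐ q ∂(subMu M.eᗮ), q ∈ M.eᗮ := subMu_compl _
    rw [← lintegral_indicator hc.measurableSet, m0,
      subMu_fubini (inf_le_right : M.e ⊓ M.u0 ≤ M.u0) (f := S.indicator fun ζ => g (M.pj ζ))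
        ((hg.comp M.pj.continuous.measurable).indicator hc.measurableSet), M.u0_inf,
      ← lintegral_indicator hp.measurableSet,
      ← lintegral_mul_const _ (hg.indicator hp.measurableSet)]
    exact lintegral_mono_ae (hae.mono fun q hq => M.BoxC_sec hS hc g hq)
  rw [subMu_smul _ _ two_ne_zero] at h5
  refine (mul_le_mul_left h5 _).trans ?_
  rw [ENNReal.ofReal_mul (zero_le_one.trans h2), mul_assoc, mul_comm, mul_assoc _ _ (subMu _ _),
    mul_assoc _ _ (M.m0 S)]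
  gcongr

theorem box_dom (s a : ℝ) (hs : 1 ≤ s) (ha : 1 ≤ a) : ∃ C : ℝ, 1 ≤ C ∧ ∀ ρ β : ℝ, 1 ≤ ρ →
    0 ≤ β → C * β ≤ 1 → ∀ B, M.IsLB B → B ⊆ M.e → M.Abs B (C * ρ) β →
      ∀ E : Set M.G, MeasurableSet E →
        M.lam (M.mE.restrict (s • B)) (a • M.Z ρ) E * subMu M.eᗮ (a • M.pZ ρ) ≤
          ENNReal.ofReal C * M.m0 (a • M.Z ρ) *
            volume (M.box ((s + 1) • B) (a • M.pZ ρ) ∩ E) := by
  obtain ⟨C₁, h1, hl⟩ := M.ln_pj a ha
  obtain ⟨C₂, h2, hm⟩ := M.mul_sub_mem s (by linarith)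
  obtain ⟨C₃, h3, hp⟩ := M.proj_dom
  refine ⟨2 * C₁ + C₂ + C₃, by linarith, fun ρ β hρ hβ hC B hB hBe hA E hE => ?_⟩
  have hβ2 : C₂ * β ≤ 1 := le_trans (by gcongr; linarith) hC
  have hβ1 : β ≤ 1 := (le_mul_of_one_le_left hβ h2).trans hβ2
  have hE' : ∀ q : M.G, MeasurableSet {y : M.G | y * q ∈ E} := fun q =>
    (continuous_id.mul continuous_const).measurable hE
  have key : ∀ ζ ∈ a • M.Z ρ, M.mE.restrict (s • B) {l | l * ζ ∈ E} ≤
      M.mE.restrict ((s + 1) • B) {y | y * M.pj ζ ∈ E} := fun ζ hζ => by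
    have he : ζ * (M.pj ζ)⁻¹ ∈ M.e := M.mul_proj_inv_mem_e ζ
    have hb : ζ * (M.pj ζ)⁻¹ ∈ β • B := hA _ he <| by
      have h4 := M.ln_mul ζ (M.pj ζ)⁻¹
      obtain ⟨h5, h6⟩ := hl ρ hρ ζ hζ
      rw [M.ln_inv] at h4
      nlinarith
    rw [Measure.restrict_apply (hE' _), Measure.restrict_apply (hE' _),
      ← M.mE_preimage_mul_right he ({y | y * M.pj ζ ∈ E} ∩ _)]
    refine measure_mono fun l hl => ⟨by simpa [mul_assoc] using hl.1, ?_⟩
    have h4 := (hm B (β • B) hB (M.tame_of_e hBe) (hB.sc.smul β)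
      (fun x hx y hy => one_mul β ▸ SC.map_mem₂ M.B hB.lie (M.lb_one hx) hy) l hl.2 _
      (hB.sc.smul_mono (by rw [abs_of_nonneg hβ]; linarith) hb) hb).1
    rw [smul_smul] at h4
    have h5 := hB.sc.add_mem (by linarith) zero_le_one hl.2
      (hB.sc.smul_mono (by rwa [abs_of_nonneg (by positivity)]) h4)
    rwa [add_sub_cancel] at h5
  have hZ := M.isCompact_sZ a ρ
  have h4 := hp _ ((M.Z_isLB ρ).sc.smul a) hZ (M.sZ_sub_u0 a ρ) _
    (M.measurable_fib (M.mE.restrict ((s + 1) • B)) hE)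
  rw [← M.smul_pZ] at h4
  rw [M.lam_apply _ _ hE, M.vol_box_inter (hB.compact.smul _).measurableSet
    (M.isCompact_pZ a ρ).measurableSet hE]
  refine (mul_le_mul_left (setLIntegral_mono' hZ.measurableSet key) _).trans (h4.trans ?_)
  simp only [Measure.restrict_apply (hE' _), Set.inter_comm]
  gcongr
  linarith

end Vale.Agent.P188.Geo
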