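import Vale.Agent.P188.N.BoxB
import Vale.Agent.P188.N.BoxC

/-! The Folner box.
Plan: `S = box ((s + 1) • B) (a • pZ ρ)`, volume `(s+1)^n a^m mE B * μ (pZ ρ)` (`vol_box'`,
`subMu_smul`, `Abs.pos`, `pZ_pos`).  Folner: with `t = C β₀` small, `box_move` (constants `s + 1`,
`a`; `γ = β₀`, `ρ₀` with `C (r + 1) ≤ β₀ ρ₀`, `ln b⁻¹ = ln b`) gives
`bd r S ⊆ box ((s+1+t) • B) ((a+t) • pZ ρ) \ box ((s+1-t) • B) ((a-t) • pZ ρ)`; the volume ratio
`((s+1+t)^n (a+t)^m - (s+1-t)^n (a-t)^m) / ((s+1)^n a^m)` tends to `0` with `t` (continuity).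
`S * K _ ⊆ box ((s + 2) • B) (a • pZ ρ)` by `box_move_e`.  Last part: replace `E` by the measurable
`toMeasurable volume (S ∩ E) ∪ Sᶜ`, use `box_dom`, cancel `μ (a • pZ ρ)`, `m0_smul`,
`mE ((s+1) • B) ≤ 2 ^ n mE (s • B)`.
-/

namespace Vale.Agent.P188.Geo
open scoped InnerProductSpace Pointwise
open MeasureTheory
variable (M : Geo)

theorem boxD_vol {B : Set M.G} (hB : M.IsLB B) (ρ : ℝ) {s a : ℝ} (hs : 0 < s) (ha : 0 < a) :
    volume (M.box (s • B) (a • M.pZ ρ)) =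
      ENNReal.ofReal (s ^ Module.finrank ℝ M.e * a ^ Module.finrank ℝ M.eᗮ) *
        (M.mE B * subMu M.eᗮ (M.pZ ρ)) := by
  rw [M.vol_box' (hB.compact.smul s).measurableSet (M.isCompact_pZ a ρ).measurableSet, mE,
    subMu_smul _ s hs.ne', subMu_smul _ a ha.ne', abs_of_pos hs, abs_of_pos ha,
    ENNReal.ofReal_mul (by positivity)]
  ring

theorem boxD_t (s a θ : ℝ) (n m : ℕ) (hθ : 0 < θ) : ∃ t : ℝ, 0 < t ∧ t ≤ 1 / 2 ∧
    (s + t) ^ n * (a + t) ^ m ≤ (s - t) ^ n * (a - t) ^ m + θ := by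
  have hc : ContinuousAt (fun t : ℝ => (s + t) ^ n * (a + t) ^ m - (s - t) ^ n * (a - t) ^ m) 0 := by
    fun_prop
  have h1 : ∀ᶠ t in nhds (0 : ℝ),
      (s + t) ^ n * (a + t) ^ m - (s - t) ^ n * (a - t) ^ m < θ :=
    hc.eventually_lt continuousAt_const (by simpa using hθ)
  have h2 : ∀ᶠ t in nhds (0 : ℝ), t < 1 / 2 := eventually_lt_nhds (by norm_num)
  obtain ⟨t, ⟨h3, h4⟩, h5⟩ := (((h1.and h2).filter_mono nhdsWithin_le_nhds).and
    (self_mem_nhdsWithin (s := Set.Ioi (0 : ℝ)))).exists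
  exact ⟨t, h5, h4.le, by linarith⟩

theorem boxD_mono {B : Set M.G} (hB : M.IsLB B) (ρ : ℝ) {s s' a a' : ℝ} (hs : 0 ≤ s) (hs' : s ≤ s')
    (ha : 0 ≤ a) (ha' : a ≤ a') :
    M.box (s • B) (a • M.pZ ρ) ⊆ M.box (s' • B) (a' • M.pZ ρ) :=
  M.box_mono (hB.sc.smul_mono (by rwa [abs_of_nonneg hs]))
    ((M.pZ_sc ρ).smul_mono (by rwa [abs_of_nonneg ha]))

theorem boxD_last {s a C δ ρ : ℝ} (hs : 1 ≤ s) (ha : 1 ≤ a) (hC : 1 ≤ C) (hδ : 0 ≤ δ) (hρ : 0 < ρ)
    {B E : Set M.G} (hB : M.IsLB B)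
    (hd : ∀ E : Set M.G, MeasurableSet E →
      M.lam (M.mE.restrict (s • B)) (a • M.Z ρ) E * subMu M.eᗮ (a • M.pZ ρ) ≤
        ENNReal.ofReal C * M.m0 (a • M.Z ρ) * volume (M.box ((s + 1) • B) (a • M.pZ ρ) ∩ E))
    (hE : volume (M.box ((s + 1) • B) (a • M.pZ ρ) ∩ E) ≤
      ENNReal.ofReal δ * volume (M.box ((s + 1) • B) (a • M.pZ ρ))) :
    M.pr (M.mE.restrict (s • B)) ρ a E ≤
      C * a ^ Module.finrank ℝ M.u0 * 2 ^ Module.finrank ℝ M.e * δ *
        M.nr (M.mE.restrict (s • B)) ρ := by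
  have hm := M.measurableSet_box (hB.compact.smul (s + 1)).measurableSet
    (M.isCompact_pZ a ρ).measurableSet
  have hv := M.vol_box' (hB.compact.smul (s + 1)).measurableSet (M.isCompact_pZ a ρ).measurableSet
  generalize M.box ((s + 1) • B) (a • M.pZ ρ) = S at *
  have h1 : E ⊆ toMeasurable volume (S ∩ E) ∪ Sᶜ := fun x hx => by
    by_cases h : x ∈ S
    · exact Or.inl (subset_toMeasurable _ _ ⟨h, hx⟩)
    · exact Or.inr h
  have h2 : volume (S ∩ (toMeasurable volume (S ∩ E) ∪ Sᶜ)) ≤ volume (S ∩ E) := by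
    rw [← measure_toMeasurable (S ∩ E)]
    exact measure_mono fun x hx => hx.2.resolve_right fun h => h hx.1
  have h3 := (hd _ ((measurableSet_toMeasurable volume (S ∩ E)).union hm.compl)).trans
    (mul_le_mul_right (h2.trans hE) _)
  have h4 : subMu M.eᗮ (a • M.pZ ρ) ≠ 0 := by
    rw [subMu_smul _ a (by positivity)]
    refine mul_ne_zero (ENNReal.ofReal_pos.2 (by positivity)).ne' fun h => ?_
    have := M.pZ_pos hρ
    rw [measureReal_def, h] at this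
    exact lt_irrefl _ this
  rw [hv, ← mul_assoc, ← mul_assoc,
    ENNReal.mul_le_mul_iff_left h4 (M.isCompact_pZ a ρ).measure_ne_top] at h3
  have h5 := ENNReal.toReal_mono (ENNReal.mul_ne_top (ENNReal.mul_ne_top (ENNReal.mul_ne_top
    ENNReal.ofReal_ne_top (M.isCompact_sZ a ρ).measure_ne_top) ENNReal.ofReal_ne_top)
    (hB.compact.smul (s + 1)).measure_ne_top) ((measure_mono h1).trans h3)
  rw [ENNReal.toReal_mul, ENNReal.toReal_mul, ENNReal.toReal_mul,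
    ENNReal.toReal_ofReal (by linarith), ENNReal.toReal_ofReal hδ, ← measureReal_def,
    ← measureReal_def, ← measureReal_def, M.m0_smul (by linarith), mE,
    subMu_real_smul _ (s + 1) (by linarith)] at h5
  refine h5.trans ?_
  rw [nr, measureReal_restrict_apply_univ, mE, subMu_real_smul _ s (by linarith)]
  have h6 : (s + 1) ^ Module.finrank ℝ M.e ≤ 2 ^ Module.finrank ℝ M.e * s ^ Module.finrank ℝ M.e := by
    rw [← mul_pow]
    exact pow_le_pow_left₀ (by linarith) (by linarith) _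
  have h7 := mul_le_mul_of_nonneg_left h6 (show 0 ≤ C * a ^ Module.finrank ℝ M.u0 *
    M.m0.real (M.Z ρ) * δ * (subMu M.e).real B by positivity)
  linarith

theorem box_exists (s a L : ℝ) (hs : 1 ≤ s) (ha : 1 ≤ a) (hL : 0 ≤ L) :
    ∃ D C : ℝ, 1 ≤ D ∧ 1 ≤ C ∧ ∀ θ r : ℝ, 0 < θ → ∃ β₀ ρ₀ : ℝ, 0 < β₀ ∧ ∀ ρ : ℝ, ρ₀ ≤ ρ →
      ∀ B, M.IsLB B → B ⊆ M.e → M.Abs B (D * ρ) β₀ → ∃ S : Set M.G, MeasurableSet S ∧
        volume S ≠ ⊤ ∧ volume S ≠ 0 ∧ volume (M.bd r S) ≤ ENNReal.ofReal θ * volume S ∧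
        volume (S * M.K (fun _ => L * ρ)) ≤ ENNReal.ofReal C * volume S ∧
        ∀ (E : Set M.G) (δ : ℝ), 0 ≤ δ → volume (S ∩ E) ≤ ENNReal.ofReal δ * volume S →
          M.pr (M.mE.restrict (s • B)) ρ a E ≤ C * δ * M.nr (M.mE.restrict (s • B)) ρ := by
  obtain ⟨C₁, h₁, mv⟩ := M.box_move (s + 1) a (by linarith) ha
  obtain ⟨C₂, h₂, me⟩ := M.box_move_e (s + 1) a L (by linarith) ha hL
  obtain ⟨C₃, h₃, dm⟩ := M.box_dom s a hs ha
  have k1 : 1 ≤ C₃ * a ^ Module.finrank ℝ M.u0 := one_le_mul_of_one_le_of_one_le h₃ (one_le_pow₀ ha)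
  have k2 : (1 : ℝ) ≤ 2 ^ Module.finrank ℝ M.e := one_le_pow₀ one_le_two
  refine ⟨C₁ + C₂ + C₃, C₃ * a ^ Module.finrank ℝ M.u0 * 2 ^ Module.finrank ℝ M.e, by linarith,
    one_le_mul_of_one_le_of_one_le k1 k2, fun θ r hθ => ?_⟩
  obtain ⟨t, t0, t1, ht⟩ := boxD_t (s + 1) a θ (Module.finrank ℝ M.e) (Module.finrank ℝ M.eᗮ) hθ
  have hD : 0 < C₁ + C₂ + C₃ := by linarith
  obtain ⟨β, hβ, eβ⟩ : ∃ β : ℝ, 0 < β ∧ (C₁ + C₂ + C₃) * β = t :=
    ⟨t / (C₁ + C₂ + C₃), by positivity, by field_simp⟩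
  have b1 : C₁ * β ≤ t := by nlinarith
  have b2 : C₂ * β ≤ t := by nlinarith
  have b3 : C₃ * β ≤ t := by nlinarith
  have b4 : β ≤ 1 := by nlinarith
  refine ⟨β, max 1 (C₁ * (r + 1) / β), hβ, fun ρ hρ B hB hBe hA => ?_⟩
  have r1 : 1 ≤ ρ := (le_max_left _ _).trans hρ
  have r2 : C₁ * (r + 1) ≤ β * ρ := by
    have := (le_max_right _ _).trans hρ
    rwa [div_le_iff₀' hβ] at this
  have hA' : ∀ C : ℝ, C ≤ C₁ + C₂ + C₃ → M.Abs B (C * ρ) β := fun C h =>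
    hA.mono hB (mul_le_mul_of_nonneg_right h (by linarith)) hβ.le le_rfl
  have cZ : IsCompact (M.pZ ρ) := by simpa using M.isCompact_pZ 1 ρ
  have V1 : M.mE B * subMu M.eᗮ (M.pZ ρ) ≠ ⊤ :=
    ENNReal.mul_ne_top hB.compact.measure_ne_top cZ.measure_ne_top
  have V0 : M.mE B * subMu M.eᗮ (M.pZ ρ) ≠ 0 := by
    refine mul_ne_zero (fun h => ?_) fun h => ?_
    · have := (hA' 1 (by linarith)).pos (by linarith) hβ hB
      rw [measureReal_def, h] at this
      exact lt_irrefl _ this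
    · have := M.pZ_pos (ρ := ρ) (by linarith)
      rw [measureReal_def, h] at this
      exact lt_irrefl _ this
  have ms : ∀ s' a' : ℝ, MeasurableSet (M.box (s' • B) (a' • M.pZ ρ)) := fun s' a' =>
    M.measurableSet_box (hB.compact.smul s').measurableSet (M.isCompact_pZ a' ρ).measurableSet
  have k3 : 1 ≤ (s + 1) ^ Module.finrank ℝ M.e * a ^ Module.finrank ℝ M.eᗮ :=
    one_le_mul_of_one_le_of_one_le (one_le_pow₀ (by linarith)) (one_le_pow₀ ha)
  have mv' : ∀ s' a' : ℝ, 0 ≤ s' → s' ≤ s + 1 → 0 ≤ a' → a' ≤ a → ∀ b, M.ln b ≤ r →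
      ∀ x ∈ M.box (s' • B) (a' • M.pZ ρ), x * b ∈ M.box ((s' + t) • B) ((a' + t) • M.pZ ρ) :=
    fun s' a' p1 p2 p3 p4 b hb x hx => M.boxD_mono hB ρ (by positivity) (by linarith)
      (by positivity) (by linarith) (mv ρ β β r1 hβ.le b4 hβ.le b4 B hB hBe (hA' _ (by linarith))
        s' a' p1 p2 p3 p4 b ((mul_le_mul_of_nonneg_left (by linarith) (by linarith)).trans r2) x hx)
  refine ⟨M.box ((s + 1) • B) (a • M.pZ ρ), ms _ _, ?_, ?_, ?_, ?_, fun E δ hδ hE =>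
    M.boxD_last hs ha h₃ hδ (by linarith) hB
      (dm ρ β r1 hβ.le (by linarith) B hB hBe (hA' _ (by linarith))) hE⟩
  · rw [M.boxD_vol hB ρ (by linarith) (by linarith)]
    exact ENNReal.mul_ne_top ENNReal.ofReal_ne_top V1
  · rw [M.boxD_vol hB ρ (by linarith) (by linarith)]
    exact mul_ne_zero (ENNReal.ofReal_pos.2 (by linarith)).ne' V0
  · have hsub : M.bd r (M.box ((s + 1) • B) (a • M.pZ ρ)) ⊆
        M.box ((s + 1 + t) • B) ((a + t) • M.pZ ρ) \ M.box ((s + 1 - t) • B) ((a - t) • M.pZ ρ) := by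
      rintro x ⟨⟨b, hb, hx⟩, b', hb', hx'⟩
      refine ⟨?_, fun h => hx' ?_⟩
      · have := mv' (s + 1) a (by linarith) le_rfl (by linarith) le_rfl b⁻¹
          (by rwa [M.ln_inv]) _ hx
        rwa [mul_inv_cancel_right] at this
      · have := mv' (s + 1 - t) (a - t) (by linarith) (by linarith) (by linarith) (by linarith) b'
          hb' _ h
        rwa [sub_add_cancel, sub_add_cancel] at this
    refine (measure_mono hsub).trans ?_
    have e1 := M.boxD_vol hB ρ (s := s + 1 - t) (a := a - t) (by linarith) (by linarith)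
    have p1 : 0 ≤ (s + 1 - t) ^ Module.finrank ℝ M.e * (a - t) ^ Module.finrank ℝ M.eᗮ :=
      mul_nonneg (pow_nonneg (by linarith) _) (pow_nonneg (by linarith) _)
    rw [measure_sdiff (M.boxD_mono hB ρ (by linarith) (by linarith) (by linarith) (by linarith))
      (ms _ _).nullMeasurableSet (by rw [e1]; exact ENNReal.mul_ne_top ENNReal.ofReal_ne_top V1),
      tsub_le_iff_left, e1, M.boxD_vol hB ρ (by linarith) (by linarith),
      M.boxD_vol hB ρ (by linarith) (by linarith), ← mul_assoc (ENNReal.ofReal θ), ← add_mul,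
      ← ENNReal.ofReal_mul hθ.le, ← ENNReal.ofReal_add p1 (by positivity)]
    refine mul_le_mul_left (ENNReal.ofReal_le_ofReal ?_) _
    nlinarith
  · have hsub : M.box ((s + 1) • B) (a • M.pZ ρ) * M.K (fun _ => L * ρ) ⊆
        M.box ((2 * (s + 1)) • B) (a • M.pZ ρ) := by
      rintro _ ⟨x, hx, b, hb, rfl⟩
      exact M.boxD_mono hB ρ (by positivity) (by linarith) (by linarith) le_rfl
        (me ρ β r1 hβ.le b4 B hB hBe (hA' _ (by linarith)) b hb x hx)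
    refine (measure_mono hsub).trans ?_
    rw [M.boxD_vol hB ρ (by linarith) (by linarith), M.boxD_vol hB ρ (by linarith) (by linarith),
      ← mul_assoc (ENNReal.ofReal (C₃ * _ * _)), ← ENNReal.ofReal_mul (by positivity)]
    refine mul_le_mul_left (ENNReal.ofReal_le_ofReal ?_) _
    rw [mul_pow, mul_assoc]
    exact mul_le_mul_of_nonneg_right (le_mul_of_one_le_left (by linarith) k1) (by linarith)

end Vale.Agent.P188.Geo
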