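import Vale.Agent.P188.N.Loc

/-! Chaining the local theorem across `Ω`.
Plan.  `η` from `loc_at`.  `ζ₀ ∈ Z (Cp C₁ S)` over a point of `Ω` (`exists_pos`, `Adm.bdd`),
`w₀` the colouring at `ζ₀`, `m l = A φ (l ζ₀) - w₀ l (A ζ₀)` (`Col.measurable`).  Given `ζ`, put
`x = ζ₀⁻¹ * ζ ∈ Z (C₆ S)` (`Z_mul`, `Z_inv`, `Z_mono`), `ζ k = ζ₀ * ((k / N) • x) ∈ Z (C₅ S)`,
heights in `Ω` by convexity, `ζ (k+1) = ζ k * u`, `u = (1 / N) • x` (`smul_mul_smul`).  `N` is
fixed (depends on `η`, `C₆`) so that `u ∈ Z (η S / Cz)` (`pow_smul_Z_subset`, `SC.smul_mono`), where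
`Cz` is the constant of `Z_mul`; test points `z i ∈ Z (η S / Cz)` with
`A (z i) = ρ' • single i 1`, `ρ' = η S / (Cz Cp)` (`exists_pos`).  Take colourings `w k` at `ζ k`
(`w 0 = w₀`; choose them with `if k = 0` or by `ζ 0 = ζ₀` and a choice function of the position).
Bad sets (error `κ' S`): `(k, u)`, `(k, u * z i)`, `(k + 1, z i)` for `k < N`, and `(N, z)`.
For `l` outside them `‖(w (k+1) l - w k l) (ρ' • single i 1)‖ ≤ 3 κ' S`, so `w (k+1) l = w k l`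
(`W_eq_of_basis`), and telescoping gives the error `(N + 1) κ' S`.  `measureReal_biUnion_finset_le`.
-/

namespace Vale.Agent.P188.Geo
open scoped InnerProductSpace Pointwise
open MeasureTheory
variable (M : Geo)

theorem chain_det {w : ℕ → (M.V ≃ₗᵢ[ℝ] M.V)} (hw : ∀ k, w k ∈ M.W) {c ρ τ : ℝ} (hρ : 0 < ρ)
    (hc : ∀ w ∈ M.W, ∀ w' ∈ M.W,
      (∀ i, ‖w (EuclideanSpace.single i 1) - w' (EuclideanSpace.single i 1)‖ ≤ c) → w = w')
    (hτ : 3 * τ ≤ c * ρ) (N : ℕ) (F : ℕ → M.V) (G : ℕ → Fin M.k → M.V) (a : M.V)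
    (h1 : ∀ k < N, ‖F (k + 1) - F k - w k a‖ ≤ τ)
    (h2 : ∀ k < N, ∀ i, ‖G k i - F k - w k (a + ρ • EuclideanSpace.single i 1)‖ ≤ τ)
    (h3 : ∀ k < N, ∀ i, ‖G k i - F (k + 1) - w (k + 1) (ρ • EuclideanSpace.single i 1)‖ ≤ τ) :
    ∀ k ≤ N, w k = w 0 ∧ ‖F k - F 0 - w 0 ((k : ℝ) • a)‖ ≤ k * τ := by
  intro k
  induction k with
  | zero => simp
  | succ k ih =>
    intro hk
    obtain ⟨e, hn⟩ := ih (by omega)
    have hk' : k < N := by omega
    constructor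
    · rw [← e]
      refine hc _ (hw _) _ (hw _) fun i => ?_
      have e2 : ρ • (w (k + 1) (EuclideanSpace.single i 1) - w k (EuclideanSpace.single i 1)) =
          (G k i - F k - w k (a + ρ • EuclideanSpace.single i 1)) -
            (G k i - F (k + 1) - w (k + 1) (ρ • EuclideanSpace.single i 1)) -
            (F (k + 1) - F k - w k a) := by
        simp only [map_add, map_smul, smul_sub]
        abel
      have h4 : ‖ρ • (w (k + 1) (EuclideanSpace.single i 1) - w k (EuclideanSpace.single i 1))‖ ≤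
          c * ρ := by
        rw [e2]
        have := (norm_sub_le _ _).trans (add_le_add ((norm_sub_le _ _).trans
          (add_le_add (h2 k hk' i) (h3 k hk' i))) (h1 k hk'))
        linarith
      rw [norm_smul, Real.norm_of_nonneg hρ.le, mul_comm] at h4
      exact le_of_mul_le_mul_right h4 hρ
    · have e2 : F (k + 1) - F 0 - w 0 (((k + 1 : ℕ) : ℝ) • a) =
          (F k - F 0 - w 0 ((k : ℝ) • a)) + (F (k + 1) - F k - w k a) := by
        rw [e]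
        simp only [Nat.cast_add, Nat.cast_one, add_smul, one_smul, map_add]
        abel
      rw [e2]
      have := (norm_add_le _ _).trans (add_le_add hn (h1 k hk'))
      push_cast
      linarith

theorem chain_union {X ι : Type*} [MeasurableSpace X] (μ : Measure X) {D : Set X} (hD : μ D ≠ ⊤)
    (s : Finset ι) (E : ι → Set X) {E' : Set X} (h : ∀ x, (∀ i ∈ s, x ∉ E i) → x ∉ E') {θ : ℝ}
    (hθ : ∀ i ∈ s, μ.real (D ∩ E i) ≤ θ) : μ.real (D ∩ E') ≤ s.card * θ := by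
  have h1 : D ∩ E' ⊆ ⋃ i ∈ s, D ∩ E i := by
    rintro x ⟨hx, hx'⟩
    by_contra hn
    refine h x (fun i hi hxi => hn ?_) hx'
    exact Set.mem_biUnion hi ⟨hx, hxi⟩
  have h2 : (⋃ i ∈ s, D ∩ E i) ⊆ D := Set.iUnion₂_subset fun i _ => Set.inter_subset_left
  calc μ.real (D ∩ E') ≤ μ.real (⋃ i ∈ s, D ∩ E i) :=
        measureReal_mono h1 (ne_top_of_le_ne_top hD (measure_mono h2))
    _ ≤ ∑ i ∈ s, μ.real (D ∩ E i) := measureReal_biUnion_finset_le _ _
    _ ≤ ∑ _i ∈ s, θ := Finset.sum_le_sum hθ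
    _ = s.card * θ := by rw [Finset.sum_const, nsmul_eq_mul]

theorem chain (hO : M.Orth) (K C C₀ C₁ ε : ℝ) (h1 : 1 ≤ C₁) (h0 : C₁ ≤ C₀) (hε : 0 < ε) :
    ∃ η : ℝ, 0 < η ∧ η ≤ 1 ∧ ∀ κ : ℝ, 0 < κ → ∃ S₀ : ℝ, ∀ S : ℝ, S₀ ≤ S →
      ∀ φ, M.MQI K C φ → ∀ Ω B, M.Adm Ω S C₁ ε B → ∃ w m, M.ChP φ Ω S C₀ η κ B w m := by
  classical
  obtain ⟨η, hη, hη1, hloc⟩ := M.loc_at hO K C C₀ C₁ ε h1 h0 hε
  obtain ⟨Cp, hCp, hpos⟩ := M.exists_pos
  obtain ⟨Cz, hCz, hmul⟩ := M.Z_mul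
  obtain ⟨c, hc, hsep⟩ := M.W_eq_of_basis
  have hC₀ : 1 ≤ C₀ := h1.trans h0
  refine ⟨η, hη, hη1, fun κ hκ => ?_⟩
  set C₆ := Cz * (Cp * C₀) with hC₆
  have hpc : 1 ≤ Cp * C₀ := one_le_mul_of_one_le_of_one_le hCp hC₀
  have hC₆1 : 1 ≤ C₆ := one_le_mul_of_one_le_of_one_le hCz hpc
  set t := η / (Cz * C₆) with ht
  have hzz : 1 ≤ Cz * C₆ := one_le_mul_of_one_le_of_one_le hCz hC₆1
  have ht0 : 0 < t := by positivity
  have ht1 : t ≤ 1 := by rw [ht, div_le_one (by linarith)]; linarith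
  obtain ⟨N, hN⟩ := exists_nat_ge ((t ^ M.c)⁻¹)
  have htc : 0 < t ^ M.c := by positivity
  have hN0 : (0 : ℝ) < N := lt_of_lt_of_le (inv_pos.2 htc) hN
  have hN1 : (N : ℝ)⁻¹ ≤ t ^ M.c := by
    rw [inv_le_comm₀ hN0 htc]; exact hN
  let J := Bool ⊕ (Fin M.k × Bool)
  set n : ℝ := ((Finset.range (N + 1) ×ˢ (Finset.univ : Finset J)).card : ℝ) with hn
  have hnN : (N : ℝ) + 1 ≤ n := by
    rw [hn, Finset.card_product, Finset.card_range, Finset.card_univ]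
    have : 1 ≤ Fintype.card J := Fintype.card_pos_iff.2 ⟨Sum.inl true⟩
    have h2 : N + 1 ≤ (N + 1) * Fintype.card J := Nat.le_mul_of_pos_right _ this
    exact_mod_cast h2
  have hn0 : 0 < n := by linarith
  set κ' := min (κ / n) (c * η / (3 * (Cz * Cp))) with hκ'
  have hκ'0 : 0 < κ' := lt_min (by positivity) (by positivity)
  have hκ1 : n * κ' ≤ κ := by
    have := min_le_left (κ / n) (c * η / (3 * (Cz * Cp)))
    rw [← hκ', le_div_iff₀ hn0] at this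
    linarith
  obtain ⟨S₀, hS₀⟩ := hloc (Cz * C₆) κ' (by linarith) hκ'0
  refine ⟨max S₀ 1, fun S hS φ hφ Ω B hA => ?_⟩
  have hS1 : 1 ≤ S := (le_max_right _ _).trans hS
  have hS0 : 0 < S := by linarith
  have hW : ∀ ζ : M.G, ∃ w : M.G → (M.V ≃ₗᵢ[ℝ] M.V), M.Col w ∧
      (ζ ∈ M.Z (Cz * C₆ * S) → M.A ζ ∈ Ω → ∀ z ∈ M.Z (η * S), M.mE.real ((C₀ • B) ∩
        {l | κ' * S < ‖M.A (φ (l * ζ * z)) - M.A (φ (l * ζ)) - w l (M.A z)‖}) ≤
          κ' * M.mE.real B) := by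
    intro ζ
    by_cases h : ζ ∈ M.Z (Cz * C₆ * S) ∧ M.A ζ ∈ Ω
    · obtain ⟨w, hw, h'⟩ := hS₀ S ((le_max_left _ _).trans hS) φ hφ Ω B hA ζ h.1 h.2
      exact ⟨w, hw, fun _ _ => h'⟩
    · refine ⟨fun _ => 1, ⟨fun _ => M.one_mem_W, fun w => MeasurableSet.const _⟩, fun a b => ?_⟩
      exact absurd ⟨a, b⟩ h
  choose W hWc hWm using hW
  obtain ⟨v₀, hv₀⟩ := hA.nonempty
  have hv₀n : ‖v₀‖ ≤ C₀ * S := by
    have := hA.bdd hv₀
    rw [mem_closedBall_zero_iff] at this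
    nlinarith
  obtain ⟨ζ₀, hζ₀, hA₀⟩ := hpos v₀ _ hv₀n
  have hmA : Measurable M.A := M.lie_cA.measurable
  refine ⟨W ζ₀, fun l => M.A (φ (l * ζ₀)) - W ζ₀ l (M.A ζ₀), hWc _, ?_, fun ζ hζ hζΩ z hz => ?_⟩
  · exact (hmA.comp (hφ.1.comp (continuous_id.mul continuous_const).measurable)).sub
      ((hWc ζ₀).measurable measurable_id measurable_const)
  have hρ₁ : 0 ≤ Cp * (C₀ * S) := by positivity
  have hζ' : ζ ∈ M.Z (Cp * (C₀ * S)) :=
    M.Z_mono (by positivity) (le_mul_of_one_le_left (by positivity) hCp) hζ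
  set x := ζ₀⁻¹ * ζ with hx
  have hxZ : x ∈ M.Z (C₆ * S) := by
    have := hmul _ hρ₁ _ (M.Z_inv hζ₀) _ hζ'
    rwa [show Cz * (Cp * (C₀ * S)) = C₆ * S by rw [hC₆]; ring] at this
  have hxu : x ∈ M.u0 := M.Z_sub_u0 _ hxZ
  have hζ₀' : ζ₀ ∈ M.Z (C₆ * S) :=
    M.Z_mono hρ₁ (by rw [hC₆]; nlinarith) hζ₀
  let p : ℕ → M.G := fun k => ζ₀ * (((k : ℝ) / N) • x)
  have hp0 : p 0 = ζ₀ := by
    show ζ₀ * ((((0 : ℕ) : ℝ) / N) • x) = ζ₀
    rw [Nat.cast_zero, zero_div, zero_smul, ← M.one_def, mul_one]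
  have hpN : p N = ζ := by
    show ζ₀ * (((N : ℝ) / N) • x) = ζ
    rw [div_self hN0.ne', one_smul, hx, mul_inv_cancel_left]
  set u : M.G := (N : ℝ)⁻¹ • x with hu
  have hpu : ∀ k, p k * u = p (k + 1) := by
    intro k
    show ζ₀ * (((k : ℝ) / N) • x) * u = ζ₀ * ((((k + 1 : ℕ) : ℝ) / N) • x)
    rw [mul_assoc, hu, M.smul_mul_smul (Or.inr hxu)]
    congr 2
    push_cast
    ring
  have hAx : M.A x = M.A ζ - v₀ := by rw [hx, M.A_mul, M.A_inv, hA₀]; abel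
  have hpZ : ∀ k ≤ N, p k ∈ M.Z (Cz * C₆ * S) ∧ M.A (p k) ∈ Ω := by
    intro k hk
    have hk1 : (k : ℝ) / N ≤ 1 := by rw [div_le_one hN0]; exact_mod_cast hk
    have hk0 : (0 : ℝ) ≤ (k : ℝ) / N := by positivity
    constructor
    · rw [mul_assoc]
      exact hmul _ (by positivity) _ hζ₀' _
        ((M.Z_isLB _).sc.smul_mem hxZ (by rw [abs_of_nonneg hk0]; exact hk1))
    · have := hA.convex.add_smul_sub_mem hv₀ hζΩ ⟨hk0, hk1⟩
      show M.A (ζ₀ * _) ∈ Ω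
      rwa [M.A_mul, map_smul, hAx, hA₀]
  have hηz : η * S / Cz ≤ η * S := div_le_self (by positivity) hCz
  have huZ : u ∈ M.Z (η * S / Cz) := by
    have h2 : u ∈ (t ^ M.c) • M.Z (C₆ * S) :=
      (M.Z_isLB _).sc.smul_mono (by rw [abs_of_nonneg (by positivity)]; exact hN1)
        (Set.smul_mem_smul_set hxZ)
    have h3 := M.pow_smul_Z_subset ht0.le ht1 h2
    rwa [show t * (C₆ * S) = η * S / Cz by rw [ht]; field_simp] at h3
  set ρ' := η * S / (Cz * Cp) with hρ'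
  have hρ'0 : 0 < ρ' := by positivity
  have hzi : ∀ i : Fin M.k, ∃ y ∈ M.Z (η * S / Cz), M.A y = ρ' • EuclideanSpace.single i 1 := by
    intro i
    obtain ⟨y, hy, e⟩ := hpos (ρ' • EuclideanSpace.single i 1) ρ' (by
      rw [norm_smul, Real.norm_of_nonneg hρ'0.le]; simp)
    exact ⟨y, by rwa [show Cp * ρ' = η * S / Cz by rw [hρ']; field_simp] at hy, e⟩
  choose y hyZ hyA using hzi
  let tst : J → M.G := fun j => match j with
    | Sum.inl true => u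
    | Sum.inl false => z
    | Sum.inr (i, true) => u * y i
    | Sum.inr (i, false) => y i
  have htst : ∀ j, tst j ∈ M.Z (η * S) := by
    rintro ((_ | _) | ⟨i, _ | _⟩)
    · exact hz
    · exact M.Z_mono (by positivity) hηz huZ
    · exact M.Z_mono (by positivity) hηz (hyZ i)
    · have := hmul _ (by positivity) _ huZ _ (hyZ i)
      rwa [show Cz * (η * S / Cz) = η * S by field_simp] at this
  have hfin : M.mE (C₀ • B) ≠ ⊤ := (hA.lb.compact.smul C₀).measure_lt_top.ne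
  have key := chain_union M.mE hfin (Finset.range (N + 1) ×ˢ (Finset.univ : Finset J))
    (fun q => {l | κ' * S <
      ‖M.A (φ (l * p q.1 * tst q.2)) - M.A (φ (l * p q.1)) - W (p q.1) l (M.A (tst q.2))‖})
    (E' := {l | κ * S < ‖M.A (φ (l * ζ * z)) - W ζ₀ l (M.A ζ + M.A z) -
      (M.A (φ (l * ζ₀)) - W ζ₀ l (M.A ζ₀))‖}) (θ := κ' * M.mE.real B) ?_ ?_
  · refine key.trans ?_
    rw [← hn, ← mul_assoc]
    exact mul_le_mul_of_nonneg_right hκ1 measureReal_nonneg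
  · intro l hl
    have hl' : ∀ k ≤ N, ∀ j, ‖M.A (φ (l * p k * tst j)) - M.A (φ (l * p k)) -
        W (p k) l (M.A (tst j))‖ ≤ κ' * S := fun k hk j =>
      not_lt.1 (hl (k, j) (Finset.mem_product.2 ⟨Finset.mem_range.2 (by omega), Finset.mem_univ _⟩))
    have h3τ : 3 * (κ' * S) ≤ c * ρ' := by
      have := min_le_right (κ / n) (c * η / (3 * (Cz * Cp)))
      rw [← hκ'] at this
      calc 3 * (κ' * S) ≤ 3 * (c * η / (3 * (Cz * Cp)) * S) := by gcongr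
        _ = c * ρ' := by rw [hρ']; field_simp
    obtain ⟨e1, e2⟩ := M.chain_det (w := fun k => W (p k) l) (fun k => (hWc _).1 l) hρ'0 hsep h3τ N
      (fun k => M.A (φ (l * p k))) (fun k i => M.A (φ (l * p (k + 1) * y i))) (M.A u)
      (fun k hk => by
        have := hl' k hk.le (Sum.inl true)
        rwa [show l * p k * tst (Sum.inl true) = l * p (k + 1) by rw [mul_assoc, ← hpu]] at this)
      (fun k hk i => by
        have := hl' k hk.le (Sum.inr (i, true))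
        rwa [show l * p k * tst (Sum.inr (i, true)) = l * p (k + 1) * y i by
          rw [← hpu]; simp only [tst, mul_assoc],
          show M.A (tst (Sum.inr (i, true))) = M.A u + ρ' • EuclideanSpace.single i 1 by
            rw [← hyA, ← M.A_mul]] at this)
      (fun k hk i => by
        have := hl' (k + 1) hk (Sum.inr (i, false))
        rwa [show M.A (tst (Sum.inr (i, false))) = ρ' • EuclideanSpace.single i 1 from hyA i]
          at this) N le_rfl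
    have e3 := hl' N le_rfl (Sum.inl false)
    simp only [hp0, hpN] at e1 e2 e3
    rw [e1] at e3
    have e4 : (N : ℝ) • M.A u = M.A ζ - M.A ζ₀ := by
      rw [hu, map_smul, smul_smul, mul_inv_cancel₀ hN0.ne', one_smul, hAx, hA₀]
    rw [e4] at e2
    have e5 : M.A (φ (l * ζ * z)) - W ζ₀ l (M.A ζ + M.A z) -
        (M.A (φ (l * ζ₀)) - W ζ₀ l (M.A ζ₀)) =
        (M.A (φ (l * ζ)) - M.A (φ (l * ζ₀)) - W ζ₀ l (M.A ζ - M.A ζ₀)) +
          (M.A (φ (l * ζ * z)) - M.A (φ (l * ζ)) - W ζ₀ l (M.A z)) := by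
      simp only [map_add, map_sub]
      abel
    show ¬ κ * S < _
    rw [not_lt, e5]
    have e6 := (norm_add_le _ _).trans (add_le_add e2 e3)
    have e7 : ((N : ℝ) + 1) * κ' ≤ κ := (mul_le_mul_of_nonneg_right hnN hκ'0.le).trans hκ1
    nlinarith
  · intro q hq
    have hq' : q.1 ≤ N := by
      have := Finset.mem_range.1 (Finset.mem_product.1 hq).1
      omega
    exact hWm _ (hpZ _ hq').1 (hpZ _ hq').2 _ (htst _)

end Vale.Agent.P188.Geo
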