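import Vale.Agent.P188.AffDefs

/-! Definitions for part N (no folds).  Overview: notes/P188_N2.md.
-/

namespace Vale.Agent.P188.Geo
open scoped InnerProductSpace Pointwise
open MeasureTheory
variable (M : Geo)

/-- Haar measure of `u0`. -/
noncomputable def m0 : Measure M.G := subMu M.u0

/-- Law of `l * ζ`, `l` of law `ν`, `ζ` of law `m0` on `Y`. -/
noncomputable def lam (ν : Measure M.G) (Y : Set M.G) : Measure M.G :=
  (ν.prod (M.m0.restrict Y)).map (fun p => p.1 * p.2)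

/-- Mass of `E` for `l * ζ`, `ζ ∈ a • Z ρ`. -/
noncomputable def pr (ν : Measure M.G) (ρ a : ℝ) (E : Set M.G) : ℝ :=
  (M.lam ν (a • M.Z ρ)).real E

/-- Normalisation of `pr`. -/
noncomputable def nr (ν : Measure M.G) (ρ : ℝ) : ℝ := ν.real Set.univ * M.m0.real (M.Z ρ)

/-- All elements of `e` of length at most `ℓ` lie in `β • B`. -/
def Abs (B : Set M.G) (ℓ β : ℝ) : Prop := ∀ g ∈ M.e, M.ln g ≤ ℓ → g ∈ β • B

/-- Projection onto the transversal of `e`. -/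
noncomputable def pj : M.G →L[ℝ] M.G := M.eᗮ.starProjection

/-- The products `y * q`, `y ∈ B`, `q ∈ P` (for `B ⊆ e`, `P` in the transversal). -/
def box (B P : Set M.G) : Set M.G := {x | x * (M.pj x)⁻¹ ∈ B ∧ M.pj x ∈ P}

/-- Projection of the graded ball. -/
def pZ (ρ : ℝ) : Set M.G := M.pj '' M.Z ρ

/-- Measurable colourings by elements of `W`. -/
def Col (col : M.G → (M.V ≃ₗᵢ[ℝ] M.V)) : Prop :=
  (∀ x, col x ∈ M.W) ∧ ∀ w, MeasurableSet {x | col x = w}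

/-- Error of the linear prediction for the move `g` from `x`. -/
noncomputable def er (φ : M.G → M.G) (col : M.G → (M.V ≃ₗᵢ[ℝ] M.V)) (x g : M.G) : ℝ :=
  ‖M.A (φ (x * g)) - M.A (φ x) - col x (M.A g)‖

/-- The sign of the colour at `x` in the direction `c` for the weight `μ`. -/
def sg (col : M.G → (M.V ≃ₗᵢ[ℝ] M.V)) (μ : M.V) (c x : M.G) : Prop := 0 < ⟪μ, col x (M.A c)⟫_ℝ

/-- Output of parts H and S on one box of scale `ρ`. -/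
structure Stage (K C : ℝ) (φ : M.G → M.G) (col : M.G → (M.V ≃ₗᵢ[ℝ] M.V)) (ν : Measure M.G)
    (ρ a R η : ℝ) : Prop where
  qi : M.MQI K C φ
  hcol : M.Col col
  fin : IsFiniteMeasure ν
  pos : 0 < η
  le_one : η ≤ 1
  two_le : 2 ≤ R
  le_rho : R ≤ η * ρ
  loc : ∀ g, M.ln g ≤ R → M.pr ν ρ a {x | η * R < M.er φ col x g} ≤ η * M.nr ν ρ
  tz : ∀ c ∈ M.u0, ‖c‖ ≤ 1 → ∀ T : ℝ, η * ρ ≤ T → T ≤ ρ → ∀ J : ℕ, η * ρ ≤ J * R →
    M.pr ν ρ a {x | M.Phi (M.hr φ c T J x) < T * M.Psi (M.A c) - η * T} ≤ η * M.nr ν ρ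

/-- A balanced separating family of directions. -/
structure Dirs {ι : Type} [Fintype ι] (μ : ι → M.V) (c : ι → M.G) (g₀ : ℝ) : Prop where
  pos : 0 < g₀
  gen : ∀ j, ∃ p, M.GenF (μ j) p
  mem : ∀ j, c j ∈ M.u0
  norm_le : ∀ j, ‖c j‖ ≤ 1
  far : ∀ j, ∀ w ∈ M.W, g₀ ≤ |⟪μ j, w (M.A (c j))⟫_ℝ|
  bal : ∀ w ∈ M.W, ∑ j, (if 0 < ⟪μ j, w (M.A (c j))⟫_ℝ then c j else 0) = 0
  sep : ∀ w ∈ M.W, ∀ w' ∈ M.W, w ≠ w' → ∃ (J : Finset ι) (σ : (M.V ≃ₗᵢ[ℝ] M.V) → Prop),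
    σ w ∧ ¬ σ w' ∧ Submodule.span ℝ (c '' J) = M.u0 ∧
      ∀ j ∈ J, ∀ w'' ∈ M.W, (0 < ⟪μ j, w'' (M.A (c j))⟫_ℝ ↔ σ w'')

/-- Affinity of the heights on a neighbourhood of `Ω`. -/
structure ChP (φ : M.G → M.G) (Ω : Set M.V) (S C₀ η κ : ℝ) (B : Set M.G)
    (w : M.G → (M.V ≃ₗᵢ[ℝ] M.V)) (m : M.G → M.V) : Prop where
  hw : M.Col w
  meas_m : Measurable m
  aff : ∀ ζ ∈ M.Z (C₀ * S), M.A ζ ∈ Ω → ∀ z ∈ M.Z (η * S),
    M.mE.real ((C₀ • B) ∩ {l | κ * S < ‖M.A (φ (l * ζ * z)) - w l (M.A ζ + M.A z) - m l‖}) ≤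
      κ * M.mE.real B

end Vale.Agent.P188.Geo
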