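import Vale.Agent.P188.N.Defs

/-! For every `ξ ≠ 0` some orbit sum pairs negatively with `ξ`.
Plan: `gen_span` (with `v = -ξ`, `t = 0`) gives a generator weight `μ` with `⟪μ, ξ⟫ < 0`.  Suppose
the sum is `≥ 0` for all generic `s`.  Non-generic `s` form a finite union of hyperplanes, null for
`volume` (`Measure.addHaar_submodule`).  Integrate over the unit ball: each `w` preserves `volume`
and the ball (`LinearIsometryEquiv.measurePreserving`), so the integral is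
`card * ∫ 1[0 < ⟪μ, s⟫] ⟪ξ, s⟫`.  The reflection `R = (ℝ ∙ μ).reflection` fixes `⟪μ, s⟫` and
`s + R s = 2 (⟪μ, s⟫ / ‖μ‖ ^ 2) • μ`, so this integral is
`⟪ξ, μ⟫ / ‖μ‖ ^ 2 * ∫ max 0 ⟪μ, s⟫ < 0` (continuous nonnegative integrand, positive somewhere).
-/

namespace Vale.Agent.P188.Geo
open scoped InnerProductSpace Pointwise
open MeasureTheory
variable (M : Geo)

/-- The half-space integrand. -/
noncomputable def diraF {k : ℕ} (μ ξ s : Eu k) : ℝ := if 0 < ⟪μ, s⟫_ℝ then ⟪ξ, s⟫_ℝ else 0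

theorem dira_mp {k : ℕ} (w : Eu k ≃ₗᵢ[ℝ] Eu k) :
    MeasurePreserving w (volume.restrict (Metric.ball (0 : Eu k) 1))
      (volume.restrict (Metric.ball (0 : Eu k) 1)) := by
  have h := w.measurePreserving.restrict_preimage (s := Metric.ball (0 : Eu k) 1)
    measurableSet_ball
  rwa [w.preimage_ball, map_zero] at h

theorem dira_meas {k : ℕ} (μ ξ : Eu k) : Measurable (diraF μ ξ) := by
  refine Measurable.ite ?_ (by fun_prop) measurable_const
  exact measurableSet_lt measurable_const (by fun_prop)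

theorem dira_int {k : ℕ} (μ ξ : Eu k) :
    Integrable (diraF μ ξ) (volume.restrict (Metric.ball (0 : Eu k) 1)) := by
  refine Measure.integrableOn_of_bounded (M := ‖ξ‖) measure_ball_lt_top.ne
    (dira_meas μ ξ).aestronglyMeasurable ?_
  filter_upwards [ae_restrict_mem measurableSet_ball] with s hs
  have hs' : ‖s‖ ≤ 1 := (mem_ball_zero_iff.1 hs).le
  unfold diraF
  split_ifs
  · refine (norm_inner_le_norm _ _).trans ?_
    exact mul_le_of_le_one_right (norm_nonneg _) hs'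
  · simp

theorem dira_comp {k : ℕ} (μ ξ : Eu k) (w : Eu k ≃ₗᵢ[ℝ] Eu k) :
    ∫ s in Metric.ball (0 : Eu k) 1, diraF μ ξ (w s) =
      ∫ s in Metric.ball (0 : Eu k) 1, diraF μ ξ s :=
  (dira_mp w).integral_comp w.toHomeomorph.measurableEmbedding _

theorem dira_int' {k : ℕ} (μ ξ : Eu k) (w : Eu k ≃ₗᵢ[ℝ] Eu k) :
    Integrable (fun s => diraF μ ξ (w s)) (volume.restrict (Metric.ball (0 : Eu k) 1)) :=
  (dira_mp w).integrable_comp_of_integrable (dira_int μ ξ)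

theorem dira_pos {k : ℕ} {μ : Eu k} (hμ : μ ≠ 0) :
    0 < ∫ s in Metric.ball (0 : Eu k) 1, diraF μ μ s := by
  have e : diraF μ μ = fun s => max 0 ⟪μ, s⟫_ℝ := by
    funext s
    unfold diraF
    split_ifs with h
    · exact (max_eq_right h.le).symm
    · exact (max_eq_left (not_lt.1 h)).symm
  have hi := dira_int μ μ
  rw [e] at hi ⊢
  refine (setIntegral_pos_iff_support_of_nonneg_ae (f := fun s : Eu k => max 0 ⟪μ, s⟫_ℝ)
    (Filter.Eventually.of_forall fun s => le_max_left 0 ⟪μ, s⟫_ℝ) hi).2 ?_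
  have hc : Continuous fun s : Eu k => max 0 ⟪μ, s⟫_ℝ := by fun_prop
  refine IsOpen.measure_pos _ (hc.isOpen_support.inter Metric.isOpen_ball)
    ⟨(1 / (2 * ‖μ‖)) • μ, ?_, ?_⟩
  · have hn : 0 < ‖μ‖ := norm_pos_iff.2 hμ
    have : 0 < ⟪μ, (1 / (2 * ‖μ‖)) • μ⟫_ℝ := by
      rw [real_inner_smul_right, real_inner_self_eq_norm_sq]
      positivity
    exact (lt_max_of_lt_right this).ne'
  · have hn : 0 < ‖μ‖ := norm_pos_iff.2 hμ
    rw [mem_ball_zero_iff, norm_smul, Real.norm_of_nonneg (by positivity)]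
    field_simp
    norm_num

theorem dira_neg {k : ℕ} {μ ξ : Eu k} (h : ⟪μ, ξ⟫_ℝ < 0) :
    ∫ s in Metric.ball (0 : Eu k) 1, diraF μ ξ s < 0 := by
  have hμ : μ ≠ 0 := by rintro rfl; simp at h
  have hn : 0 < ‖μ‖ := norm_pos_iff.2 hμ
  set R : Eu k ≃ₗᵢ[ℝ] Eu k := (ℝ ∙ μ).reflection with hR
  have hRs : ∀ s, R s = (2 * (⟪μ, s⟫_ℝ / ‖μ‖ ^ 2)) • μ - s := fun s => by
    rw [hR, Submodule.reflection_singleton_apply, two_nsmul, two_mul, add_smul]
    rfl
  have e : ∀ s, diraF μ ξ s + diraF μ ξ (R s) = (2 * ⟪μ, ξ⟫_ℝ / ‖μ‖ ^ 2) * diraF μ μ s := by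
    intro s
    have h1 : ⟪μ, R s⟫_ℝ = ⟪μ, s⟫_ℝ := by
      rw [hRs, inner_sub_right, real_inner_smul_right, real_inner_self_eq_norm_sq]
      field_simp
      ring
    unfold diraF
    rw [h1]
    split_ifs
    · rw [hRs, inner_sub_right, real_inner_smul_right, real_inner_comm μ ξ]
      ring
    · simp
  have h2 := integral_add (dira_int μ ξ) (dira_int' μ ξ R)
  simp only [e] at h2
  rw [integral_const_mul, dira_comp] at h2
  have h3 : (2 * ⟪μ, ξ⟫_ℝ / ‖μ‖ ^ 2) < 0 := div_neg_of_neg_of_pos (by linarith) (by positivity)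
  have h4 := mul_neg_of_neg_of_pos h3 (dira_pos hμ)
  linarith

theorem dira_gen {k : ℕ} {μ : Eu k} (hμ : μ ≠ 0) (w : Eu k ≃ₗᵢ[ℝ] Eu k) :
    ∀ᵐ s : Eu k, ⟪μ, w s⟫_ℝ ≠ 0 := by
  have h := Measure.addHaar_submodule (volume : Measure (Eu k))
    (LinearMap.ker ((innerSL ℝ μ).toLinearMap ∘ₗ w.toLinearEquiv.toLinearMap)) (by
      intro ht
      have hm : w.symm μ ∈ LinearMap.ker
          ((innerSL ℝ μ).toLinearMap ∘ₗ w.toLinearEquiv.toLinearMap) := by
        rw [ht]; trivial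
      simp at hm
      exact hμ hm)
  rw [ae_iff]
  refine measure_mono_null (fun s hs => ?_) h
  simpa using hs

theorem orbit_neg {k : ℕ} (Wf : Finset (Eu k ≃ₗᵢ[ℝ] Eu k)) (hW : Wf.Nonempty) {μ ξ : Eu k}
    (h : ⟪μ, ξ⟫_ℝ < 0) : ∃ s : Eu k, (∀ w ∈ Wf, ⟪μ, w s⟫_ℝ ≠ 0) ∧
      ⟪ξ, ∑ w ∈ Wf, (if 0 < ⟪μ, w s⟫_ℝ then w s else 0)⟫_ℝ < 0 := by
  by_contra hc
  push Not at hc
  have hμ : μ ≠ 0 := by rintro rfl; simp at h
  have e : ∀ s : Eu k, ⟪ξ, ∑ w ∈ Wf, (if 0 < ⟪μ, w s⟫_ℝ then w s else 0)⟫_ℝ =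
      ∑ w ∈ Wf, diraF μ ξ (w s) := by
    intro s
    rw [inner_sum]
    refine Finset.sum_congr rfl fun w _ => ?_
    unfold diraF
    split_ifs <;> simp
  have hae : ∀ᵐ s : Eu k, ∀ w ∈ Wf, ⟪μ, w s⟫_ℝ ≠ 0 :=
    (Filter.eventually_all_finset Wf).2 fun w _ => dira_gen hμ w
  have h0 : 0 ≤ ∫ s in Metric.ball (0 : Eu k) 1, ∑ w ∈ Wf, diraF μ ξ (w s) := by
    refine integral_nonneg_of_ae (ae_restrict_of_ae ?_)
    filter_upwards [hae] with s hs
    have := hc s hs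
    rwa [e] at this
  rw [integral_finsetSum _ fun w _ => dira_int' μ ξ w] at h0
  simp only [dira_comp, Finset.sum_const, nsmul_eq_mul] at h0
  have h1 : (0 : ℝ) < Wf.card := by exact_mod_cast hW.card_pos
  have := mul_neg_of_pos_of_neg h1 (dira_neg h)
  linarith

theorem exists_gen_neg {ξ : M.V} (hξ : ξ ≠ 0) : ∃ μ p, M.GenF μ p ∧ ⟪μ, ξ⟫_ℝ < 0 := by
  by_contra hc
  push Not at hc
  have := M.wg_cone (v := -ξ) fun μ p hp => by
    rw [inner_neg_right]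
    linarith [hc μ p hp]
  exact hξ (neg_eq_zero.1 this)

end Vale.Agent.P188.Geo
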