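import Vale.Agent.P188.N.Defs

/-! Linear algebra for the directions.
Plan for `pos_span`: the cone `𝒞` of nonnegative finite combinations is convex and spans `V`
(else some `ξ ≠ 0` is orthogonal to all `f i`), so it has nonempty interior
(`Convex.interior_nonempty_iff_affineSpan_eq_top`); if `v ∉ 𝒞` separate `v` from the interior
(`geometric_hahn_banach_open_point`), pass to the closure
(`Convex.closure_interior_eq_closure_of_nonempty_interior`), scale: the functional is `≤ 0` on all
`f i` and nonzero.  Alternative: compactness of the sphere and a compact convex hull.  Drop the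
zero coefficients at the end.  `open_span`: the span of a nonempty relatively open subset of `U` is
`U`; extract a finite spanning subset.  `generic_near`: a finite union of hyperplanes has empty
interior (`wg_dense`, `dense_biInter_of_isOpen` or induction).
-/

namespace Vale.Agent.P188.Geo
open scoped InnerProductSpace Pointwise
open MeasureTheory
variable (M : Geo)

theorem pos_span {V : Type} [NormedAddCommGroup V] [InnerProductSpace ℝ V] [FiniteDimensional ℝ V]
    {I : Type*} (f : I → V) (h : ∀ ξ : V, ξ ≠ 0 → ∃ i, ⟪ξ, f i⟫_ℝ < 0) (v : V) :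
    ∃ (t : Finset I) (a : I → ℝ), (∀ i ∈ t, 0 < a i) ∧ v = ∑ i ∈ t, a i • f i := by
  set C : Set V := ↑(Submodule.span NNReal (Set.range f)) with hC
  have hconv : Convex ℝ C := fun x hx y hy a b ha hb _ =>
    Submodule.add_mem _ (Submodule.smul_mem _ (⟨a, ha⟩ : NNReal) hx)
      (Submodule.smul_mem _ (⟨b, hb⟩ : NNReal) hy)
  have hcl : closure C = Set.univ := by
    refine Set.eq_univ_of_forall fun x => by_contra fun hx => ?_
    obtain ⟨φ, u, h1, h2⟩ := geometric_hahn_banach_point_closed hconv.closure isClosed_closure hx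
    have h0 : u < 0 := by simpa using h2 0 (subset_closure (Submodule.zero_mem _))
    obtain ⟨i, hi⟩ := h ((InnerProductSpace.toDual ℝ V).symm φ) fun h3 => by
      rw [map_eq_zero_iff _ (LinearIsometryEquiv.injective _)] at h3
      rw [h3] at h1
      exact absurd (h1.trans h0) (by simp)
    rw [InnerProductSpace.toDual_symm_apply] at hi
    have h4 : u < φ ((u / φ (f i)) • f i) := h2 _ (subset_closure
      (Submodule.smul_mem _ (⟨u / φ (f i), div_nonneg_of_nonpos h0.le hi.le⟩ : NNReal)
        (Submodule.subset_span ⟨i, rfl⟩)))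
    rw [map_smul, smul_eq_mul, div_mul_cancel₀ _ hi.ne] at h4
    exact h4.false
  have hne : (interior C).Nonempty := by
    rw [hconv.interior_nonempty_iff_affineSpan_eq_top, eq_top_iff]
    intro x _
    exact closure_minimal (subset_affineSpan ℝ C) (AffineSubspace.closed_of_finiteDimensional _)
      (hcl ▸ Set.mem_univ x)
  have hv : v ∈ C := by
    refine interior_subset ?_
    rw [← hconv.interior_closure_eq_interior_of_nonempty_interior hne, hcl, interior_univ]
    trivial
  obtain ⟨c, hc⟩ := Finsupp.mem_span_range_iff_exists_finsupp.1 hv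
  exact ⟨c.support, fun i => c i, fun i hi =>
    NNReal.coe_pos.2 (pos_iff_ne_zero.2 (Finsupp.mem_support_iff.1 hi)), hc.symm⟩

theorem open_span {V : Type} [NormedAddCommGroup V] [NormedSpace ℝ V] [FiniteDimensional ℝ V]
    (U : Submodule ℝ V) {O : Set V} (hO : IsOpen O) {x : V} (hx : x ∈ O) (hU : x ∈ U) :
    ∃ t : Finset V, (∀ y ∈ t, y ∈ O) ∧ Submodule.span ℝ (t : Set V) = U := by
  have h1 : Submodule.span ℝ (O ∩ U) = U := by
    refine le_antisymm (Submodule.span_le.2 Set.inter_subset_right) fun u hu => ?_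
    have h2 : ∀ᶠ ε : ℝ in nhds 0, x + ε • u ∈ O :=
      (by fun_prop : Continuous fun ε : ℝ => x + ε • u).continuousAt.eventually
        (hO.mem_nhds (by simpa using hx))
    obtain ⟨ε, h3, h4⟩ := ((h2.filter_mono (nhdsWithin_le_nhds (s := {0}ᶜ))).and
      self_mem_nhdsWithin).exists
    have h5 := Submodule.sub_mem _
      (Submodule.subset_span (R := ℝ) (s := O ∩ U) ⟨h3, U.add_mem hU (U.smul_mem ε hu)⟩)
      (Submodule.subset_span ⟨hx, hU⟩)
    rw [add_sub_cancel_left] at h5
    exact (Submodule.smul_mem_iff _ h4).1 h5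
  obtain ⟨t, ht, h6⟩ := (Submodule.fg_span_iff_fg_span_finset_subset (R := ℝ) (O ∩ U)).1
    (IsNoetherian.noetherian _)
  exact ⟨t, fun y hy => (ht hy).1, h6.symm.trans h1⟩

theorem generic_near {k : ℕ} (Wf : Finset (Eu k ≃ₗᵢ[ℝ] Eu k)) {μ : Eu k} (hμ : μ ≠ 0)
    {O : Set (Eu k)} (hO : IsOpen O) (hne : O.Nonempty) :
    ∃ s ∈ O, ∀ w ∈ Wf, ⟪μ, w s⟫_ℝ ≠ 0 := by
  have hd : Dense (⋂ w ∈ (Wf : Set (Eu k ≃ₗᵢ[ℝ] Eu k)), {s | ⟪μ, w s⟫_ℝ ≠ 0}) := by
    refine dense_biInter_of_isOpen (fun w _ => isOpen_ne_fun (by fun_prop) continuous_const)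
      Wf.countable_toSet fun w _ => ?_
    have h1 : (interior (((ℝ ∙ w.symm μ)ᗮ : Submodule ℝ (Eu k)) : Set (Eu k))) = ∅ := by
      by_contra h
      have h2 := Submodule.eq_top_of_nonempty_interior' _ (Set.nonempty_iff_ne_empty.2 h)
      rw [Submodule.orthogonal_eq_top_iff, Submodule.span_singleton_eq_bot] at h2
      exact hμ (by simpa using h2)
    refine (interior_eq_empty_iff_dense_compl.1 h1).mono fun s hs h3 =>
      (Set.mem_compl_iff _ _).1 hs ?_
    rw [SetLike.mem_coe, Submodule.mem_orthogonal_singleton_iff_inner_right, ← w.inner_map_map,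
      w.apply_symm_apply, h3]
  obtain ⟨s, h1, h2⟩ := hd.exists_mem_open hO hne
  exact ⟨s, h2, fun w hw => Set.mem_iInter₂.1 h1 w hw⟩

end Vale.Agent.P188.Geo
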