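import Vale.Agent.P188.N.DirA
import Vale.Agent.P188.N.DirB

/-! Existence of a balanced separating family.
Plan.  `Wf = W_finite.toFinset`, `ι₀` from `exists_sec`.  Call `(μ, c)` admissible if `μ` is a
generator weight, `c ∈ u0` and `⟪μ, w (A c)⟫ ≠ 0` for all `w ∈ W`; put
`y (μ, c) = ∑ w ∈ Wf, if 0 < ⟪μ, w (A c)⟫ then w (A c) else 0`.
(1) For `w ≠ w'` in `W`: `W_test`, `generic_near` give a generic `s₀` with the two signs; the set
`O` of `x` with `0 < ⟪μ, u s₀⟫ * ⟪μ, u (A x)⟫` for all `u ∈ Wf` is open and contains `ι₀ s₀`;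
`open_span` gives a finite spanning set of `u0` in `O`.  Let `𝒮₀` be the finite set of all these
admissible pairs.  (2) `pos_span` for `y` on the admissible pairs (`exists_gen_neg`, `orbit_neg`,
`c = ι₀ s`) writes `-∑ 𝒮₀ y` as a positive combination; `y (μ, a • c) = a • y (μ, c)` for `a > 0`.
So there is a finite family `(μ j, c j)` of admissible pairs (index a sum type or a Finset
subtype), containing `𝒮₀`, with `∑ y = 0`.  (3) Symmetrise: index `j × W × Bool`,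
`c (j, u, ±) = ι₀ (u (A (c j))) ± (c j - ι₀ (A (c j)))`; `c (j, 1, +) = c j`; for fixed `w` the
balance sum is `2 ι₀ (w⁻¹ ∑ y) = 0` (reindex `u ↦ w * u`, `mul_mem_W`, `inv_mem_W`).
(4) Multiply all `c` by one small positive number; `g₀` is a minimum over a finite set.
-/

namespace Vale.Agent.P188.Geo
open scoped InnerProductSpace Pointwise
open MeasureTheory
variable (M : Geo)

/-- admissible pairs -/
def DircAdm (μ : M.V) (c : M.G) : Prop :=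
  (∃ p, M.GenF μ p) ∧ c ∈ M.u0 ∧ ∀ w ∈ M.W, ⟪μ, w (M.A c)⟫_ℝ ≠ 0

/-- orbit sums -/
noncomputable def dircY (μ s : M.V) : M.V :=
  ∑ w ∈ M.W_finite.toFinset, if 0 < ⟪μ, w s⟫_ℝ then w s else 0

theorem dirc_sign (μ : M.V) (w : M.V ≃ₗᵢ[ℝ] M.V) (s : M.V) {a : ℝ} (ha : 0 < a) :
    0 < ⟪μ, w (a • s)⟫_ℝ ↔ 0 < ⟪μ, w s⟫_ℝ := by
  rw [map_smul, inner_smul_right]
  exact mul_pos_iff_of_pos_left ha

theorem dirc_adm_smul {μ c} (h : M.DircAdm μ c) {a : ℝ} (ha : 0 < a) : M.DircAdm μ (a • c) := by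
  refine ⟨h.1, M.u0.smul_mem a h.2.1, fun w hw => ?_⟩
  rw [map_smul, map_smul, inner_smul_right]
  exact mul_ne_zero ha.ne' (h.2.2 w hw)

theorem dirc_y_smul (μ s : M.V) {a : ℝ} (ha : 0 < a) : M.dircY μ (a • s) = a • M.dircY μ s := by
  unfold dircY
  rw [Finset.smul_sum]
  refine Finset.sum_congr rfl fun w _ => ?_
  simp only [M.dirc_sign μ w s ha]
  split_ifs
  · rw [map_smul]
  · rw [smul_zero]

theorem dirc_y_shift (μ s : M.V) {w : M.V ≃ₗᵢ[ℝ] M.V} (hw : w ∈ M.W) :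
    ∑ u ∈ M.W_finite.toFinset, (if 0 < ⟪μ, w (u s)⟫_ℝ then u s else 0) =
      w.symm (M.dircY μ s) := by
  unfold dircY
  rw [map_sum]
  refine Finset.sum_nbij' (fun u => w * u) (fun u => w⁻¹ * u) (fun u hu => ?_) (fun u hu => ?_)
    (fun u _ => by simp) (fun u _ => by simp) (fun u _ => ?_)
  · simp only [Set.Finite.mem_toFinset] at hu ⊢
    exact M.mul_mem_W hw hu
  · simp only [Set.Finite.mem_toFinset] at hu ⊢
    exact M.mul_mem_W (M.inv_mem_W hw) hu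
  · change _ = w.symm (if 0 < ⟪μ, w (u s)⟫_ℝ then w (u s) else 0)
    split_ifs
    · rw [LinearIsometryEquiv.symm_apply_apply]
    · rw [map_zero]

/-- separation data for the pair `w`, `w'`, with all pairs in `P` -/
def DircSep (P : M.V → M.G → Prop) (w w' : M.V ≃ₗᵢ[ℝ] M.V) : Prop :=
  ∃ (μ : M.V) (t : Finset M.G) (σ : (M.V ≃ₗᵢ[ℝ] M.V) → Prop), σ w ∧ ¬ σ w' ∧
    Submodule.span ℝ (t : Set M.G) = M.u0 ∧
    ∀ c ∈ t, P μ c ∧ ∀ w'' ∈ M.W, (0 < ⟪μ, w'' (M.A c)⟫_ℝ ↔ σ w'')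

theorem DircSep.mono {P Q : M.V → M.G → Prop} (h : ∀ μ c, P μ c → Q μ c) {w w'}
    (hs : M.DircSep P w w') : M.DircSep Q w w' := by
  obtain ⟨μ, t, σ, h1, h2, h3, h4⟩ := hs
  exact ⟨μ, t, σ, h1, h2, h3, fun c hc => ⟨h _ _ (h4 c hc).1, (h4 c hc).2⟩⟩

theorem dirc_sep {w w'} (hw : w ∈ M.W) (hw' : w' ∈ M.W) (hne : w ≠ w') :
    M.DircSep M.DircAdm w w' := by
  obtain ⟨ι₀, hι, hA⟩ := M.exists_sec
  obtain ⟨μ, p, s, hp, h1, h2⟩ := M.W_test hw hw' hne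
  have hO : IsOpen {s : M.V | 0 < ⟪μ, w s⟫_ℝ ∧ ⟪μ, w' s⟫_ℝ < 0} :=
    IsOpen.inter (s := {s : M.V | 0 < ⟪μ, w s⟫_ℝ}) (t := {s : M.V | ⟪μ, w' s⟫_ℝ < 0})
      (isOpen_lt continuous_const (by fun_prop)) (isOpen_lt (by fun_prop) continuous_const)
  obtain ⟨s₀, ⟨h3, h4⟩, h5⟩ := generic_near M.W_finite.toFinset hp.1 hO ⟨s, h1, h2⟩
  have hAc : Continuous M.A := M.A.continuous_of_finiteDimensional
  have hO' : IsOpen (⋂ u ∈ M.W, {x : M.G | 0 < ⟪μ, u s₀⟫_ℝ * ⟪μ, u (M.A x)⟫_ℝ}) :=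
    M.W_finite.isOpen_biInter fun u _ => isOpen_lt continuous_const (by fun_prop)
  obtain ⟨t, ht, hspan⟩ := open_span M.u0 hO' (x := ι₀ s₀) (by
    refine Set.mem_iInter₂.2 fun u hu => ?_
    simp only [Set.mem_ofPred_eq, hA]
    exact mul_self_pos.2 (h5 u (M.W_finite.mem_toFinset.2 hu))) (hι s₀)
  refine ⟨μ, t, fun u => 0 < ⟪μ, u s₀⟫_ℝ, h3, not_lt.2 h4.le, hspan, fun c hc => ?_⟩
  have h6 : ∀ u ∈ M.W, 0 < ⟪μ, u s₀⟫_ℝ * ⟪μ, u (M.A c)⟫_ℝ := fun u hu =>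
    Set.mem_iInter₂.1 (ht c hc) u hu
  refine ⟨⟨⟨p, hp⟩, hspan ▸ Submodule.subset_span hc, fun u hu h0 => ?_⟩, fun u hu => ?_⟩
  · have := h6 u hu
    rw [h0, mul_zero] at this
    exact lt_irrefl _ this
  · exact (pos_iff_pos_of_mul_pos (h6 u hu)).symm

theorem dirc_fin : ∃ S : Finset (M.V × M.G), (∀ q ∈ S, M.DircAdm q.1 q.2) ∧
    ∀ w ∈ M.W, ∀ w' ∈ M.W, w ≠ w' → M.DircSep (fun μ c => (μ, c) ∈ S) w w' := by
  classical
  have h := fun w w' (h : w ∈ M.W ∧ w' ∈ M.W ∧ w ≠ w') => M.dirc_sep h.1 h.2.1 h.2.2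
  choose! μ t σ h1 h2 h3 h4 using h
  refine ⟨((M.W_finite.toFinset ×ˢ M.W_finite.toFinset).filter fun z => z.1 ≠ z.2).biUnion
    fun z => (t z.1 z.2).image fun c => (μ z.1 z.2, c), fun q hq => ?_, fun w hw w' hw' hne => ?_⟩
  · simp only [Finset.mem_biUnion, Finset.mem_filter, Finset.mem_product,
      Set.Finite.mem_toFinset, Finset.mem_image] at hq
    obtain ⟨z, ⟨⟨a1, a2⟩, a3⟩, c, hc, rfl⟩ := hq
    exact (h4 _ _ ⟨a1, a2, a3⟩ c hc).1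
  · refine ⟨μ w w', t w w', σ w w', h1 _ _ ⟨hw, hw', hne⟩, h2 _ _ ⟨hw, hw', hne⟩,
      h3 _ _ ⟨hw, hw', hne⟩, fun c hc => ⟨?_, (h4 _ _ ⟨hw, hw', hne⟩ c hc).2⟩⟩
    simp only [Finset.mem_biUnion, Finset.mem_filter, Finset.mem_product,
      Set.Finite.mem_toFinset, Finset.mem_image]
    exact ⟨(w, w'), ⟨⟨hw, hw'⟩, hne⟩, c, hc, rfl⟩

theorem dirc_zero (S : Finset (M.V × M.G)) (hS : ∀ q ∈ S, M.DircAdm q.1 q.2) :
    ∃ (ι : Type) (_ : Fintype ι) (μ : ι → M.V) (c : ι → M.G), (∀ j, M.DircAdm (μ j) (c j)) ∧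
      (∀ q ∈ S, ∃ j, μ j = q.1 ∧ c j = q.2) ∧ ∑ j, M.dircY (μ j) (M.A (c j)) = 0 := by
  obtain ⟨ι₀, hι, hA⟩ := M.exists_sec
  obtain ⟨t, a, ha, hsum⟩ := pos_span
    (fun q : {q : M.V × M.G // M.DircAdm q.1 q.2} => M.dircY q.1.1 (M.A q.1.2)) (by
      intro ξ hξ
      obtain ⟨μ, p, hp, h1⟩ := M.exists_gen_neg hξ
      obtain ⟨s, h2, h3⟩ := orbit_neg M.W_finite.toFinset
        ⟨1, M.W_finite.mem_toFinset.2 M.one_mem_W⟩ h1
      refine ⟨⟨(μ, ι₀ s), ⟨p, hp⟩, hι s, fun w hw => ?_⟩, ?_⟩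
      · simp only [hA]
        exact h2 w (M.W_finite.mem_toFinset.2 hw)
      · simp only [hA]
        exact h3) (-∑ q ∈ S, M.dircY q.1 (M.A q.2))
  refine ⟨S ⊕ t, inferInstance, Sum.elim (fun q => q.1.1) (fun q => q.1.1.1),
    Sum.elim (fun q => q.1.2) (fun q => a q.1 • q.1.1.2), ?_, fun q hq => ⟨.inl ⟨q, hq⟩, rfl, rfl⟩,
    ?_⟩
  · rintro (q | q)
    · exact hS _ q.2
    · exact M.dirc_adm_smul q.1.2 (ha _ q.2)
  · rw [Fintype.sum_sum_type]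
    simp only [Sum.elim_inl, Sum.elim_inr]
    rw [Finset.sum_coe_sort S fun q => M.dircY q.1 (M.A q.2),
      Finset.sum_coe_sort t fun q => M.dircY q.1.1 (M.A (a q • q.1.2)),
      add_comm, add_eq_zero_iff_eq_neg, hsum]
    exact Finset.sum_congr rfl fun q hq => by rw [map_smul, M.dirc_y_smul _ _ (ha q hq)]

theorem dirc_sym {ι : Type} [Fintype ι] {μ : ι → M.V} {c : ι → M.G}
    (h : ∀ j, M.DircAdm (μ j) (c j)) (h0 : ∑ j, M.dircY (μ j) (M.A (c j)) = 0) :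
    ∃ (ι' : Type) (_ : Fintype ι') (μ' : ι' → M.V) (c' : ι' → M.G),
      (∀ j, M.DircAdm (μ' j) (c' j)) ∧ (∀ j, ∃ j', μ' j' = μ j ∧ c' j' = c j) ∧
      ∀ w ∈ M.W, ∑ j, (if 0 < ⟪μ' j, w (M.A (c' j))⟫_ℝ then c' j else 0) = 0 := by
  obtain ⟨ι₀, hι, hA⟩ := M.exists_sec
  let c' : ι × M.W_finite.toFinset × Bool → M.G := fun z =>
    ι₀ (z.2.1.1 (M.A (c z.1))) + (if z.2.2 then (1 : ℝ) else -1) • (c z.1 - ι₀ (M.A (c z.1)))
  have hc' : ∀ z, M.A (c' z) = z.2.1.1 (M.A (c z.1)) := fun z => by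
    simp only [c', map_add, map_smul, map_sub, hA, sub_self, smul_zero, add_zero]
  refine ⟨ι × M.W_finite.toFinset × Bool, inferInstance, fun z => μ z.1, c', fun z => ?_,
    fun j => ⟨(j, ⟨1, M.W_finite.mem_toFinset.2 M.one_mem_W⟩, true), rfl, by simp [c']⟩,
    fun w hw => ?_⟩
  · refine ⟨(h z.1).1, M.u0.add_mem (hι _) (M.u0.smul_mem _ (M.u0.sub_mem (h z.1).2.1 (hι _))),
      fun w hw => ?_⟩
    rw [hc']
    exact (h z.1).2.2 _ (M.mul_mem_W hw (M.W_finite.mem_toFinset.1 z.2.1.2))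
  · have h1 : ∀ j, ∑ z : M.W_finite.toFinset × Bool,
        (if 0 < ⟪μ j, w (M.A (c' (j, z)))⟫_ℝ then c' (j, z) else 0) =
        (2 : ℝ) • ι₀ (w.symm (M.dircY (μ j) (M.A (c j)))) := by
      intro j
      rw [← M.dirc_y_shift _ _ hw, Fintype.sum_prod_type, map_sum, Finset.smul_sum,
        ← Finset.sum_coe_sort M.W_finite.toFinset]
      refine Finset.sum_congr rfl fun u _ => ?_
      simp only [hc', Fintype.sum_bool]
      split_ifs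
      · simp only [c', if_true, Bool.false_eq_true, if_false, one_smul, neg_smul, two_smul]
        abel
      · simp
    rw [Fintype.sum_prod_type, Finset.sum_congr rfl fun j _ => h1 j, ← Finset.smul_sum, ← map_sum,
      ← map_sum, h0, map_zero, map_zero, smul_zero]

theorem exists_dirs : ∃ (ι : Type) (_ : Fintype ι) (μ : ι → M.V) (c : ι → M.G) (g₀ : ℝ),
    M.Dirs μ c g₀ := by
  classical
  obtain ⟨S, hS, hsep⟩ := M.dirc_fin
  obtain ⟨ι₁, _, μ₁, c₁, a1, a2, a3⟩ := M.dirc_zero S hS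
  obtain ⟨ι, _, μ, c, b1, b2, b3⟩ := M.dirc_sym a1 a3
  have hs : 0 ≤ ∑ j, ‖c j‖ := Finset.sum_nonneg fun j _ => norm_nonneg _
  obtain ⟨ε, hε⟩ : ∃ ε : ℝ, ε = (1 + ∑ j, ‖c j‖)⁻¹ := ⟨_, rfl⟩
  have hε0 : 0 < ε := by rw [hε]; positivity
  have hadm : ∀ j, M.DircAdm (μ j) (ε • c j) := fun j => M.dirc_adm_smul (b1 j) hε0
  obtain ⟨g₀, hg0, hg⟩ : ∃ g₀ : ℝ, 0 < g₀ ∧ ∀ z : ι × M.W_finite.toFinset,
      g₀ ≤ |⟪μ z.1, z.2.1 (M.A (ε • c z.1))⟫_ℝ| := by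
    rcases isEmpty_or_nonempty (ι × M.W_finite.toFinset) with he | he
    · exact ⟨1, one_pos, fun z => he.elim z⟩
    · obtain ⟨z, hz⟩ := Finite.exists_min fun z : ι × M.W_finite.toFinset =>
        |⟪μ z.1, z.2.1 (M.A (ε • c z.1))⟫_ℝ|
      exact ⟨_, abs_pos.2 ((hadm z.1).2.2 _ (M.W_finite.mem_toFinset.1 z.2.2)), hz⟩
  refine ⟨ι, inferInstance, μ, fun j => ε • c j, g₀, hg0, fun j => (hadm j).1,
    fun j => (hadm j).2.1, fun j => ?_, fun j w hw => hg (j, ⟨w, M.W_finite.mem_toFinset.2 hw⟩),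
    fun w hw => ?_, fun w hw w' hw' hne => ?_⟩
  · have h1 : ‖c j‖ ≤ ∑ j, ‖c j‖ :=
      Finset.single_le_sum (f := fun j => ‖c j‖) (fun j _ => norm_nonneg _) (Finset.mem_univ j)
    rw [norm_smul, Real.norm_eq_abs, abs_of_pos hε0, hε, inv_mul_le_iff₀ (by positivity)]
    linarith
  · have h1 := congrArg (fun x => ε • x) (b3 w hw)
    simp only [Finset.smul_sum, smul_zero] at h1
    refine Eq.trans (Finset.sum_congr rfl fun j _ => ?_) h1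
    simp only [map_smul M.A, M.dirc_sign _ _ _ hε0]
    split_ifs
    · rfl
    · rw [smul_zero]
  · obtain ⟨μ₀, t, σ, h1, h2, h3, h4⟩ := hsep w hw w' hw' hne
    refine ⟨Finset.univ.filter fun j => μ j = μ₀ ∧ c j ∈ t, σ, h1, h2, ?_, fun j hj w'' hw'' => ?_⟩
    · refine le_antisymm (Submodule.span_le.2 ?_) ?_
      · rintro _ ⟨j, -, rfl⟩
        exact (hadm j).2.1
      · rw [← h3, Submodule.span_le]
        intro x hx
        obtain ⟨j₁, e1, e2⟩ := a2 _ (h4 x hx).1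
        obtain ⟨j, e3, e4⟩ := b2 j₁
        have e5 : c j = x := e4.trans e2
        have h5 : ε • c j ∈ Submodule.span ℝ ((fun j => ε • c j) ''
            (Finset.univ.filter fun j => μ j = μ₀ ∧ c j ∈ t : Finset ι)) :=
          Submodule.subset_span ⟨j, by simpa [e5, e3.trans e1] using hx, rfl⟩
        have h6 := Submodule.smul_mem _ ε⁻¹ h5
        rwa [smul_smul, inv_mul_cancel₀ hε0.ne', one_smul, e5] at h6
    · obtain ⟨e1, e2⟩ := (Finset.mem_filter.1 hj).2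
      rw [map_smul M.A, M.dirc_sign _ _ _ hε0, e1]
      exact (h4 _ e2).2 w'' hw''

end Vale.Agent.P188.Geo
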