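import Vale.Agent.P188.N.Lam

/-! Second-order cancellation on `u0`.
Plan: `shift_int`: `∫_{Y} h (y z) = ∫_{Y z} h` (`map_mul_right M.sub_u0`), and the symmetric
difference of `Y z` and `Y = a • Z ρ` is bounded by parts 1 and 3 of `folner_LB M.sub_u0`
(`z⁻¹ ∈ γ • Z ρ`); both sets lie in `C • Z ρ` (`mul_mem`).  `prod_sub_sum`: induction on `n`;
`mul_sub_sub_mem 1` with `S = L = (C β) • Z ρ` (`IsLB.smul`), `L' = (C β) ^ 2 • Z ρ`
(`SC.map_mem₂`).  `div_abs`: `I z = ∫ (g (y z) - g y)`;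
`I (z z') - I z - I z' = ∫ (h (y z) - h y)` with `h y = g (y z') - g y`, which is bounded by `β Λ`
on `C • Z ρ` (cut `h` off or note that `shift_int` only needs the bound there); so it is
`O (β ^ 2 Λ)`.  Induct on the list (append on the right, or `I (z * p)` with the roles swapped:
then `|h| ≤ C β Λ`, shift by `z`), and `|I l.prod| ≤ C β ^ 2 Λ` by `prod_sub_sum`.
-/

namespace Vale.Agent.P188.Geo
open scoped InnerProductSpace Pointwise
open MeasureTheory
variable (M : Geo)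

theorem diva_int {Y : Set M.G} (hY : IsCompact Y) {h : M.G → ℝ} (hm : Measurable h) {b : ℝ}
    (hb : ∀ y ∈ Y, |h y| ≤ b) : IntegrableOn h Y M.m0 :=
  Measure.integrableOn_of_bounded hY.measure_lt_top.ne hm.aestronglyMeasurable
    (ae_restrict_of_forall_mem hY.measurableSet hb)

theorem shift_int (a : ℝ) (ha : 1 ≤ a) : ∃ C : ℝ, 1 ≤ C ∧ a ≤ C ∧ ∀ ρ γ Λ : ℝ, 0 ≤ γ → γ ≤ 1 →
    0 ≤ Λ → ∀ z ∈ γ • M.Z ρ, ∀ h : M.G → ℝ, Measurable h → (∀ y ∈ C • M.Z ρ, |h y| ≤ Λ) →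
      |∫ y in a • M.Z ρ, h (y * z) ∂M.m0 - ∫ y in a • M.Z ρ, h y ∂M.m0| ≤
        C * γ * Λ * M.m0.real (M.Z ρ) := by
  obtain ⟨F, hF1, hF⟩ := M.folner_LB M.sub_u0 a ha
  obtain ⟨D, hD1, hD⟩ := M.mul_mem a (zero_le_one.trans ha)
  refine ⟨2 * F + D + a, by linarith, by linarith, fun ρ γ Λ h0 h1 hΛ z hz h hm hb => ?_⟩
  have hS := M.Z_isLB ρ
  obtain ⟨f1, -, f3⟩ := hF _ hS (M.Z_sub_u0 ρ) γ h0 h1
  have hY := M.isCompact_sZ a ρ
  have hmp : MeasurePreserving (fun y => y * z) M.m0 M.m0 :=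
    ⟨measurable_mul_const z, M.map_mul_right M.sub_u0 (M.sZ_sub_u0 γ ρ hz)⟩
  set Y' : Set M.G := (fun y => y * z) '' (a • M.Z ρ) with hY'
  have hc : IsCompact Y' := hY.image (continuous_mul_const z)
  have e1 : ∫ y in a • M.Z ρ, h (y * z) ∂M.m0 = ∫ y in Y', h y ∂M.m0 := by
    rw [← hmp.setIntegral_preimage_emb (measurableEmbedding_mulRight z) h Y',
      Set.preimage_image_eq _ (mul_left_injective z)]
  have b1 : ∀ y ∈ Y', |h y| ≤ Λ := by
    rintro _ ⟨y, hy, rfl⟩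
    refine hb _ (hS.sc.smul_mono ?_ (hD _ hS (M.Z_tame ρ) y hy z (hS.sc.smul_mono ?_ hz)))
    · rw [abs_of_nonneg (by linarith)]
      linarith
    · rw [abs_of_nonneg h0]
      linarith
  have b2 : ∀ y ∈ a • M.Z ρ, |h y| ≤ Λ := fun y hy =>
    hb _ (hS.sc.smul_mono (by rw [abs_of_nonneg (by linarith)]; linarith) hy)
  have m1 : M.m0.real (Y' \ a • M.Z ρ) ≤ F * γ * M.m0.real (M.Z ρ) := by
    refine le_trans (measureReal_mono (Set.sdiff_subset_sdiff_left ?_) ?_) f1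
    · rintro _ ⟨y, hy, rfl⟩
      exact Set.mul_mem_mul hy hz
    · exact ((measure_mono Set.sdiff_subset).trans_lt
        (hY.mul (M.isCompact_sZ γ ρ)).measure_lt_top).ne
  have m2 : M.m0.real (a • M.Z ρ \ Y') ≤ F * γ * M.m0.real (M.Z ρ) := by
    refine le_trans (measureReal_mono ?_ ?_) f3
    · exact fun x hx => ⟨hx.1, z⁻¹, M.inv_mem hS.sc (M.Z_tame ρ) hz,
        Or.inl fun h' => hx.2 ⟨_, h', inv_mul_cancel_right x z⟩⟩
    · exact ((measure_mono (Set.sep_subset _ _)).trans_lt hY.measure_lt_top).ne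
  have n1 := norm_setIntegral_le_of_norm_le_const (μ := M.m0) (s := Y' \ a • M.Z ρ) (f := h)
    ((measure_mono Set.sdiff_subset).trans_lt hc.measure_lt_top) fun y hy => b1 y hy.1
  have n2 := norm_setIntegral_le_of_norm_le_const (μ := M.m0) (s := a • M.Z ρ \ Y') (f := h)
    ((measure_mono Set.sdiff_subset).trans_lt hY.measure_lt_top) fun y hy => b2 y hy.1
  rw [e1, ← integral_inter_add_sdiff hY.measurableSet (M.diva_int hc hm b1),
    ← integral_inter_add_sdiff hc.measurableSet (M.diva_int hY hm b2), Set.inter_comm,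
    add_sub_add_left_eq_sub]
  refine (abs_sub _ _).trans ?_
  rw [Real.norm_eq_abs] at n1 n2
  have k1 := mul_le_mul_of_nonneg_left m1 hΛ
  have k2 := mul_le_mul_of_nonneg_left m2 hΛ
  have k3 : 0 ≤ (D + a) * (γ * Λ * M.m0.real (M.Z ρ)) := by positivity
  nlinarith

theorem prod_sub_sum (n : ℕ) : ∃ C : ℝ, 1 ≤ C ∧ ∀ ρ β : ℝ, 0 ≤ β → C * β ≤ 1 →
    ∀ l : List M.G, l.length ≤ n → (∀ z ∈ l, z ∈ β • M.Z ρ) →
      l.prod ∈ (C * β) • M.Z ρ ∧ l.prod - l.sum ∈ (C * β ^ 2) • M.Z ρ := by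
  induction n with
  | zero =>
    refine ⟨1, le_rfl, fun ρ β _ _ l hl _ => ?_⟩
    rw [List.eq_nil_of_length_eq_zero (Nat.le_zero.1 hl), List.prod_nil, List.sum_nil, sub_zero]
    exact ⟨((M.Z_isLB ρ).sc.smul _).zero_mem, ((M.Z_isLB ρ).sc.smul _).zero_mem⟩
  | succ n ih =>
    obtain ⟨C, hC1, hC⟩ := ih
    obtain ⟨D, hD1, hD⟩ := M.mul_sub_sub_mem 1 zero_le_one
    have hDC : 0 ≤ D * C ^ 2 := by positivity
    refine ⟨D * C ^ 2 + C + 1, by linarith, fun ρ β hβ hCβ l hl hz => ?_⟩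
    have hS := M.Z_isLB ρ
    rcases l with _ | ⟨z, l⟩
    · rw [List.prod_nil, List.sum_nil, sub_zero]
      exact ⟨(hS.sc.smul _).zero_mem, (hS.sc.smul _).zero_mem⟩
    have h0 : 0 ≤ C * β := by positivity
    have h1 : C * β ≤ 1 := by nlinarith
    obtain ⟨p1, p2⟩ := hC ρ β hβ h1 l (by simpa using hl) fun y hy => hz y (List.mem_cons_of_mem _ hy)
    have hz1 := hz z List.mem_cons_self
    have hL := IsLB.smul M hS h0 h1
    have h2 := (hD _ _ _ hL ((M.Z_tame ρ).smul M _) hL.sc (hS.sc.smul (C * β * (C * β))) hL.lie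
      (fun x hx y hy => SC.map_mem₂ M.B hS.lie hx hy) z
      (M.lb_one (hS.sc.smul_mono (by rw [abs_of_nonneg hβ]; nlinarith) hz1)) _ (M.lb_one p1) p1).1
    rw [smul_smul] at h2
    have h3 : 0 ≤ D * (C * β * (C * β)) := by positivity
    rw [List.prod_cons, List.sum_cons]
    constructor
    · have h4 := hS.sc.add_mem (by positivity) h0 (hS.sc.add_mem h3 hβ h2 hz1) p1
      rw [show z * l.prod - z - l.prod + z + l.prod = z * l.prod by abel] at h4
      refine hS.sc.smul_mono ?_ h4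
      rw [abs_of_nonneg (by positivity)]
      have h5 : β ≤ 1 := by nlinarith
      nlinarith [mul_le_mul_of_nonneg_left h5 (mul_nonneg hDC hβ)]
    · have h4 := hS.sc.add_mem h3 (by positivity) h2 p2
      rw [show z * l.prod - z - l.prod + (l.prod - l.sum) = z * l.prod - (z + l.sum) by abel] at h4
      refine hS.sc.smul_mono ?_ h4
      rw [abs_of_nonneg (by positivity)]
      nlinarith [sq_nonneg β]

theorem div_abs (a : ℝ) (ha : 1 ≤ a) (n : ℕ) : ∃ C : ℝ, 1 ≤ C ∧ ∀ ρ β Λ : ℝ, 0 ≤ β → C * β ≤ 1 →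
    0 ≤ Λ → ∀ g : M.G → ℝ, Measurable g → (∃ b, ∀ y, |g y| ≤ b) →
    (∀ γ : ℝ, 0 ≤ γ → γ ≤ 1 → ∀ y ∈ C • M.Z ρ, ∀ u ∈ γ • M.Z ρ, |g (y * u) - g y| ≤ γ * Λ) →
    ∀ l : List M.G, l.length ≤ n → (∀ z ∈ l, z ∈ β • M.Z ρ) → l.sum = 0 →
      |(l.map fun z => ∫ y in a • M.Z ρ, (g (y * z) - g y) ∂M.m0).sum| ≤
        C * β ^ 2 * Λ * M.m0.real (M.Z ρ) := by
  obtain ⟨S, hS1, hSa, hS⟩ := M.shift_int a ha
  obtain ⟨P, hP1, hP⟩ := M.prod_sub_sum n
  set k : ℝ := a ^ Module.finrank ℝ M.u0 with hk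
  have hk0 : 0 ≤ k := by positivity
  have hq : 0 ≤ n * (S * P) + P * k := by positivity
  refine ⟨n * (S * P) + P * k + S + P, by linarith,
    fun ρ β Λ hβ hCβ hΛ g hg ⟨b, hb⟩ hγ l hl hz h0 => ?_⟩
  have hZ := (M.Z_isLB ρ).sc
  have hPβ : P * β ≤ 1 := by nlinarith
  have hβ1 : β ≤ 1 := by nlinarith
  have hm : 0 ≤ M.m0.real (M.Z ρ) := measureReal_nonneg
  have hi : ∀ z : M.G, IntegrableOn (fun y => g (y * z)) (a • M.Z ρ) M.m0 := fun z =>
    M.diva_int (M.isCompact_sZ a ρ) (hg.comp (measurable_mul_const z)) fun y _ => hb _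
  have hi1 : IntegrableOn g (a • M.Z ρ) M.m0 := M.diva_int (M.isCompact_sZ a ρ) hg fun y _ => hb _
  have key : ∀ l : List M.G, l.length ≤ n → (∀ z ∈ l, z ∈ β • M.Z ρ) →
      |(∫ y in a • M.Z ρ, (g (y * l.prod) - g y) ∂M.m0) -
        (l.map fun z => ∫ y in a • M.Z ρ, (g (y * z) - g y) ∂M.m0).sum| ≤
        l.length * (S * β * (P * β * Λ) * M.m0.real (M.Z ρ)) := by
    intro l
    induction l with
    | nil => simp
    | cons z l ih =>
      intro h1 h2
      have h3 : l.length ≤ n := by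
        rw [List.length_cons] at h1
        omega
      have h4 : ∀ y ∈ l, y ∈ β • M.Z ρ := fun y hy => h2 y (List.mem_cons_of_mem _ hy)
      have h5 := ih h3 h4
      have h6 := hS ρ β (P * β * Λ) hβ hβ1 (by positivity) z (h2 z List.mem_cons_self)
        (fun y => g (y * l.prod) - g y) ((hg.comp (measurable_mul_const _)).sub hg) fun y hy =>
          hγ _ (by positivity) hPβ y (hZ.smul_mono (by rw [abs_of_nonneg (by linarith)]; linarith)
            hy) _ (hP ρ β hβ hPβ l h3 h4).1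
      simp only [mul_assoc _ z] at h6
      rw [integral_sub (hi _) (hi _)] at h6
      rw [List.prod_cons, List.map_cons, List.sum_cons, List.length_cons, integral_sub (hi _) hi1,
        integral_sub (hi z) hi1]
      push_cast
      rw [abs_le] at h5 h6 ⊢
      constructor <;> linarith [h5.1, h5.2, h6.1, h6.2]
  have h1 := key l hl hz
  have h2 := (hP ρ β hβ hPβ l hl hz).2
  rw [h0, sub_zero] at h2
  have h3 := norm_setIntegral_le_of_norm_le_const (μ := M.m0) (s := a • M.Z ρ)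
    (f := fun y => g (y * l.prod) - g y) (M.isCompact_sZ a ρ).measure_lt_top fun y hy =>
      hγ _ (by positivity) (by nlinarith) y
        (hZ.smul_mono (by rw [abs_of_nonneg (by linarith)]; linarith) hy) _ h2
  rw [M.m0_smul (by linarith), ← hk, Real.norm_eq_abs] at h3
  have h4 : (l.length : ℝ) ≤ n := Nat.cast_le.2 hl
  have h5 : 0 ≤ β ^ 2 * Λ * M.m0.real (M.Z ρ) := by positivity
  have h6 := mul_le_mul_of_nonneg_right h4 (mul_nonneg (show 0 ≤ S * P by positivity) h5)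
  have h7 := mul_nonneg (show 0 ≤ S + P by positivity) h5
  rw [abs_le] at h1 h3 ⊢
  constructor <;> nlinarith [h1.1, h1.2, h3.1, h3.2]

end Vale.Agent.P188.Geo
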