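import Vale.Agent.P188.N.DivA

/-! The doubly averaged law `lam (lam ν Y) Y`.
Plan: `lam_lip`: `y * u = b * y`, `b = y * u * y⁻¹ = Ad y u ∈ C₁ • γ • Z ρ` (`conj_eq`, `Ad_mem`
with `S = Z ρ`, `L = γ • Z ρ`).  With `E' = {x | x * y ∈ E}` and `h ζ = ν.real {l | l * ζ ∈ E'}`
(`lam_real`, `measurable_fib`, `h ≤ ν.real univ`) use `shift_int` if `C₁ γ ≤ 1`, else the trivial
bound `pr_univ`.  `div_lam`: `div_abs` for `g y = pr ν ρ a {x | x * y ∈ E}`, `Λ = C nr`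
(`lam_real` for the measure `lam ν (a • Z ρ)`).  `pr2_le`, `le_pr2`: `lam_real`, `pr_shift`
(for the lower bound shift by `y⁻¹`, `y ∈ Z ρ ⊆ a' • Z ρ`), `m0_smul`.
-/

namespace Vale.Agent.P188.Geo
open scoped InnerProductSpace Pointwise
open MeasureTheory
variable (M : Geo)

theorem divB_set {E : Set M.G} (hE : MeasurableSet E) (y : M.G) :
    MeasurableSet {x | x * y ∈ E} :=
  (continuous_mul_const y).measurable hE

theorem divB_meas (ν : Measure M.G) [SFinite ν] {E : Set M.G} (hE : MeasurableSet E) :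
    Measurable fun ζ => ν.real {l | l * ζ ∈ E} :=
  (M.measurable_fib ν hE).ennreal_toReal

theorem divB_abs (ν : Measure M.G) [IsFiniteMeasure ν] (E : Set M.G) :
    |ν.real E| ≤ ν.real Set.univ := by
  rw [abs_of_nonneg measureReal_nonneg]
  exact measureReal_mono (Set.subset_univ _)

theorem divB_pr (ν : Measure M.G) [IsFiniteMeasure ν] (ρ a : ℝ) {E : Set M.G}
    (hE : MeasurableSet E) (z : M.G) :
    M.pr ν ρ a {x | x * z ∈ E} = ∫ ζ in a • M.Z ρ, ν.real {l | l * (ζ * z) ∈ E} ∂M.m0 := by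
  rw [pr, M.lam_real ν (M.isCompact_sZ a ρ) (M.divB_set hE z)]
  simp only [Set.mem_ofPred_eq, mul_assoc]

theorem divB_int (ν : Measure M.G) [IsFiniteMeasure ν] {Y : Set M.G} (hY : IsCompact Y)
    {E : Set M.G} (hE : MeasurableSet E) (z : M.G) :
    IntegrableOn (fun ζ => ν.real {l | l * (ζ * z) ∈ E}) Y M.m0 :=
  Measure.integrableOn_of_bounded hY.measure_lt_top.ne
    ((M.divB_meas ν hE).comp (continuous_mul_const z).measurable).aestronglyMeasurable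
    (Filter.Eventually.of_forall fun _ => M.divB_abs ν _)

theorem lam_lip (a L : ℝ) (ha : 1 ≤ a) (hL : 0 ≤ L) : ∃ C : ℝ, 1 ≤ C ∧
    ∀ (ν : Measure M.G) [IsFiniteMeasure ν] (ρ : ℝ) (E : Set M.G), MeasurableSet E →
      ∀ γ : ℝ, 0 ≤ γ → γ ≤ 1 → ∀ y ∈ L • M.Z ρ, ∀ u ∈ γ • M.Z ρ,
        |M.pr ν ρ a {x | x * (y * u) ∈ E} - M.pr ν ρ a {x | x * y ∈ E}| ≤
          γ * (C * M.nr ν ρ) := by
  obtain ⟨C₁, h1, hA⟩ := M.Ad_mem L hL
  obtain ⟨C₂, h2, -, hS⟩ := M.shift_int a ha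
  have h3 : 1 ≤ a ^ Module.finrank ℝ M.u0 := one_le_pow₀ ha
  refine ⟨C₁ * (C₂ * a ^ Module.finrank ℝ M.u0), one_le_mul_of_one_le_of_one_le h1
    (one_le_mul_of_one_le_of_one_le h2 h3), fun ν _ ρ E hE γ h0 _ y hy u hu => ?_⟩
  have hn := M.nr_nonneg ν ρ
  have hC : 0 ≤ C₁ * γ := mul_nonneg (by linarith) h0
  rcases le_total (C₁ * γ) 1 with h | h
  · obtain ⟨v, hv, rfl⟩ := hu
    have hb : y * (γ • v) * y⁻¹ ∈ (C₁ * γ) • M.Z ρ := by
      rw [M.conj_eq (Or.inr (M.sZ_sub_u0 L ρ hy)), map_smul, mul_comm, mul_smul]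
      exact Set.smul_mem_smul_set (hA _ _ (M.Z_isLB ρ).sc (M.Z_isLB ρ).lie y hy
        (Or.inr (M.Z_sub_u0 ρ)) v hv)
    have h4 := hS ρ _ (ν.real Set.univ) hC h measureReal_nonneg _ hb
      (fun ζ => ν.real {l | l * (ζ * y) ∈ E})
      ((M.divB_meas ν hE).comp (continuous_mul_const y).measurable) fun _ _ => M.divB_abs ν _
    simp only [mul_assoc, inv_mul_cancel, mul_one] at h4
    rw [M.divB_pr ν ρ a hE, M.divB_pr ν ρ a hE]
    refine h4.trans ?_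
    have h5 := mul_le_mul_of_nonneg_left h3 (mul_nonneg (mul_nonneg (zero_le_one.trans h2) hC) hn)
    rw [nr] at h5 ⊢
    linarith
  · have h4 : ∀ F, M.pr ν ρ a F ≤ γ * (C₁ * (C₂ * a ^ Module.finrank ℝ M.u0) * M.nr ν ρ) := by
      intro F
      have h5 := M.pr_mono ν ρ a (Set.subset_univ F)
      rw [M.pr_univ ν ρ (by linarith)] at h5
      have h6 := mul_le_mul_of_nonneg_right (one_le_mul_of_one_le_of_one_le h h2)
        (mul_nonneg (zero_le_one.trans h3) hn)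
      linarith
    exact abs_sub_le_iff.2 ⟨(sub_le_self _ (M.pr_nonneg _ _ _ _)).trans (h4 _),
      (sub_le_self _ (M.pr_nonneg _ _ _ _)).trans (h4 _)⟩

theorem div_lam (a : ℝ) (ha : 1 ≤ a) (n : ℕ) : ∃ C : ℝ, 1 ≤ C ∧
    ∀ (ν : Measure M.G) [IsFiniteMeasure ν] (ρ β : ℝ), 0 ≤ β → C * β ≤ 1 →
      ∀ E : Set M.G, MeasurableSet E → ∀ l : List M.G, l.length ≤ n →
        (∀ z ∈ l, z ∈ β • M.Z ρ) → l.sum = 0 →
        |(l.map fun z => M.pr (M.lam ν (a • M.Z ρ)) ρ a {x | x * z ∈ E} -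
            M.pr (M.lam ν (a • M.Z ρ)) ρ a E).sum| ≤
          C * β ^ 2 * M.nr ν ρ * M.m0.real (M.Z ρ) := by
  obtain ⟨C₁, h1, hD⟩ := M.div_abs a ha n
  obtain ⟨C₂, h2, hL⟩ := M.lam_lip a C₁ ha (by linarith)
  refine ⟨C₁ * C₂, one_le_mul_of_one_le_of_one_le h1 h2, fun ν _ ρ β h0 hβ E hE l hl hz hs => ?_⟩
  have h3 : C₁ * β ≤ 1 := by
    have := mul_le_mul_of_nonneg_left h2 (mul_nonneg (zero_le_one.trans h1) h0)
    linarith
  have h4 := hD ρ β (C₂ * M.nr ν ρ) h0 h3 (mul_nonneg (by linarith) (M.nr_nonneg ν ρ))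
    (fun y => M.pr ν ρ a {x | x * y ∈ E}) (M.divB_meas _ hE) ⟨_, fun _ => M.divB_abs _ _⟩
    (hL ν ρ E hE) l hl hz hs
  have h5 : ∀ z, M.pr (M.lam ν (a • M.Z ρ)) ρ a {x | x * z ∈ E} -
      M.pr (M.lam ν (a • M.Z ρ)) ρ a E = ∫ y in a • M.Z ρ,
        (M.pr ν ρ a {x | x * (y * z) ∈ E} - M.pr ν ρ a {x | x * y ∈ E}) ∂M.m0 := by
    intro z
    have i1 := M.divB_int (M.lam ν (a • M.Z ρ)) (M.isCompact_sZ a ρ) hE z
    have i2 := M.divB_int (M.lam ν (a • M.Z ρ)) (M.isCompact_sZ a ρ) hE 1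
    simp only [mul_one] at i2
    rw [M.divB_pr _ ρ a hE, pr, M.lam_real _ (M.isCompact_sZ a ρ) hE, ← integral_sub i1 i2]
    rfl
  simp only [h5]
  exact h4.trans_eq (by ring)

theorem pr2_le (a : ℝ) (ha : 1 ≤ a) : ∃ a' C : ℝ, a ≤ a' ∧ 1 ≤ C ∧
    ∀ (ν : Measure M.G) [IsFiniteMeasure ν] (ρ : ℝ) (E : Set M.G), MeasurableSet E →
      M.pr (M.lam ν (a • M.Z ρ)) ρ a E ≤ C * M.m0.real (M.Z ρ) * M.pr ν ρ a' E := by
  obtain ⟨a', h1, -, h⟩ := M.pr_shift a a (by linarith) (by linarith)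
  refine ⟨a', a ^ Module.finrank ℝ M.u0, h1, one_le_pow₀ ha, fun ν _ ρ E hE => ?_⟩
  rw [← M.m0_smul (by linarith), pr, M.lam_real _ (M.isCompact_sZ a ρ) hE, mul_comm]
  refine (Real.le_norm_self _).trans (norm_setIntegral_le_of_norm_le_const
    (M.isCompact_sZ a ρ).measure_lt_top fun ζ hζ => ?_)
  rw [Real.norm_eq_abs, abs_of_nonneg measureReal_nonneg]
  exact h ν ρ ζ hζ E

theorem le_pr2 (a : ℝ) (ha : 1 ≤ a) : ∃ a' : ℝ, a ≤ a' ∧
    ∀ (ν : Measure M.G) [IsFiniteMeasure ν] (ρ : ℝ) (E : Set M.G), MeasurableSet E →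
      M.m0.real (M.Z ρ) * M.pr ν ρ a E ≤ M.pr (M.lam ν (a' • M.Z ρ)) ρ a' E := by
  obtain ⟨a', h1, h2, h⟩ := M.pr_shift a 1 (by linarith) zero_le_one
  refine ⟨a', h1, fun ν _ ρ E hE => ?_⟩
  have i1 := M.divB_int (M.lam ν (a' • M.Z ρ)) (M.isCompact_sZ a' ρ) hE 1
  simp only [mul_one] at i1
  have hsub : M.Z ρ ⊆ a' • M.Z ρ := (M.Z_isLB ρ).sc.subset_smul h2
  have hZ := (M.Z_isLB ρ).compact
  rw [pr, pr, M.lam_real (M.lam ν (a' • M.Z ρ)) (M.isCompact_sZ a' ρ) hE, mul_comm]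
  refine (setIntegral_ge_of_const_le_real hZ.measurableSet hZ.measure_lt_top.ne (fun ζ hζ => ?_)
    (i1.mono_set hsub)).trans (setIntegral_mono_set i1
      (Filter.Eventually.of_forall fun _ => measureReal_nonneg) hsub.eventuallyLE)
  have h3 := h ν ρ ζ⁻¹ (by rw [one_smul]; exact M.Z_inv hζ) {x | x * ζ ∈ E}
  simp only [Set.mem_ofPred_eq, inv_mul_cancel_right, Set.ofPred_mem_eq] at h3
  exact h3

end Vale.Agent.P188.Geo
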