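import Vale.Agent.P188.N.Defs

/-! The measures `lam`, `pr`.
Plan: `lintegral_map`, `lintegral_prod_symm` (G is second countable, multiplication continuous);
`lam_shift`: `(lam ν Y).map (· * z) ≤ lam ν Y'` (test on measurable sets, `map_mul_right M.sub_u0`,
`lam_apply`), then `Measure.le_map_apply`.  `pr_shift`: `mul_mem` with the constant `max a L`,
`SC.smul_mono`.  `a • Z ρ` is compact and lies in `u0`.
-/

namespace Vale.Agent.P188.Geo
open scoped InnerProductSpace Pointwise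
open MeasureTheory
variable (M : Geo)

instance : SFinite M.m0 := inferInstanceAs (SFinite (subMu M.u0))
instance : IsFiniteMeasureOnCompacts M.m0 :=
  inferInstanceAs (IsFiniteMeasureOnCompacts (subMu M.u0))
instance : SFinite M.mE := inferInstanceAs (SFinite (subMu M.e))
instance : IsFiniteMeasureOnCompacts M.mE :=
  inferInstanceAs (IsFiniteMeasureOnCompacts (subMu M.e))

theorem isCompact_sZ (a ρ : ℝ) : IsCompact (a • M.Z ρ) := (M.Z_isLB ρ).compact.smul a

theorem sZ_sub_u0 (a ρ : ℝ) : a • M.Z ρ ⊆ M.u0 := by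
  rintro _ ⟨x, hx, rfl⟩
  exact M.u0.smul_mem a (M.Z_sub_u0 ρ hx)

theorem lam_mul : Measurable fun p : M.G × M.G => p.1 * p.2 := by
  have h : Continuous fun p : M.G × M.G => p.1 * p.2 := continuous_fst.mul continuous_snd
  exact h.measurable

theorem lam_mulr (z : M.G) : MeasurableEmbedding fun x : M.G => x * z :=
  (Homeomorph.mulRight z).measurableEmbedding

theorem lam_fin (ν : Measure M.G) [IsFiniteMeasure ν] {Y : Set M.G} (hY : IsCompact Y) :
    IsFiniteMeasure (M.lam ν Y) := by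
  have : IsFiniteMeasure (M.m0.restrict Y) := isFiniteMeasure_restrict.2 hY.measure_lt_top.ne
  unfold lam
  infer_instance

instance (ν : Measure M.G) [IsFiniteMeasure ν] (a ρ : ℝ) :
    IsFiniteMeasure (M.lam ν (a • M.Z ρ)) := M.lam_fin ν (M.isCompact_sZ a ρ)

theorem lintegral_lam (ν : Measure M.G) [SFinite ν] (Y : Set M.G) {f : M.G → ENNReal}
    (hf : Measurable f) :
    ∫⁻ x, f x ∂(M.lam ν Y) = ∫⁻ ζ in Y, ∫⁻ l, f (l * ζ) ∂ν ∂M.m0 := by
  rw [lam, lintegral_map hf M.lam_mul]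
  exact lintegral_prod_symm' _ (hf.comp M.lam_mul)

theorem measurable_fib (ν : Measure M.G) [SFinite ν] {E : Set M.G} (hE : MeasurableSet E) :
    Measurable fun ζ => ν {l | l * ζ ∈ E} :=
  measurable_measure_prodMk_right (M.lam_mul hE)

theorem lam_apply (ν : Measure M.G) [SFinite ν] (Y : Set M.G) {E : Set M.G}
    (hE : MeasurableSet E) : M.lam ν Y E = ∫⁻ ζ in Y, ν {l | l * ζ ∈ E} ∂M.m0 := by
  rw [lam, Measure.map_apply M.lam_mul hE, Measure.prod_apply_symm (M.lam_mul hE)]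
  rfl

theorem lam_real (ν : Measure M.G) [IsFiniteMeasure ν] {Y : Set M.G} (hY : IsCompact Y)
    {E : Set M.G} (hE : MeasurableSet E) :
    (M.lam ν Y).real E = ∫ ζ in Y, ν.real {l | l * ζ ∈ E} ∂M.m0 := by
  have _ := hY
  rw [measureReal_def, M.lam_apply ν Y hE, ← integral_toReal (M.measurable_fib ν hE).aemeasurable
    (ae_of_all _ fun _ => measure_lt_top _ _)]
  rfl

theorem lam_univ (ν : Measure M.G) [SFinite ν] (Y : Set M.G) :
    (M.lam ν Y).real Set.univ = ν.real Set.univ * M.m0.real Y := by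
  rw [measureReal_def, M.lam_apply ν Y MeasurableSet.univ]
  simp [measureReal_def]

theorem lam_shift (ν : Measure M.G) [SFinite ν] {Y Y' : Set M.G} (hY : MeasurableSet Y)
    (hY' : MeasurableSet Y') {z : M.G} (hz : z ∈ M.u0) (h : ∀ y ∈ Y, y * z ∈ Y') (E : Set M.G) :
    M.lam ν Y {x | x * z ∈ E} ≤ M.lam ν Y' E := by
  have h1 : (M.lam ν Y).map (fun x => x * z) ≤ M.lam ν Y' := by
    refine Measure.le_iff.2 fun S hS => ?_
    have hz' := M.lam_mulr z
    rw [hz'.map_apply, M.lam_apply ν Y (hz'.measurable hS), M.lam_apply ν Y' hS,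
      ← lintegral_indicator hY, ← lintegral_indicator hY',
      ← lintegral_of_map (μ := M.m0) hz'.measurable (M.map_mul_right M.sub_u0 hz)
        ((M.measurable_fib ν hS).indicator hY')]
    refine lintegral_mono fun y => ?_
    by_cases hy : y ∈ Y
    · simp [hy, h y hy, mul_assoc]
    · simp [hy]
  have h2 := Measure.le_iff'.1 h1 E
  rwa [(M.lam_mulr z).map_apply] at h2

theorem m0_smul {a : ℝ} (ha : 0 < a) (S : Set M.G) :
    M.m0.real (a • S) = a ^ Module.finrank ℝ M.u0 * M.m0.real S := subMu_real_smul _ _ ha _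

theorem m0_Z_pos {ρ : ℝ} (h : 0 < ρ) : 0 < M.m0.real (M.Z ρ) := M.mu0_Z_pos h

theorem nr_nonneg (ν : Measure M.G) (ρ : ℝ) : 0 ≤ M.nr ν ρ :=
  mul_nonneg measureReal_nonneg measureReal_nonneg

theorem pr_nonneg (ν : Measure M.G) (ρ a : ℝ) (E : Set M.G) : 0 ≤ M.pr ν ρ a E :=
  measureReal_nonneg

theorem pr_mono (ν : Measure M.G) [IsFiniteMeasure ν] (ρ a : ℝ) {E E' : Set M.G} (h : E ⊆ E') :
    M.pr ν ρ a E ≤ M.pr ν ρ a E' := measureReal_mono h

theorem pr_mono_a (ν : Measure M.G) [IsFiniteMeasure ν] (ρ : ℝ) {a a' : ℝ} (h0 : 0 ≤ a)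
    (h : a ≤ a') (E : Set M.G) : M.pr ν ρ a E ≤ M.pr ν ρ a' E := by
  refine ENNReal.toReal_mono (measure_ne_top _ _) ?_
  simpa using M.lam_shift ν (M.isCompact_sZ a ρ).measurableSet (M.isCompact_sZ a' ρ).measurableSet
    (z := 1) M.u0.zero_mem (fun y hy => by
      rw [mul_one]; exact (M.Z_isLB ρ).sc.smul_mono (by rwa [abs_of_nonneg h0]) hy) E

theorem pr_union (ν : Measure M.G) (ρ a : ℝ) (E E' : Set M.G) :
    M.pr ν ρ a (E ∪ E') ≤ M.pr ν ρ a E + M.pr ν ρ a E' := measureReal_union_le _ _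

theorem pr_biUnion (ν : Measure M.G) (ρ a : ℝ) {ι : Type*} (s : Finset ι) (E : ι → Set M.G) :
    M.pr ν ρ a (⋃ i ∈ s, E i) ≤ ∑ i ∈ s, M.pr ν ρ a (E i) := measureReal_biUnion_finset_le _ _

theorem pr_univ (ν : Measure M.G) [SFinite ν] (ρ : ℝ) {a : ℝ} (ha : 0 < a) :
    M.pr ν ρ a Set.univ = a ^ Module.finrank ℝ M.u0 * M.nr ν ρ := by
  rw [pr, lam_univ, M.m0_smul ha, nr]; ring

theorem pr_shift (a L : ℝ) (ha : 0 ≤ a) (hL : 0 ≤ L) : ∃ a' : ℝ, a ≤ a' ∧ 1 ≤ a' ∧
    ∀ (ν : Measure M.G) [IsFiniteMeasure ν] (ρ : ℝ), ∀ z ∈ L • M.Z ρ, ∀ E : Set M.G,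
      M.pr ν ρ a {x | x * z ∈ E} ≤ M.pr ν ρ a' E := by
  obtain ⟨C, hC, H⟩ := M.mul_mem (max a L) (le_max_of_le_left ha)
  refine ⟨max a C, le_max_left _ _, le_max_of_le_right hC, fun ν _ ρ z hz E => ?_⟩
  have hs := (M.Z_isLB ρ).sc
  refine ENNReal.toReal_mono (measure_ne_top _ _) ?_
  refine M.lam_shift ν (M.isCompact_sZ a ρ).measurableSet (M.isCompact_sZ _ ρ).measurableSet
    (M.sZ_sub_u0 L ρ hz) (fun y hy => ?_) E
  refine hs.smul_mono ?_ (H _ (M.Z_isLB ρ) (M.Z_tame ρ) y (hs.smul_mono ?_ hy) z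
    (hs.smul_mono ?_ hz))
  · rw [abs_of_nonneg (by linarith)]; exact le_max_right _ _
  · rw [abs_of_nonneg ha]; exact le_max_left _ _
  · rw [abs_of_nonneg hL]; exact le_max_right _ _

end Vale.Agent.P188.Geo
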