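import Vale.Agent.P188.N.Bas

/-! Chaining along lines and along words.
Plan for `line`: for `t ∈ [β ρ, (2 L + 1) ρ]` put `n = ⌊t / (β ρ)⌋₊ ≥ 1`, `τ = t / n ∈ [β ρ, 2 β ρ]`;
a change between `x` and `x * (t • c)` forces a change between `x * ((k τ) • c)` and
`x * (((k + 1) τ) • c)` for some `k < n`; `pr_biUnion`, `pr_shift`, `smul_mem_sZ`,
`smul_mul_smul`.  General `t = t₁ - t₂`, `t₂ = (L + β) ρ`, `t₁ = t + t₂`: compare `x * (t • c)` and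
`x` with `x * (t₁ • c) = x * (t • c) * (t₂ • c)`.
`letters`: `Z_basis`, `bounded_gen` for the Finset `(C ρ) • Lc` (image), `prod_mem'` for the
body `gen ((C ρ) • Lc) ⊆ Z (C C ρ)` (`gen_isLB`, `subset_gen`), `Z_subset_smul`.
`word_change`: `letters` and the same union bound over the at most `N` letters.
-/

namespace Vale.Agent.P188.Geo
open scoped InnerProductSpace Pointwise
open MeasureTheory
variable (M : Geo)

theorem line_chain (a L : ℝ) (ha : 0 ≤ a) (hL : 0 ≤ L) : ∃ a' : ℝ, a ≤ a' ∧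
    ∀ (ν : Measure M.G) [IsFiniteMeasure ν] (ρ θ : ℝ) (f : M.G → Prop) (n : ℕ) (p : ℕ → M.G),
      p 0 = 1 → (∀ k < n, p k ∈ L • M.Z ρ ∧ ∃ s, p (k + 1) = p k * s ∧
        M.pr ν ρ a' {x | ¬ (f (x * s) ↔ f x)} ≤ θ) →
      M.pr ν ρ a {x | ¬ (f (x * p n) ↔ f x)} ≤ n * θ := by
  obtain ⟨a', h1, -, h2⟩ := M.pr_shift a L ha hL
  refine ⟨a', h1, fun ν _ ρ θ f n p h0 h => ?_⟩
  have h3 : {x | ¬ (f (x * p n) ↔ f x)} ⊆
      ⋃ k ∈ Finset.range n, {x | ¬ (f (x * p (k + 1)) ↔ f (x * p k))} := fun x hx => by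
    by_contra hc
    simp only [Set.mem_iUnion, Set.mem_ofPred_eq, not_exists, not_not, Finset.mem_range] at hc
    have h4 : ∀ k ≤ n, (f (x * p k) ↔ f x) := fun k hk => by
      induction k with
      | zero => rw [h0, mul_one]
      | succ k ih => exact (hc k hk).trans (ih (Nat.le_of_succ_le hk))
    exact hx (h4 n le_rfl)
  refine ((M.pr_mono ν ρ a h3).trans (M.pr_biUnion ν ρ a _ _)).trans ?_
  refine (Finset.sum_le_card_nsmul _ _ θ fun k hk => ?_).trans_eq (by simp)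
  obtain ⟨h4, s, h5, h6⟩ := h k (Finset.mem_range.1 hk)
  refine le_trans (le_of_eq ?_) ((h2 ν ρ _ h4 _).trans h6)
  simp only [h5, Set.mem_ofPred_eq, mul_assoc]

theorem line_pos (a L : ℝ) (ha : 0 ≤ a) (hL : 0 ≤ L) : ∃ a' : ℝ, a ≤ a' ∧
    ∀ (ν : Measure M.G) [IsFiniteMeasure ν] (ρ β θ : ℝ), 0 < ρ → 0 < β → 0 ≤ θ →
      ∀ c ∈ M.u0, ‖c‖ ≤ 1 → ∀ f : M.G → Prop,
      (∀ τ : ℝ, β * ρ ≤ τ → τ ≤ 2 * β * ρ →
        M.pr ν ρ a' {x | ¬ (f (x * (τ • c)) ↔ f x)} ≤ θ) →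
      ∀ t : ℝ, β * ρ ≤ t → t ≤ L * ρ →
        M.pr ν ρ a {x | ¬ (f (x * (t • c)) ↔ f x)} ≤ L * θ / β := by
  obtain ⟨C, hC, h1⟩ := M.smul_mem_sZ
  obtain ⟨a', h2, h3⟩ := M.line_chain a ((C * (L + 1)) ^ M.c) ha (by positivity)
  refine ⟨a', h2, fun ν _ ρ β θ hρ hβ hθ c hc hc1 f hf t t1 t2 => ?_⟩
  have b0 := mul_pos hβ hρ
  have b1 : 1 ≤ t / (β * ρ) := (one_le_div b0).2 t1
  obtain ⟨n, hn⟩ : ∃ n, n = ⌊t / (β * ρ)⌋₊ := ⟨_, rfl⟩
  have n1 : (1 : ℝ) ≤ n := by exact_mod_cast hn ▸ (Nat.one_le_floor_iff _).2 b1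
  have n2 : (n : ℝ) * (β * ρ) ≤ t := (le_div_iff₀ b0).1 (hn ▸ Nat.floor_le (by linarith))
  have n3 : t < ((n : ℝ) + 1) * (β * ρ) := (div_lt_iff₀ b0).1 (hn ▸ Nat.lt_floor_add_one _)
  have n0 : (0 : ℝ) < n := by linarith
  have h4 := h3 ν ρ θ f n (fun k => ((k : ℝ) * (t / n)) • c) (by simp [one_def]) fun k hk => by
    refine ⟨(h1 c hc hc1 ρ _ L hρ.le hL ?_).2, (t / n) • c, ?_, hf _ ?_ ?_⟩
    · have k1 : (k : ℝ) ≤ n := Nat.cast_le.2 hk.le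
      have k2 : 0 ≤ t / n := div_nonneg (by linarith) n0.le
      rw [abs_of_nonneg (by positivity)]
      refine (mul_le_mul_of_nonneg_right k1 k2).trans ?_
      rwa [mul_div_cancel₀ _ n0.ne']
    · rw [M.smul_mul_smul (Or.inr hc)]
      push_cast
      rw [add_mul, one_mul]
    · rw [le_div_iff₀ n0]
      linarith
    · rw [div_le_iff₀ n0]
      nlinarith
  rw [mul_div_cancel₀ _ n0.ne'] at h4
  refine h4.trans ?_
  rw [le_div_iff₀ hβ]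
  have h5 : (n : ℝ) * β ≤ L := le_of_mul_le_mul_right (by linarith) hρ
  nlinarith [mul_le_mul_of_nonneg_right h5 hθ]

theorem line (a L : ℝ) (ha : 1 ≤ a) (hL : 0 ≤ L) : ∃ a' C : ℝ, a ≤ a' ∧ 1 ≤ C ∧
    ∀ (ν : Measure M.G) [IsFiniteMeasure ν] (ρ β θ : ℝ), 0 < ρ → 0 < β → β ≤ 1 → 0 ≤ θ →
      ∀ c ∈ M.u0, ‖c‖ ≤ 1 → ∀ f : M.G → Prop,
      (∀ τ : ℝ, β * ρ ≤ τ → τ ≤ 2 * β * ρ →
        M.pr ν ρ a' {x | ¬ (f (x * (τ • c)) ↔ f x)} ≤ θ) →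
      ∀ t : ℝ, |t| ≤ L * ρ → M.pr ν ρ a {x | ¬ (f (x * (t • c)) ↔ f x)} ≤ C * θ / β := by
  obtain ⟨C, hC, h1⟩ := M.smul_mem_sZ
  have ha0 := zero_le_one.trans ha
  obtain ⟨a1, h2, -, h3⟩ := M.pr_shift a ((C * (L + 1)) ^ M.c) ha0 (by positivity)
  obtain ⟨a', h4, h5⟩ := M.line_pos a1 (2 * L + 1) (ha0.trans h2) (by positivity)
  refine ⟨a', 2 * (2 * L + 1), h2.trans h4, by linarith,
    fun ν _ ρ β θ hρ hβ hβ1 hθ c hc hc1 f hf t ht => ?_⟩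
  have t1 := abs_le.1 ht
  have b1 := mul_le_mul_of_nonneg_right hβ1 hρ.le
  have b2 := mul_nonneg hL hρ.le
  have h6 := h5 ν ρ β θ hρ hβ hθ c hc hc1 f hf
  have h7 := (M.pr_mono_a ν ρ ha0 h2 _).trans
    (h6 (t + (L + β) * ρ) (by linarith [t1.1]) (by linarith [t1.2]))
  have h8 := (h3 ν ρ _ (h1 c hc hc1 ρ t L hρ.le hL ht).2 _).trans
    (h6 ((L + β) * ρ) (by linarith) (by linarith))
  refine ((M.pr_mono ν ρ a fun x hx => ?_).trans ((M.pr_union ν ρ a _ _).trans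
    (add_le_add h7 h8))).trans_eq (by ring)
  by_contra hn
  simp only [Set.mem_union, Set.mem_ofPred_eq, not_or, not_not, mul_assoc,
    M.smul_mul_smul (Or.inr hc)] at hn
  exact hx (hn.2.symm.trans hn.1)

theorem letters (L : ℝ) (hL : 0 ≤ L) (Lc : Finset M.G)
    (hLc : Submodule.span ℝ (Lc : Set M.G) = M.u0) : ∃ (N : ℕ) (C C' : ℝ), 1 ≤ C ∧ 1 ≤ C' ∧
    ∀ ρ : ℝ, 0 ≤ ρ → ∀ y ∈ L • M.Z ρ, ∃ l : List (ℝ × M.G), l.length ≤ N ∧
      (∀ p ∈ l, |p.1| ≤ C * ρ ∧ p.2 ∈ Lc) ∧ y = (l.map fun p => p.1 • p.2).prod ∧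
      ∀ k : ℕ, ((l.take k).map fun p => p.1 • p.2).prod ∈ C' • M.Z ρ ∧
        ∀ t : ℝ, |t| ≤ C * ρ → ∀ c ∈ Lc,
          ((l.take k).map fun p => p.1 • p.2).prod * (t • c) ∈ C' • M.Z ρ := by
  classical
  obtain ⟨C0, hC0, h0⟩ := M.Z_basis Lc hLc
  obtain ⟨N, C1, hC1, h1⟩ := M.bounded_gen Lc.card L hL
  have hC : 1 ≤ C1 * C0 := one_le_mul_of_one_le_of_one_le hC1 hC0
  obtain ⟨C2, hC2, h2⟩ := M.prod_mem' ((C0 * (C1 * C0)) ^ M.c) (by positivity) (N + 1)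
  refine ⟨N, C1 * C0, C2, hC, hC2, fun ρ hρ y hy => ?_⟩
  have e1 : ((Lc.image fun c => (C0 * ρ) • c : Finset M.G) : Set M.G) =
      (C0 * ρ) • (Lc : Set M.G) := Finset.coe_image
  have hu : ∀ c ∈ Lc, c ∈ M.u0 := fun c hc => hLc ▸ Submodule.subset_span hc
  obtain ⟨l, l1, l2, l3⟩ := h1 (Lc.image fun c => (C0 * ρ) • c) Finset.card_image_le
    (M.tame_of_u0 fun x hx => by
      obtain ⟨c, hc, rfl⟩ := Finset.mem_image.1 hx
      exact M.u0.smul_mem _ (hu c hc)) y (e1 ▸ Set.smul_set_mono (h0 ρ hρ).1 hy)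
  have h3 : ∀ z ∈ Lc.image fun c => (C0 * ρ) • c, ∃ c ∈ Lc, (C0 * ρ) • c = z := fun z hz =>
    Finset.mem_image.1 hz
  choose! g g1 g2 using h3
  have h4 : ∀ t : ℝ, |t| ≤ C1 * C0 * ρ → ∀ c ∈ Lc, t • c ∈ (C0 * (C1 * C0)) ^ M.c • M.Z ρ :=
    fun t ht c hc => by
      refine M.Z_subset_smul (one_le_mul_of_one_le_of_one_le hC0 hC) ?_
      have a1 : |t| • c ∈ M.Z (C0 * (C1 * C0) * ρ) :=
        M.Z_mono (by positivity) (by
          rw [mul_assoc C0]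
          exact mul_le_mul_of_nonneg_left ht (by linarith))
          ((h0 |t| (abs_nonneg t)).2 (M.subset_gen _ ⟨c, hc, rfl⟩))
      rcases abs_choice t with h | h <;> rw [h] at a1
      · exact a1
      · simpa using (M.Z_isLB _).sc.neg_mem _ a1
  have h5 : ∀ p ∈ l.map fun p => (p.1 * (C0 * ρ), g p.2), |p.1| ≤ C1 * C0 * ρ ∧ p.2 ∈ Lc := by
    intro p hp
    obtain ⟨q, hq, rfl⟩ := List.mem_map.1 hp
    refine ⟨?_, g1 _ (l2 q hq).2⟩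
    rw [abs_mul, abs_of_nonneg (a := C0 * ρ) (by positivity), mul_assoc]
    exact mul_le_mul_of_nonneg_right (l2 q hq).1 (by positivity)
  refine ⟨l.map fun p => (p.1 * (C0 * ρ), g p.2), by rwa [List.length_map], h5, ?_, ?_⟩
  · rw [l3, List.map_map]
    refine congrArg _ (List.map_congr_left fun p hp => ?_)
    simp only [Function.comp, mul_smul p.1, g2 _ (l2 p hp).2]
  · rw [← List.length_map (f := fun p => (p.1 * (C0 * ρ), g p.2))] at l1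
    generalize (l.map fun p => (p.1 * (C0 * ρ), g p.2)) = l' at l1 h5
    intro k
    have h6 : ((l'.take k).map fun p => p.1 • p.2).length ≤ N := by
      rw [List.length_map]
      exact (List.length_take_le' _ _).trans l1
    have h7 : ∀ x ∈ (l'.take k).map fun p => p.1 • p.2, x ∈ (C0 * (C1 * C0)) ^ M.c • M.Z ρ := by
      intro x hx
      obtain ⟨q, hq, rfl⟩ := List.mem_map.1 hx
      have := h5 q (List.mem_of_mem_take hq)
      exact h4 _ this.1 _ this.2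
    refine ⟨h2 _ (M.Z_isLB ρ) (M.Z_tame ρ) _ (h6.trans N.le_succ) h7, fun t ht c hc => ?_⟩
    rw [← List.prod_concat]
    refine h2 _ (M.Z_isLB ρ) (M.Z_tame ρ) _ (by rw [List.length_concat]; omega) fun x hx => ?_
    rw [List.concat_eq_append, List.mem_append, List.mem_singleton] at hx
    rcases hx with hx | rfl
    · exact h7 x hx
    · exact h4 t ht c hc

theorem word_change (a L : ℝ) (ha : 1 ≤ a) (hL : 0 ≤ L) (Lc : Finset M.G)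
    (hLc : Submodule.span ℝ (Lc : Set M.G) = M.u0) : ∃ a' L' N : ℝ, a ≤ a' ∧ 0 ≤ L' ∧ 1 ≤ N ∧
    ∀ (ν : Measure M.G) [IsFiniteMeasure ν] (ρ θ : ℝ), 0 ≤ ρ → 0 ≤ θ → ∀ f : M.G → Prop,
      (∀ c ∈ Lc, ∀ t : ℝ, |t| ≤ L' * ρ → M.pr ν ρ a' {x | ¬ (f (x * (t • c)) ↔ f x)} ≤ θ) →
      ∀ y ∈ L • M.Z ρ, M.pr ν ρ a {x | ¬ (f (x * y) ↔ f x)} ≤ N * θ := by
  obtain ⟨N, C, C', hC, hC', h1⟩ := M.letters L hL Lc hLc
  obtain ⟨a', h2, h3⟩ := M.line_chain a C' (zero_le_one.trans ha) (zero_le_one.trans hC')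
  have hN : (0 : ℝ) ≤ N := N.cast_nonneg
  refine ⟨a', C, N + 1, h2, zero_le_one.trans hC, by linarith,
    fun ν _ ρ θ hρ hθ f hf y hy => ?_⟩
  obtain ⟨l, l1, l2, l3, l4⟩ := h1 ρ hρ y hy
  have h4 := h3 ν ρ θ f l.length (fun k => ((l.take k).map fun p => p.1 • p.2).prod) (by simp)
    fun k hk => ⟨(l4 k).1, l[k].1 • l[k].2, by
      rw [List.take_succ_eq_append_getElem hk, List.map_append, List.prod_append]
      simp, hf _ (l2 _ (List.getElem_mem hk)).2 _ (l2 _ (List.getElem_mem hk)).1⟩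
  rw [List.take_length, ← l3] at h4
  refine h4.trans (mul_le_mul_of_nonneg_right ?_ hθ)
  have : (l.length : ℝ) ≤ N := Nat.cast_le.2 l1
  linarith

end Vale.Agent.P188.Geo
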