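import Vale.Agent.P188.N.BoxD
import Vale.Agent.P188.N.Bas
import Vale.Agent.P188.H.Main

/-! Uniform form of `local_colour`; the stage on a box.
-/

namespace Vale.Agent.P188.Geo
open scoped InnerProductSpace Pointwise
open MeasureTheory
variable (M : Geo)

theorem stage_bd_mono {R R' : ℝ} (h : R ≤ R') (S : Set M.G) : M.bd R S ⊆ M.bd R' S := by
  rintro x ⟨⟨b, hb, h1⟩, ⟨b', hb', h2⟩⟩
  exact ⟨⟨b, hb.trans h, h1⟩, ⟨b', hb'.trans h, h2⟩⟩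

theorem lc_unif (hO : M.Orth) (K C η δ R₀ : ℝ) (hη : 0 < η) (hδ : 0 < δ) :
    ∃ R₁ θ : ℝ, 0 < θ ∧ ∀ φ, M.MQI K C φ → ∀ S : Set M.G, MeasurableSet S → volume S ≠ ⊤ →
      volume S ≠ 0 → volume (M.bd R₁ S) ≤ ENNReal.ofReal θ * volume S →
      ∃ R col, R₀ ≤ R ∧ R ≤ R₁ ∧ M.Col col ∧ ∀ g, M.ln g ≤ R →
        volume (S ∩ {x | η * R < M.er φ col x g}) ≤ ENNReal.ofReal δ * volume S := by
  by_contra hcon
  have h : ∀ n : ℕ, ∃ φ, M.MQI K C φ ∧ ∃ S : Set M.G, MeasurableSet S ∧ volume S ≠ ⊤ ∧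
      volume S ≠ 0 ∧ volume (M.bd n S) ≤ ENNReal.ofReal (1 / ((n : ℝ) + 1)) * volume S ∧
      ¬ ∃ R col, R₀ ≤ R ∧ R ≤ (n : ℝ) ∧ M.Col col ∧ ∀ g, M.ln g ≤ R →
        volume (S ∩ {x | η * R < M.er φ col x g}) ≤ ENNReal.ofReal δ * volume S := by
    intro n
    by_contra h2
    apply hcon
    refine ⟨n, 1 / ((n : ℝ) + 1), by positivity, fun φ hφ S h1 h3 h4 h5 => ?_⟩
    by_contra h6
    exact h2 ⟨φ, hφ, S, h1, h3, h4, h5, h6⟩
  choose φ hφ S hS1 hS2 hS3 hS4 hS5 using h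
  let u : Ultrafilter ℕ := Ultrafilter.of Filter.atTop
  have hu : (u : Filter ℕ) ≤ Filter.atTop := Ultrafilter.of_le _
  have hF : M.Fol (u : Filter ℕ) S := by
    refine ⟨fun n => ⟨hS1 n, hS2 n, hS3 n⟩, fun R θ hθ => hu ?_⟩
    have e1 : ∀ᶠ n : ℕ in Filter.atTop, R ≤ (n : ℝ) :=
      tendsto_natCast_atTop_atTop.eventually_ge_atTop R
    have e2 : ∀ᶠ n : ℕ in Filter.atTop, 1 / ((n : ℝ) + 1) ≤ θ :=
      (tendsto_one_div_add_atTop_nhds_zero_nat (𝕜 := ℝ)).eventually (ge_mem_nhds hθ)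
    filter_upwards [e1, e2] with n h1 h2
    calc volume (M.bd R (S n)) ≤ volume (M.bd n (S n)) := measure_mono (M.stage_bd_mono h1 _)
      _ ≤ ENNReal.ofReal (1 / ((n : ℝ) + 1)) * volume (S n) := hS4 n
      _ ≤ _ := by gcongr
  obtain ⟨R, hR, hev⟩ := M.local_colour hO K C u φ hφ S hF η δ R₀ hη hδ
  have e1 : ∀ᶠ n : ℕ in (u : Filter ℕ), R ≤ (n : ℝ) :=
    hu (tendsto_natCast_atTop_atTop.eventually_ge_atTop R)
  obtain ⟨n, h1, col, 𝒢, h2, h3, -, -, -, h4⟩ := (e1.and hev).exists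
  exact hS5 n ⟨R, col, hR, h1, ⟨h2, h3⟩, h4⟩

theorem stage_wv_le : ∃ L : ℝ, 0 ≤ L ∧ ∀ c : M.G, ‖c‖ ≤ 1 → ∀ i, M.wv (M.A c) i ≤ L := by
  obtain ⟨C, hC, h⟩ := M.norm_ah_le
  refine ⟨M.wmax * C, ?_, fun c hc i => ?_⟩
  · exact mul_nonneg (Finset.sum_nonneg fun _ _ => norm_nonneg _) (by linarith)
  · have h1 : ‖M.A c‖ ≤ C := by
      have := (h c).2
      have h2 := M.ln_le_one hc
      nlinarith
    have h2 : ‖M.wt i‖ ≤ M.wmax :=
      Finset.single_le_sum (f := fun i => ‖M.wt i‖) (fun _ _ => norm_nonneg _) (Finset.mem_univ i)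
    calc M.wv (M.A c) i ≤ ‖M.wt i‖ * ‖M.A c‖ := real_inner_le_norm _ _
      _ ≤ M.wmax * C := by gcongr; exact (norm_nonneg _).trans h2

theorem stage_exists (hO : M.Orth) (K C s a : ℝ) (hs : 1 ≤ s) (ha : 1 ≤ a) :
    ∃ D : ℝ, 1 ≤ D ∧ ∀ η : ℝ, 0 < η → η ≤ 1 → ∃ β₀ ρ₀ : ℝ, 0 < β₀ ∧ ∀ ρ : ℝ, ρ₀ ≤ ρ →
      ∀ φ, M.MQI K C φ → ∀ B, M.IsLB B → B ⊆ M.e → M.Abs B (D * ρ) β₀ →
        ∃ col R, M.Stage K C φ col (M.mE.restrict (s • B)) ρ a R η := by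
  obtain ⟨L, hL, hwv⟩ := M.stage_wv_le
  obtain ⟨D, C₁, hD, hC₁, hbox⟩ := M.box_exists s a L hs ha hL
  refine ⟨D, hD, fun η hη hη1 => ?_⟩
  have hC0 : 0 < C₁ := by linarith
  obtain ⟨R₁, θ, hθ, hlc⟩ := M.lc_unif hO K C η (η / C₁) 2 hη (by positivity)
  obtain ⟨T₀, J₀, htz⟩ := M.tz_G K C η (η / (C₁ * C₁)) hη (by positivity)
  obtain ⟨β₀, ρ₀, hβ₀, hb⟩ := hbox θ R₁ hθ
  refine ⟨β₀, max ρ₀ (max (T₀ / η) (max (R₁ / η) (J₀ * R₁ / η))), hβ₀,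
    fun ρ hρ φ hφ B hB hBe hA => ?_⟩
  have r1 : ρ₀ ≤ ρ := (le_max_left _ _).trans hρ
  have r2 : T₀ ≤ η * ρ := by
    have : T₀ / η ≤ ρ := ((le_max_left _ _).trans (le_max_right _ _)).trans hρ
    rwa [div_le_iff₀ hη, mul_comm] at this
  have r3 : R₁ ≤ η * ρ := by
    have : R₁ / η ≤ ρ :=
      (((le_max_left _ _).trans (le_max_right _ _)).trans (le_max_right _ _)).trans hρ
    rwa [div_le_iff₀ hη, mul_comm] at this
  have r4 : J₀ * R₁ ≤ η * ρ := by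
    have : J₀ * R₁ / η ≤ ρ :=
      (((le_max_right _ _).trans (le_max_right _ _)).trans (le_max_right _ _)).trans hρ
    rwa [div_le_iff₀ hη, mul_comm ρ] at this
  obtain ⟨S, hS1, hS2, hS3, hS4, hS5, hS6⟩ := hb ρ r1 B hB hBe hA
  obtain ⟨R, col, hR2, hR1, hcol, hloc⟩ := hlc φ hφ S hS1 hS2 hS3 hS4
  have hcpt : IsCompact (s • B) := hB.compact.smul s
  refine ⟨col, R, hφ, hcol, isFiniteMeasure_restrict.2 hcpt.measure_lt_top.ne, hη, hη1, hR2,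
    hR1.trans r3, fun g hg => ?_, fun c hc hc1 T hT1 hT2 J hJ => ?_⟩
  · have := hS6 _ (η / C₁) (by positivity) (hloc g hg)
    rwa [mul_div_cancel₀ _ hC0.ne'] at this
  · have hJ0 : J₀ ≤ J := by
      have h1 : (J₀ : ℝ) * R ≤ J * R := by
        calc (J₀ : ℝ) * R ≤ J₀ * R₁ := by gcongr
          _ ≤ J * R := r4.trans hJ
      have h2 : (J₀ : ℝ) ≤ J := le_of_mul_le_mul_right h1 (by linarith)
      exact_mod_cast h2
    have hρ0 : 0 ≤ ρ := by nlinarith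
    have hT0 : 0 ≤ T := by nlinarith
    have h1 := htz T (r2.trans hT1) J hJ0 c hc hc1 φ hφ S hS1
    have h2 : S * M.K (fun i => max 0 (T * M.wv (M.A c) i)) ⊆ S * M.K (fun _ => L * ρ) := by
      refine Set.mul_subset_mul_left (M.K_mono fun i _ => max_le (by positivity) ?_)
      have := hwv c hc1 i
      nlinarith
    have h3 : volume (S ∩ {x | M.Phi (M.hr φ c T J x) < T * M.Psi (M.A c) - η * T}) ≤
        ENNReal.ofReal (η / C₁) * volume S := by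
      refine h1.trans ?_
      calc ENNReal.ofReal (η / (C₁ * C₁)) *
            volume (S * M.K (fun i => max 0 (T * M.wv (M.A c) i)))
          ≤ ENNReal.ofReal (η / (C₁ * C₁)) * (ENNReal.ofReal C₁ * volume S) := by
            gcongr
            exact (measure_mono h2).trans hS5
        _ = ENNReal.ofReal (η / C₁) * volume S := by
            rw [← mul_assoc, ← ENNReal.ofReal_mul (by positivity)]
            congr 2
            field_simp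
    have := hS6 _ (η / C₁) (by positivity) h3
    rwa [mul_div_cancel₀ _ hC0.ne'] at this

end Vale.Agent.P188.Geo
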