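import Vale.Agent.P188.N.LocA
import Vale.Agent.P188.N.Stage

/-! The local affinity theorem, at the origin and at any position.
-/

namespace Vale.Agent.P188.Geo
open scoped InnerProductSpace Pointwise
open MeasureTheory
variable (M : Geo)

theorem loc_abs (D : ℝ) (hD : 1 ≤ D) : ∃ C' : ℝ, 1 ≤ C' ∧ ∀ C₀ β ρ : ℝ, 0 ≤ C₀ → 1 ≤ ρ →
    C₀ * Real.exp (-ρ) ≤ β → ∀ B, M.IsLB B → M.K (fun _ => C' * ρ) ⊆ C₀ • B →
      M.Abs B (D * ρ) β := by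
  obtain ⟨Ce, hCe, he⟩ := M.e_ln
  refine ⟨2 * Ce * D + 1, by nlinarith, fun C₀ β ρ hC₀ hρ hβ B hB hK g hg hl => ?_⟩
  have h1 := he g hg (D * ρ) (by positivity) hl
  have h2 : Real.exp ρ • g ∈ M.K (fun _ => (2 * Ce * D + 1) * ρ) := by
    refine M.smul_K_subset (t := ρ) (by linarith) (fun i _ => ?_) (Set.smul_mem_smul_set h1)
    have : 1 ≤ D * ρ := by nlinarith
    nlinarith
  have h3 := hB.sc.smul_mem_smul (t := Real.exp (-ρ)) (u := β) hC₀ (hK h2)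
    (by rw [abs_of_pos (Real.exp_pos _), mul_comm]; exact hβ)
  rwa [smul_smul, ← Real.exp_add, neg_add_cancel, Real.exp_zero, one_smul] at h3

theorem loc (hO : M.Orth) (K C C₀ : ℝ) (hC₀ : 1 ≤ C₀) : ∃ C' : ℝ, 1 ≤ C' ∧ ∀ κ : ℝ, 0 < κ →
    ∃ ρ₀ : ℝ, ∀ ρ : ℝ, ρ₀ ≤ ρ → ∀ φ, M.MQI K C φ → ∀ B, M.IsLB B → B ⊆ M.e →
      M.K (fun _ => C' * ρ) ⊆ C₀ • B → ∃ w, M.Col w ∧ ∀ ζ ∈ M.Z ρ,
        M.mE.real ((C₀ • B) ∩
          {l | κ * ρ < ‖M.A (φ (l * ζ)) - M.A (φ l) - w l (M.A ζ)‖}) ≤ κ * M.mE.real B := by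
  obtain ⟨a', ha', hloc⟩ := M.loc_of K C
  obtain ⟨D, hD, hst⟩ := M.stage_exists hO K C C₀ a' hC₀ ha'
  obtain ⟨C', hC', habs⟩ := M.loc_abs D hD
  refine ⟨C', hC', fun κ hκ => ?_⟩
  set n := Module.finrank ℝ M.e
  have hp : 1 ≤ C₀ ^ n := one_le_pow₀ hC₀
  obtain ⟨η, hη, hη1, h1⟩ := hloc (κ / C₀ ^ n) (by positivity)
  obtain ⟨β₀, ρ₀, hβ₀, h2⟩ := hst η hη hη1
  refine ⟨max ρ₀ (max 1 (C₀ / β₀)), fun ρ hρ φ hφ B hB hBe hK => ?_⟩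
  have r1 : ρ₀ ≤ ρ := (le_max_left _ _).trans hρ
  have r2 : 1 ≤ ρ := ((le_max_left _ _).trans (le_max_right _ _)).trans hρ
  have r3 : C₀ ≤ β₀ * ρ := by
    have : C₀ / β₀ ≤ ρ := ((le_max_right _ _).trans (le_max_right _ _)).trans hρ
    rwa [div_le_iff₀ hβ₀, mul_comm] at this
  have r4 : C₀ * Real.exp (-ρ) ≤ β₀ := by
    have h3 : ρ ≤ Real.exp ρ := by linarith [Real.add_one_le_exp ρ]
    rw [Real.exp_neg, ← div_eq_mul_inv, div_le_iff₀ (Real.exp_pos _)]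
    nlinarith
  obtain ⟨col, R, hS⟩ := h2 ρ r1 φ hφ B hB hBe (habs C₀ β₀ ρ (by linarith) r2 r4 B hB hK)
  obtain ⟨ζ₀, h3⟩ := h1 φ col _ ρ R hS
  refine ⟨fun l => col (l * ζ₀), hS.hcol.comp (measurable_mul_const ζ₀), fun ζ hζ => ?_⟩
  have h4 := h3 ζ hζ
  have hm : MeasurableSet (C₀ • B) := (hB.compact.smul C₀).measurableSet
  have hfin : M.mE (C₀ • B) ≠ ⊤ := (hB.compact.smul C₀).measure_lt_top.ne
  rw [measureReal_restrict_apply' hm, measureReal_restrict_apply' hm, Set.univ_inter] at h4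
  have h5 : M.mE.real (C₀ • B) = C₀ ^ n * M.mE.real B := subMu_real_smul M.e C₀ (by linarith) B
  calc _ ≤ M.mE.real ({l | κ / C₀ ^ n * ρ <
        ‖M.A (φ (l * ζ)) - M.A (φ l) - col (l * ζ₀) (M.A ζ)‖} ∩ (C₀ • B)) := by
        refine measureReal_mono (fun l hl => ⟨?_, hl.1⟩)
          (measure_ne_top_of_subset Set.inter_subset_right hfin)
        refine lt_of_le_of_lt (b := κ * ρ) ?_ hl.2
        gcongr
        exact div_le_self hκ.le hp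
    _ ≤ κ / C₀ ^ n * (C₀ ^ n * M.mE.real B) := h5 ▸ h4
    _ = κ * M.mE.real B := by field_simp

theorem loc_log (C D κ : ℝ) (hC : 0 ≤ C) (hD : 0 ≤ D) (hκ : 0 < κ) :
    ∃ S₀ : ℝ, 1 ≤ S₀ ∧ ∀ S : ℝ, S₀ ≤ S → C * Real.log (2 + D * S) ≤ κ * S := by
  have h1 : ∀ᶠ S : ℝ in Filter.atTop, ‖Real.log S‖ ≤ (κ / (2 * (C + 1))) * ‖S‖ :=
    Real.isLittleO_log_id_atTop.def (by positivity)
  have h2 : ∀ᶠ S : ℝ in Filter.atTop, 2 * C * Real.log (2 + D) / κ ≤ S :=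
    Filter.eventually_ge_atTop _
  obtain ⟨S₀, h⟩ := Filter.eventually_atTop.1 (h1.and h2)
  refine ⟨max 1 S₀, le_max_left _ _, fun S hS => ?_⟩
  have hS1 : 1 ≤ S := (le_max_left _ _).trans hS
  obtain ⟨h3, h4⟩ := h S ((le_max_right _ _).trans hS)
  rw [Real.norm_eq_abs, Real.norm_eq_abs, abs_of_pos (by linarith : 0 < S)] at h3
  have h5 : Real.log (2 + D * S) ≤ Real.log (2 + D) + Real.log S := by
    rw [← Real.log_mul (by linarith) (by linarith)]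
    exact Real.log_le_log (by positivity) (by nlinarith)
  rw [div_le_iff₀ hκ] at h4
  have h6 : C * Real.log S ≤ κ / 2 * S := by
    have h7 : C * (κ / (2 * (C + 1))) ≤ κ / 2 := by
      rw [← mul_div_assoc, div_le_div_iff₀ (by positivity) (by positivity)]
      nlinarith
    calc C * Real.log S ≤ C * (κ / (2 * (C + 1)) * S) := by
          gcongr; exact (le_abs_self _).trans h3
      _ = C * (κ / (2 * (C + 1))) * S := by ring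
      _ ≤ κ / 2 * S := by gcongr
  nlinarith [mul_le_mul_of_nonneg_left h5 hC]

theorem loc_at (hO : M.Orth) (K C C₀ C₁ ε : ℝ) (h1 : 1 ≤ C₁) (h0 : C₁ ≤ C₀) (hε : 0 < ε) :
    ∃ η : ℝ, 0 < η ∧ η ≤ 1 ∧ ∀ C₅ κ : ℝ, 0 ≤ C₅ → 0 < κ → ∃ S₀ : ℝ, ∀ S : ℝ, S₀ ≤ S →
      ∀ φ, M.MQI K C φ → ∀ Ω B, M.Adm Ω S C₁ ε B → ∀ ζ ∈ M.Z (C₅ * S), M.A ζ ∈ Ω →
        ∃ w, M.Col w ∧ ∀ z ∈ M.Z (η * S), M.mE.real ((C₀ • B) ∩
          {l | κ * S < ‖M.A (φ (l * ζ * z)) - M.A (φ (l * ζ)) - w l (M.A z)‖}) ≤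
            κ * M.mE.real B := by
  obtain ⟨C', hC', hloc⟩ := M.loc hO K C C₀ (h1.trans h0)
  obtain ⟨Ca, hCa, hAd⟩ := M.Ad_Z_K
  set η := min 1 (ε / (2 * C')) with hηd
  have hη : 0 < η := lt_min one_pos (by positivity)
  have hη1 : η ≤ 1 := min_le_left _ _
  have hη2 : C' * η ≤ ε / 2 := by
    have : η ≤ ε / (2 * C') := min_le_right _ _
    rw [le_div_iff₀ (by positivity)] at this
    linarith
  refine ⟨η, hη, hη1, fun C₅ κ hC₅ hκ => ?_⟩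
  obtain ⟨ρ₀, h2⟩ := hloc κ hκ
  obtain ⟨S₁, hS₁, hlog⟩ := loc_log Ca C₅ (ε / 2) (by linarith) hC₅ (by positivity)
  refine ⟨max S₁ (ρ₀ / η), fun S hS φ hφ Ω B hA ζ hζ hΩ => ?_⟩
  have r1 : S₁ ≤ S := (le_max_left _ _).trans hS
  have r2 : ρ₀ ≤ η * S := by
    have : ρ₀ / η ≤ S := (le_max_right _ _).trans hS
    rwa [div_le_iff₀ hη, mul_comm] at this
  have hS0 : 0 < S := by linarith
  have hu : ζ ∈ M.u0 := M.Z_sub_u0 _ hζ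
  have hinv : ∀ x, M.Ad ζ⁻¹ (M.Ad ζ x) = x := fun x => by rw [← M.Ad_mul, inv_mul_cancel, M.Ad_one]
  have hinv' : ∀ x, M.Ad ζ (M.Ad ζ⁻¹ x) = x := fun x => by rw [← M.Ad_mul, mul_inv_cancel, M.Ad_one]
  have hK : M.K (fun _ => C' * (η * S)) ⊆ C₀ • M.Ad ζ⁻¹ '' B := by
    intro x hx
    have h3 := hAd (C₅ * S) (fun _ => C' * (η * S)) (by positivity) (fun _ _ _ => rfl) ζ hζ
      (Set.mem_image_of_mem _ hx)
    have h4 : M.Ad ζ x ∈ M.K (fun i => M.h Ω i + ε * S) := by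
      refine M.K_mono (fun i _ => ?_) h3
      have := M.le_h hA.compact hΩ i
      have := hlog S r1
      nlinarith
    obtain ⟨y, hy, hyx⟩ := hA.lb.sc.smul_mono (s := C₁) (t := C₀)
      (by rwa [abs_of_pos (by linarith)]) (hA.big h4)
    refine ⟨M.Ad ζ⁻¹ y, Set.mem_image_of_mem _ hy, ?_⟩
    show C₀ • M.Ad ζ⁻¹ y = x
    rw [← map_smul]
    have : C₀ • y = M.Ad ζ x := hyx
    rw [this, hinv]
  obtain ⟨w, hw, h3⟩ := h2 (η * S) r2 (fun x => φ (ζ * x)) (MQI.comp_mul_left M hφ ζ) (M.Ad ζ⁻¹ '' B)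
    (IsLB.image_Ad M hA.lb ζ⁻¹) (by rintro _ ⟨y, hy, rfl⟩; exact M.Ad_mem_e _ (hA.sub hy)) hK
  have hmeas : Measurable (M.Ad ζ⁻¹) := (M.Ad ζ⁻¹).continuous_of_finiteDimensional.measurable
  refine ⟨fun l => w (M.Ad ζ⁻¹ l), hw.comp hmeas, fun z hz => ?_⟩
  have h4 := h3 z hz
  have e1 : M.mE.real (M.Ad ζ⁻¹ '' B) = M.mE.real B := by
    simp only [Measure.real, M.mE_image_Ad]
  have hcj : ∀ l, ζ * M.Ad ζ⁻¹ l = l * ζ := fun l => by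
    rw [← M.conj_eq (Or.inr (M.inv_mem_u0 hu))]; group
  rw [e1] at h4
  refine le_trans ?_ h4
  have hfin : M.mE (C₀ • M.Ad ζ⁻¹ '' B) ≠ ⊤ :=
    ((IsLB.image_Ad M hA.lb ζ⁻¹).compact.smul C₀).measure_lt_top.ne
  have e2 : ∀ T : Set M.G, M.mE.real T = M.mE.real (M.Ad ζ⁻¹ '' T) := fun T => by
    simp only [Measure.real, M.mE_image_Ad]
  rw [e2]
  refine measureReal_mono ?_ (measure_ne_top_of_subset Set.inter_subset_left hfin)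
  rintro _ ⟨l, ⟨⟨y, hy, rfl⟩, hl⟩, rfl⟩
  refine ⟨⟨M.Ad ζ⁻¹ y, Set.mem_image_of_mem _ hy, by simp⟩, ?_⟩
  simp only [Set.mem_ofPred_eq] at hl ⊢
  rw [← mul_assoc ζ, hcj]
  refine lt_of_le_of_lt ?_ hl
  nlinarith [mul_pos hκ hS0]

end Vale.Agent.P188.Geo
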