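import Vale.Agent.P188.N.Aff1

/-! Choice of a base position.
Plan.  `L` from `mul_mem` twice (so that `ζ₀⁻¹ * ζ * u ∈ L • Z ρ` for `ζ₀, ζ, u ∈ Z ρ`), `aff1`.
`t` small, `γ = t ^ c`, `γ • Z ρ ⊆ Z (t ρ)` (`pow_smul_Z_subset`).
`H ζ y = ν {l | θ ρ < er φ col (l * ζ) y}` is jointly measurable (`measurable_er`,
`measurable_measure_prodMk_left`-type lemmas), `∫⁻ ζ in Z ρ, H ζ y ≤ θ nr` (`lam_apply`).
Tonelli and `exists_le_avg` on `γ • Z ρ` give `ζ₀` with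
`∫⁻ y in L • Z ρ, H ζ₀ y ≤ θ γ⁻ⁿ Lⁿ ν univ * m0 (Z ρ)` (`subMu_smul`).  For `ζ ∈ Z ρ`,
`exists_le_avg` for `u ↦ H ζ₀ (ζ₀⁻¹ * ζ * u)` on `γ • Z ρ` (`map_mul_left M.sub_u0`) gives `u` with
`H ≤ θ γ⁻²ⁿ Lⁿ ν univ`.  For good `l`: `l * ζ₀ * (ζ₀⁻¹ * ζ * u) = l * ζ * u`, `A_lip`, `ln_Z`,
`Z_A`: the error is at most `θ ρ + C (t ρ + 1)`, and `1 ≤ η ρ` (`Stage.rho`).
-/

namespace Vale.Agent.P188.Geo
open scoped InnerProductSpace Pointwise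
open MeasureTheory
variable (M : Geo)

theorem LocA_avg (μ : Measure M.G) [SFinite μ] {Y Z W : Set M.G} (hY : MeasurableSet Y)
    (hW : MeasurableSet W) (h0 : μ Y ≠ 0) (h1 : μ Y ≠ ⊤) (hYZ : Y ⊆ Z)
    {H : M.G × M.G → ENNReal} (hH : Measurable H) {b : ENNReal}
    (hb : ∀ y ∈ W, ∫⁻ ζ in Z, H (ζ, y) ∂μ ≤ b) :
    ∃ ζ₀ ∈ Y, ∀ g, μ.map (fun x => g * x) = μ → (∀ u ∈ Y, g * u ∈ W) →
      ∃ u ∈ Y, H (ζ₀, g * u) * μ Y * μ Y ≤ b * μ W := by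
  have hF : Measurable fun ζ => ∫⁻ y in W, H (ζ, y) ∂μ := hH.lintegral_prod_right'
  obtain ⟨ζ₀, hζ, h2⟩ := exists_le_avg μ hY h0 h1 hF
  refine ⟨ζ₀, hζ, fun g hg hgW => ?_⟩
  have hm : Measurable fun x : M.G => g * x := (continuous_const_mul g).measurable
  have hH0 : Measurable fun y => H (ζ₀, y) := hH.comp measurable_prodMk_left
  obtain ⟨u, hu, h3⟩ := exists_le_avg μ hY h0 h1 (hH0.comp hm)
  refine ⟨u, hu, ?_⟩
  have h4 : ∫⁻ x in Y, H (ζ₀, g * x) ∂μ ≤ ∫⁻ y in W, H (ζ₀, y) ∂μ := by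
    conv_rhs => rw [← hg]
    rw [setLIntegral_map hW hH0 hm]
    exact lintegral_mono_set hgW
  have h5 : ∫⁻ ζ in Y, ∫⁻ y in W, H (ζ, y) ∂μ ∂μ ≤ b * μ W := by
    refine (lintegral_mono_set hYZ).trans ?_
    rw [lintegral_lintegral_swap (f := fun ζ y => H (ζ, y)) hH.aemeasurable,
      ← setLIntegral_const]
    exact setLIntegral_mono' hW hb
  exact (mul_le_mul_left (h3.trans h4) _).trans (h2.trans h5)

theorem LocA_err (K C : ℝ) : ∃ E : ℝ, 1 ≤ E ∧ ∀ φ, IsQI M.Q M.Q K C φ → ∀ col, ∀ s : ℝ, 0 ≤ s →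
    ∀ ζ₀ ∈ M.Z s, ∀ u ∈ M.Z s, ∀ ζ l : M.G,
      ‖M.A (φ (l * ζ)) - M.A (φ l) - col (l * ζ₀) (M.A ζ)‖ ≤
        M.er φ col (l * ζ₀) (ζ₀⁻¹ * ζ * u) + E * (s + 1) := by
  obtain ⟨C₁, h1, hA⟩ := M.A_lip K C
  obtain ⟨C₂, h2, hl⟩ := M.ln_Z
  obtain ⟨C₃, h3, hZ⟩ := M.Z_A
  refine ⟨2 * (C₁ * (C₂ + 1)) + 2 * C₃, by nlinarith, fun φ hφ col s hs ζ₀ hζ u hu ζ l => ?_⟩
  have key : ∀ z ∈ M.Z s, ∀ x, ‖M.A (φ (x * z)) - M.A (φ x)‖ ≤ C₁ * (C₂ + 1) * (s + 1) := by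
    intro z hz x
    refine (hA φ hφ x z).1.trans ?_
    rw [mul_assoc]
    refine mul_le_mul_of_nonneg_left ?_ (by linarith)
    nlinarith [hl s hs z hz]
  have e : M.A (φ (l * ζ)) - M.A (φ l) - col (l * ζ₀) (M.A ζ) =
      (M.A (φ (l * ζ₀ * (ζ₀⁻¹ * ζ * u))) - M.A (φ (l * ζ₀)) -
        col (l * ζ₀) (M.A (ζ₀⁻¹ * ζ * u))) - (M.A (φ (l * ζ * u)) - M.A (φ (l * ζ))) +
        (M.A (φ (l * ζ₀)) - M.A (φ l)) - col (l * ζ₀) (M.A ζ₀) + col (l * ζ₀) (M.A u) := by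
    have : l * ζ₀ * (ζ₀⁻¹ * ζ * u) = l * ζ * u := by group
    rw [this, M.A_mul, M.A_mul, M.A_inv, map_add, map_add, map_neg]
    abel
  rw [e]
  have k1 := key u hu (l * ζ)
  have k2 := key ζ₀ hζ l
  have k3 := (hZ s hs ζ₀ hζ).2
  have k4 := (hZ s hs u hu).2
  rw [← (col (l * ζ₀)).norm_map] at k3 k4
  refine (norm_add_le _ _).trans ?_
  refine (add_le_add_left (norm_sub_le _ _) _).trans ?_
  refine (add_le_add_left (add_le_add_left (norm_add_le _ _) _) _).trans ?_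
  refine (add_le_add_left (add_le_add_left (add_le_add_left (norm_sub_le _ _) _) _) _).trans ?_
  unfold er
  nlinarith

theorem loc_of (K C : ℝ) : ∃ a' : ℝ, 1 ≤ a' ∧ ∀ κ : ℝ, 0 < κ → ∃ η : ℝ, 0 < η ∧ η ≤ 1 ∧
    ∀ φ col ν ρ R, M.Stage K C φ col ν ρ a' R η → ∃ ζ₀ : M.G, ∀ ζ ∈ M.Z ρ,
      ν.real {l | κ * ρ < ‖M.A (φ (l * ζ)) - M.A (φ l) - col (l * ζ₀) (M.A ζ)‖} ≤
        κ * ν.real Set.univ := by
  obtain ⟨C₁, hC₁, hm1⟩ := M.mul_mem 1 zero_le_one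
  obtain ⟨L, hL, hm2⟩ := M.mul_mem C₁ (by linarith)
  obtain ⟨a', ha', haff⟩ := M.aff1 K C L (by linarith)
  obtain ⟨E, hE, herr⟩ := M.LocA_err K C
  refine ⟨a', ha', fun κ hκ => ?_⟩
  set n := Module.finrank ℝ M.u0
  obtain ⟨t, ht0, ht1, ht⟩ : ∃ t : ℝ, 0 < t ∧ t ≤ 1 ∧ E * t ≤ κ / 3 :=
    ⟨min 1 (κ / 3 / E), by positivity, min_le_left _ _, by
      rw [← le_div_iff₀' (by positivity)]; exact min_le_right _ _⟩
  set γ := t ^ M.c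
  have hγ0 : 0 < γ := by positivity
  have hγ1 : γ ≤ 1 := pow_le_one₀ ht0.le ht1
  obtain ⟨θ, hθ0, hθ1, hθ⟩ : ∃ θ : ℝ, 0 < θ ∧ θ ≤ κ / 3 ∧ θ * L ^ n ≤ κ * (γ ^ n * γ ^ n) :=
    ⟨min (κ / 3) (κ * (γ ^ n * γ ^ n) / L ^ n), by positivity, min_le_left _ _, by
      rw [← le_div_iff₀ (by positivity)]; exact min_le_right _ _⟩
  obtain ⟨η, hη0, hη1, hη⟩ := haff θ hθ0
  refine ⟨min η t, by positivity, (min_le_left _ _).trans hη1, fun φ col ν ρ R hS => ?_⟩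
  have := hS.fin
  obtain ⟨r1, -, r3⟩ := hS.rho
  have hρ : 0 < ρ := by linarith
  have h1 := hη φ col ν ρ R (hS.mono (by linarith) le_rfl (min_le_left _ _) hη1)
  have hZ := M.Z_isLB ρ
  have hmZ := M.m0_Z_pos hρ
  have hYZ : γ • M.Z ρ ⊆ (1 : ℝ) • M.Z ρ := hZ.sc.smul_mono (by rwa [abs_of_pos hγ0])
  have hmeas : MeasurableSet {p : (M.G × M.G) × M.G | θ * ρ < M.er φ col (p.2 * p.1.1) p.1.2} :=
    measurableSet_lt measurable_const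
      (M.measurable_er hS.qi hS.hcol (by fun_prop) (by fun_prop))
  have hY0 : 0 < M.m0.real (γ • M.Z ρ) := by rw [M.m0_smul hγ0]; positivity
  have hYf := (M.isCompact_sZ γ ρ).measure_lt_top (μ := M.m0)
  have hWf := (M.isCompact_sZ L ρ).measure_lt_top (μ := M.m0)
  obtain ⟨ζ₀, hζ₀, h2⟩ := M.LocA_avg M.m0 (M.isCompact_sZ γ ρ).measurableSet
    (M.isCompact_sZ L ρ).measurableSet (ENNReal.toReal_pos_iff.1 hY0).1.ne' hYf.ne hYZ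
    (measurable_measure_prodMk_left (ν := ν) hmeas) (b := ENNReal.ofReal (θ * M.nr ν ρ))
    (fun y hy => by
      have hE' : MeasurableSet {x | θ * ρ < M.er φ col x y} :=
        measurableSet_lt measurable_const
          (M.measurable_er hS.qi hS.hcol measurable_id measurable_const)
      refine le_trans (le_of_eq (M.lam_apply ν _ hE').symm) ?_
      exact (ENNReal.le_ofReal_iff_toReal_le (measure_ne_top _ _)
        (mul_nonneg hθ0.le (M.nr_nonneg ν ρ))).2 (h1 y hy))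
  refine ⟨ζ₀, fun ζ hζ => ?_⟩
  have hζ1 : ζ ∈ (1 : ℝ) • M.Z ρ := by rwa [one_smul]
  have hg : ζ₀⁻¹ * ζ ∈ C₁ • M.Z ρ :=
    hm1 _ hZ (M.Z_tame ρ) _ (M.inv_mem hZ.sc (M.Z_tame ρ) (hYZ hζ₀)) _ hζ1
  obtain ⟨u, hu, h3⟩ := h2 (ζ₀⁻¹ * ζ) (M.map_mul_left M.sub_u0 (M.sZ_sub_u0 _ _ hg))
    (fun u hu => hm2 _ hZ (M.Z_tame ρ) _ hg _
      (hZ.sc.smul_mono (by rw [abs_of_pos hγ0]; linarith) hu))
  have h4 := ENNReal.toReal_mono (ENNReal.mul_ne_top ENNReal.ofReal_ne_top hWf.ne) h3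
  rw [ENNReal.toReal_mul, ENNReal.toReal_mul, ENNReal.toReal_mul,
    ENNReal.toReal_ofReal (mul_nonneg hθ0.le (M.nr_nonneg ν ρ)), ← measureReal_def,
    ← measureReal_def, ← measureReal_def, M.m0_smul hγ0, M.m0_smul (by linarith : (0 : ℝ) < L),
    nr] at h4
  have h5 : {l | κ * ρ < ‖M.A (φ (l * ζ)) - M.A (φ l) - col (l * ζ₀) (M.A ζ)‖} ⊆
      Prod.mk (ζ₀, ζ₀⁻¹ * ζ * u) ⁻¹'
        {p : (M.G × M.G) × M.G | θ * ρ < M.er φ col (p.2 * p.1.1) p.1.2} := by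
    intro l hl
    have h6 := herr φ hS.qi.2 col (t * ρ) (by positivity) ζ₀
      (M.pow_smul_Z_subset ht0.le ht1 hζ₀) u (M.pow_smul_Z_subset ht0.le ht1 hu) ζ l
    have h7 : κ * ρ < _ := hl
    have h8 : min η t * ρ ≤ t * ρ := mul_le_mul_of_nonneg_right (min_le_right _ _) hρ.le
    have h9 := mul_le_mul_of_nonneg_right ht hρ.le
    have h10 := mul_le_mul_of_nonneg_right hθ1 hρ.le
    have h11 : E * 1 ≤ E * (t * ρ) := mul_le_mul_of_nonneg_left (by linarith) (by linarith)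
    show θ * ρ < M.er φ col (l * ζ₀) (ζ₀⁻¹ * ζ * u)
    nlinarith
  refine (measureReal_mono h5).trans ?_
  have hν : 0 ≤ ν.real Set.univ := measureReal_nonneg
  set m := M.m0.real (M.Z ρ)
  refine le_of_mul_le_mul_right (a := γ ^ n * m * (γ ^ n * m)) ?_ (by positivity)
  rw [← mul_assoc]
  refine h4.trans ?_
  have h12 := mul_le_mul_of_nonneg_right hθ (mul_nonneg hν (mul_pos hmZ hmZ).le)
  nlinarith

end Vale.Agent.P188.Geo
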