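import Vale.Agent.P188.N.Bal
import Vale.Agent.P188.N.Line
import Vale.Agent.P188.N.DirC

/-! Purity: the colour is almost constant along `u0`-moves of size `ρ`.
Plan: `exists_dirs`.  For each `J : Finset ι` with `span (c '' J) = u0` take the constants of
`word_change` for `Lc = J.image c`; finitely many `J`, so take common bounds `a₁, L', N`
(`pr_mono_a`); `line a₁ L'` gives `a₂`; `bal` for `a₂` gives `a'`.  For `w ≠ w'` in `W` take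
`J, σ` from `Dirs.sep` and `f x = σ (col x)`, which equals `sg col (μ j) (c j) x` for `j ∈ J`.
If `col (x y) ≠ col x` then for the pair `(col x, col (x y))` the predicate `f` changes.  Union
bound over the finitely many pairs (`W_finite`, `pr_biUnion`); total `card ^ 2 N C C' β nr`.
-/

namespace Vale.Agent.P188.Geo
open scoped InnerProductSpace Pointwise
open MeasureTheory
variable (M : Geo)

theorem pure (K C a L : ℝ) (ha : 1 ≤ a) (hL : 0 ≤ L) : ∃ a' : ℝ, a ≤ a' ∧ ∀ θ : ℝ, 0 < θ →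
    ∃ η : ℝ, 0 < η ∧ η ≤ 1 ∧ ∀ φ col ν ρ R, M.Stage K C φ col ν ρ a' R η → ∀ y ∈ L • M.Z ρ,
      M.pr ν ρ a {x | col (x * y) ≠ col x} ≤ θ * M.nr ν ρ := by
  classical
  obtain ⟨ι, _, μ, c, g₀, hD⟩ := M.exists_dirs
  have h1 : ∀ J : Finset ι, ∃ a' L' N : ℝ, a ≤ a' ∧ 0 ≤ L' ∧ 1 ≤ N ∧
      (Submodule.span ℝ (c '' J) = M.u0 →
        ∀ (ν : Measure M.G) [IsFiniteMeasure ν] (ρ θ : ℝ), 0 ≤ ρ → 0 ≤ θ → ∀ f : M.G → Prop,
        (∀ c' ∈ J.image c, ∀ t : ℝ, |t| ≤ L' * ρ →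
          M.pr ν ρ a' {x | ¬ (f (x * (t • c')) ↔ f x)} ≤ θ) →
        ∀ y ∈ L • M.Z ρ, M.pr ν ρ a {x | ¬ (f (x * y) ↔ f x)} ≤ N * θ) := fun J => by
    by_cases hJ : Submodule.span ℝ (c '' J) = M.u0
    · obtain ⟨a', L', N, h1, h2, h3, h4⟩ := M.word_change a L ha hL (J.image c)
        (by rwa [Finset.coe_image])
      exact ⟨a', L', N, h1, h2, h3, fun _ => h4⟩
    · exact ⟨a, 0, 1, le_rfl, le_rfl, le_rfl, fun h => absurd h hJ⟩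
  choose a₁ L₁ N₁ b1 b2 b3 b4 using h1
  have c1 : ∀ J, a₁ J ≤ ∑ J, a₁ J := fun J =>
    Finset.single_le_sum (fun J _ => by linarith [b1 J]) (Finset.mem_univ J)
  have c2 : ∀ J, L₁ J ≤ ∑ J, L₁ J := fun J =>
    Finset.single_le_sum (fun J _ => b2 J) (Finset.mem_univ J)
  have c3 : ∀ J, N₁ J ≤ ∑ J, N₁ J := fun J =>
    Finset.single_le_sum (fun J _ => by linarith [b3 J]) (Finset.mem_univ J)
  have c4 : a ≤ ∑ J, a₁ J := (b1 ∅).trans (c1 ∅)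
  have c5 : 0 ≤ ∑ J, N₁ J := by linarith [b3 ∅, c3 ∅]
  obtain ⟨a₂, C₁, d1, d2, d3⟩ := M.line (∑ J, a₁ J) (∑ J, L₁ J) (ha.trans c4)
    ((b2 ∅).trans (c2 ∅))
  obtain ⟨a', C', e1, e2, e3⟩ := M.bal hD K C a₂ (ha.trans (c4.trans d1))
  refine ⟨a', c4.trans (d1.trans e1), fun θ hθ => ?_⟩
  obtain ⟨Wf, hWf⟩ : ∃ Wf : Finset (M.V ≃ₗᵢ[ℝ] M.V), ∀ w, w ∈ Wf ↔ w ∈ M.W :=
    ⟨M.W_finite.toFinset, fun w => M.W_finite.mem_toFinset⟩
  obtain ⟨β, β0, hβ⟩ := exists_pos_mul_lt (lt_min hθ one_pos)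
    (((Wf ×ˢ Wf).card : ℝ) * ((∑ J, N₁ J) * (C₁ * C')) + C')
  have f0 : 0 ≤ ((Wf ×ˢ Wf).card : ℝ) * ((∑ J, N₁ J) * (C₁ * C')) * β := by positivity
  have f1 : C' * β ≤ 1 := by nlinarith [min_le_right θ 1]
  have f2 : ((Wf ×ˢ Wf).card : ℝ) * ((∑ J, N₁ J) * (C₁ * C')) * β ≤ θ := by
    nlinarith [min_le_left θ 1]
  have f3 : β ≤ 1 := by nlinarith
  obtain ⟨η, η0, η1, hη⟩ := e3 β β0 f1
  refine ⟨η, η0, η1, fun φ col ν ρ R hS y hy => ?_⟩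
  have := hS.fin
  have ρ0 : 0 < ρ := by linarith [hS.rho.2.2]
  have n0 := M.nr_nonneg ν ρ
  have g1 : ∀ j, ∀ t : ℝ, |t| ≤ (∑ J, L₁ J) * ρ → M.pr ν ρ (∑ J, a₁ J)
      {x | ¬ (M.sg col (μ j) (c j) (x * (t • c j)) ↔ M.sg col (μ j) (c j) x)} ≤
        C₁ * C' * β * M.nr ν ρ := fun j t ht => by
    refine (d3 ν ρ β _ ρ0 β0 f3 (by positivity) (c j) (hD.mem j) (hD.norm_le j) _
      (fun τ t1 t2 => hη φ col ν ρ R hS τ t1 t2 j) t ht).trans_eq ?_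
    field_simp
  have g2 : ∀ p ∈ Wf ×ˢ Wf, M.pr ν ρ a {x | col x = p.1 ∧ col (x * y) = p.2 ∧ p.1 ≠ p.2} ≤
      (∑ J, N₁ J) * (C₁ * C' * β * M.nr ν ρ) := fun p hp => by
    obtain ⟨p1, p2⟩ := Finset.mem_product.1 hp
    by_cases hne : p.1 = p.2
    · have e : {x | col x = p.1 ∧ col (x * y) = p.2 ∧ p.1 ≠ p.2} = ∅ := by simp [hne]
      rw [e, pr, measureReal_empty]
      positivity
    obtain ⟨J, σ, s1, s2, s3, s4⟩ := hD.sep _ ((hWf _).1 p1) _ ((hWf _).1 p2) hne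
    have k := b4 J s3 ν ρ (C₁ * C' * β * M.nr ν ρ) ρ0.le (by positivity) (fun x => σ (col x))
      (fun c' hc' t ht => by
        obtain ⟨j, hj, rfl⟩ := Finset.mem_image.1 hc'
        refine (M.pr_mono_a ν ρ (by linarith [b1 J]) (c1 J) _).trans (le_of_eq_of_le ?_
          (g1 j t (ht.trans (mul_le_mul_of_nonneg_right (c2 J) ρ0.le))))
        simp only [sg, s4 j hj _ (hS.hcol.1 _)]) y hy
    refine (M.pr_mono ν ρ a ?_).trans (k.trans (mul_le_mul_of_nonneg_right (c3 J) (by positivity)))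
    rintro x ⟨x1, x2, -⟩ hx
    rw [x1, x2] at hx
    exact s2 (hx.2 s1)
  have g3 : {x | col (x * y) ≠ col x} ⊆
      ⋃ p ∈ Wf ×ˢ Wf, {x | col x = p.1 ∧ col (x * y) = p.2 ∧ p.1 ≠ p.2} := fun x hx =>
    Set.mem_biUnion (x := (col x, col (x * y)))
      (Finset.mem_product.2 ⟨(hWf _).2 (hS.hcol.1 _), (hWf _).2 (hS.hcol.1 _)⟩)
      ⟨rfl, rfl, fun h => hx h.symm⟩
  refine (M.pr_mono ν ρ a g3).trans ((M.pr_biUnion ν ρ a _ _).trans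
    ((Finset.sum_le_card_nsmul _ _ _ g2).trans ?_))
  rw [nsmul_eq_mul]
  exact le_of_eq_of_le (by ring) (mul_le_mul_of_nonneg_right f2 n0)

end Vale.Agent.P188.Geo
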