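import Vale.Agent.P188.N.Count

/-! Deterministic monotonicity of signs along a segment.
Plan: `γ k = ∑ i ∈ range k, σ • w i s`, `r' i = ⨆ j : Fin (J+1), wv (γ j) i`,
`rz i = ∑ k ∈ range J, σ * max 0 (wv (w k s) i)`.  `r' ≤ rz`; `Phi rz ≤ J σ Psi s` (`Phi_add_le`,
`vol_Phi_zero`, `Phi_smul`, `w k ∈ W`); `|wv v i| ≤ wmax ‖v‖`, `Phi_le_add`.  Choose `k₀ ≤ J`
maximising `⟪μ, γ k⟫`; `D = ∑ max 0 (a k) - ∑_{k < k₀} a k ≥ 0` with `a k = σ ⟪μ, w k s⟫`;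
`Phi_strict` gives `Phi r' + D ≤ Phi rz`; `zig_count`.
-/

namespace Vale.Agent.P188.Geo
open scoped InnerProductSpace Pointwise
open MeasureTheory
variable (M : Geo)

theorem zig_Phi_sum (s : M.V) {σ : ℝ} (hσ : 0 ≤ σ) {w : ℕ → (M.V ≃ₗᵢ[ℝ] M.V)}
    (hw : ∀ k, w k ∈ M.W) (J : ℕ) :
    M.Phi (fun i => ∑ k ∈ Finset.range J, σ * max 0 ⟪M.wt i, w k s⟫_ℝ) ≤ J * σ * M.Psi s := by
  induction J with
  | zero =>
    simp only [Finset.range_zero, Finset.sum_empty, Nat.cast_zero, zero_mul]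
    exact M.vol_Phi_zero.le
  | succ J ih =>
    have h1 := M.Phi_add_le (fun i => ∑ k ∈ Finset.range J, σ * max 0 ⟪M.wt i, w k s⟫_ℝ)
      (σ • fun i => max 0 ⟪M.wt i, w J s⟫_ℝ)
    have h2 : M.Phi (fun i => max 0 ⟪M.wt i, w J s⟫_ℝ) = M.Psi s := hw J s
    rw [M.Phi_smul hσ, h2] at h1
    simp only [Finset.sum_range_succ]
    push_cast
    exact h1.trans (by linarith)

theorem zig_wv (v : M.V) (i : Fin M.d) : M.wv v i ≤ M.wmax * ‖v‖ :=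
  (real_inner_le_norm _ _).trans (mul_le_mul_of_nonneg_right
    (Finset.single_le_sum (f := fun i => ‖M.wt i‖) (fun _ _ => norm_nonneg _) (Finset.mem_univ i))
    (norm_nonneg _))

theorem zig : ∃ C : ℝ, 1 ≤ C ∧ ∀ μ p, M.GenF μ p → ∀ (s : M.V) (σ g₀ κ ε : ℝ) (J h : ℕ)
    (w : ℕ → (M.V ≃ₗᵢ[ℝ] M.V)) (F : ℕ → M.V), 0 < σ → 0 < g₀ → 0 ≤ ε → (∀ k, w k ∈ M.W) →
    (∀ k, g₀ ≤ |⟪μ, w k s⟫_ℝ|) → (∀ k ≤ J, ‖F k - ∑ i ∈ Finset.range k, σ • w i s‖ ≤ ε) →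
    J * σ * M.Psi s - κ ≤ M.Phi (fun i => ⨆ j : Fin (J + 1), M.wv (F j) i) →
      (((Finset.range J).filter fun k =>
        k + h < J ∧ ¬ 0 < ⟪μ, w k s⟫_ℝ ∧ 0 < ⟪μ, w (k + h) s⟫_ℝ).card : ℝ) * (σ * g₀) ≤
        κ + C * ε := by
  have hw0 : 0 ≤ M.wmax := Finset.sum_nonneg fun _ _ => norm_nonneg _
  refine ⟨M.d * M.c * M.wmax + 1, le_add_of_nonneg_left (by positivity), ?_⟩
  intro μ p hp s σ g₀ κ ε J h w F hσ hg hε hw ha hF hΦ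
  let γ : ℕ → M.V := fun k => ∑ i ∈ Finset.range k, σ • w i s
  have hγ : ∀ (ν : M.V) k, ⟪ν, γ k⟫_ℝ = ∑ i ∈ Finset.range k, σ * ⟪ν, w i s⟫_ℝ := fun ν k => by
    simp only [γ, inner_sum, inner_smul_right]
  have hle : ∀ (ν : M.V) k, k ≤ J → ⟪ν, γ k⟫_ℝ ≤ ∑ i ∈ Finset.range J, σ * max 0 ⟪ν, w i s⟫_ℝ :=
    fun ν k hk => by
    rw [hγ]
    refine (Finset.sum_le_sum fun i _ => mul_le_mul_of_nonneg_left (le_max_right 0 _) hσ.le).trans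
      (Finset.sum_le_sum_of_subset_of_nonneg (Finset.range_mono hk) fun i _ _ => ?_)
    exact mul_nonneg hσ.le (le_max_left _ _)
  obtain ⟨k₀, hk₀⟩ := Finite.exists_max fun j : Fin (J + 1) => ⟪μ, γ j⟫_ℝ
  have h1 : M.Phi (fun i => ⨆ j : Fin (J + 1), M.wv (F j) i) ≤
      M.Phi (fun i => ⨆ j : Fin (J + 1), M.wv (γ j) i) + M.d * M.c * (M.wmax * ε) := by
    refine M.Phi_le_add (by positivity) fun i _ => ciSup_le fun j => ?_
    have k1 : M.wv (γ j) i ≤ ⨆ j : Fin (J + 1), M.wv (γ j) i :=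
      le_ciSup (f := fun j : Fin (J + 1) => M.wv (γ j) i) (Set.finite_range _).bddAbove j
    have k2 := (M.zig_wv (F j - γ j) i).trans
      (mul_le_mul_of_nonneg_left (hF j (Nat.lt_succ_iff.1 j.2)) hw0)
    have k3 : M.wv (F j - γ j) i = M.wv (F j) i - M.wv (γ j) i := inner_sub_right _ _ _
    linarith
  have h2 := M.Phi_strict hp (r := fun i => ∑ k ∈ Finset.range J, σ * max 0 ⟪M.wt i, w k s⟫_ℝ)
    (r' := fun i => ⨆ j : Fin (J + 1), M.wv (γ j) i)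
    (sub_nonneg.2 (hle μ k₀ (Nat.lt_succ_iff.1 k₀.2)))
    (fun i _ => ciSup_le fun j => hle _ j (Nat.lt_succ_iff.1 j.2)) fun i hi => by
      have : ⨆ j : Fin (J + 1), M.wv (γ j) i ≤ ⟪μ, γ k₀⟫_ℝ :=
        ciSup_le fun j => by rw [wv, hi]; exact hk₀ j
      rw [hi]
      linarith
  have h3 := M.zig_Phi_sum s hσ.le hw J
  have h4 := zig_count J h (fun k => σ * ⟪μ, w k s⟫_ℝ) (g := σ * g₀) (D := κ +
    (M.d * M.c * M.wmax + 1) * ε) (by positivity) (fun k => by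
      rw [abs_mul, abs_of_pos hσ]
      exact mul_le_mul_of_nonneg_left (ha k) hσ.le) (Nat.lt_succ_iff.1 k₀.2) (by
      have e : ∀ k, max 0 (σ * ⟪μ, w k s⟫_ℝ) = σ * max 0 ⟪μ, w k s⟫_ℝ := fun k => by
        rw [mul_max_of_nonneg _ _ hσ.le, mul_zero]
      simp only [e]
      rw [← hγ]
      nlinarith)
  simpa only [mul_pos_iff_of_pos_left hσ] using h4

end Vale.Agent.P188.Geo
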